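import Mathlib

/-! Row 114: a `ρ`-function with uniformly bounded level sets on a well order of type `≤ ω₁`. -/

set_option autoImplicit false

open Finset

namespace Crest.Agent.R114

/-- Well-founded recursion with choice. Plan: define `f` by `WellFounded.fix` as
`if h : ∃ d, G β f' d then h.choose else default` where `f' γ` is the recursive value for `γ < β`
and `default` otherwise; then strong induction, using `hloc` in both directions. -/
theorem exists_rec {I D : Type*} [LinearOrder I] [WellFoundedLT I] [Inhabited D]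
    (G : I → (I → D) → D → Prop)
    (hloc : ∀ β f f' d, (∀ γ, γ < β → f γ = f' γ) → G β f d → G β f' d)
    (hstep : ∀ β f, (∀ γ, γ < β → G γ f (f γ)) → ∃ d, G β f d) :
    ∃ f : I → D, ∀ β, G β f (f β) := by
  classical
  let F : (β : I) → ((γ : I) → γ < β → D) → D := fun β r =>
    if h : ∃ d, G β (fun γ => if h : γ < β then r γ h else default) d then h.choose else default
  let f : I → D := (wellFounded_lt (α := I)).fix F
  have hf : ∀ β, f β = F β (fun γ _ => f γ) := fun β => WellFounded.fix_eq _ F β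
  refine ⟨f, fun β => ?_⟩
  induction β using (wellFounded_lt (α := I)).induction with
  | _ β ih =>
    have h1 : ∃ d, G β (fun γ => if h : γ < β then f γ else default) d := by
      obtain ⟨d, hd⟩ := hstep β f ih
      exact ⟨d, hloc β f _ d (fun γ hγ => by simp [hγ]) hd⟩
    have h2 : f β = h1.choose := by
      rw [hf]
      exact dif_pos h1
    rw [h2]
    exact hloc β _ f _ (fun γ hγ => by simp [hγ]) h1.choose_spec

/-- The invariant carried along the recursion. -/
def RhoInv {I : Type} [LinearOrder I] (β : I) (f : I → ℕ → Finset I) (d : ℕ → Finset I) : Prop :=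
  (∀ q q', q ≤ q' → d q ⊆ d q') ∧ (∀ q, β ∈ d q) ∧ (∀ q, ∀ x ∈ d q, x ≤ β) ∧
    (∀ α, α ≤ β → ∃ q, α ∈ d q) ∧
    (∀ q α, α ∈ d q → α < β → f α q = (d q).filter (· ≤ α)) ∧
    (∀ q, (d q).card ≤ q + 1) ∧ (∀ c, ∃ q₀, ∀ q, q₀ ≤ q → (d q).card + c ≤ q + 1)

theorem rho_cofinal {I : Type} [LinearOrder I] (β : I) (hc : (Set.Iio β).Countable)
    (hne : (Set.Iio β).Nonempty) :
    ∃ b : ℕ → I, Monotone b ∧ (∀ i, b i < β) ∧ ∀ α, α < β → ∃ i, α ≤ b i := by
  obtain ⟨e, he⟩ := hc.exists_eq_range hne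
  have he1 : ∀ i, e i < β := fun i => by
    have : e i ∈ Set.Iio β := he ▸ Set.mem_range_self i
    exact this
  let b : ℕ → I := fun i => Nat.rec (e 0) (fun k x => max x (e (k + 1))) i
  have hb0 : b 0 = e 0 := rfl
  have hbs : ∀ k, b (k + 1) = max (b k) (e (k + 1)) := fun _ => rfl
  refine ⟨b, monotone_nat_of_le_succ fun k => by rw [hbs]; exact le_max_left _ _, fun i => ?_,
    fun α hα => ?_⟩
  · induction i with
    | zero => rw [hb0]; exact he1 0
    | succ k ih => rw [hbs]; exact max_lt ih (he1 _)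
  · have : α ∈ Set.range e := he ▸ hα
    obtain ⟨i, rfl⟩ := this
    refine ⟨i, ?_⟩
    cases i with
    | zero => rw [hb0]
    | succ k => rw [hbs]; exact le_max_right _ _

theorem rho_coh {I : Type} [LinearOrder I] {β : I} {f : I → ℕ → Finset I}
    (h : RhoInv β f (f β)) {q : ℕ} {α : I} (hα : α ∈ f β q) :
    f α q = (f β q).filter (· ≤ α) := by
  obtain ⟨-, -, h3, -, h5, -, -⟩ := h
  rcases (h3 q α hα).lt_or_eq with hlt | rfl
  · exact h5 q α hα hlt
  · exact (Finset.filter_true_of_mem (h3 q)).symm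

theorem rho_step {I : Type} [LinearOrder I] (β : I) (hc : (Set.Iio β).Countable)
    (f : I → ℕ → Finset I) (ih : ∀ γ, γ < β → RhoInv γ f (f γ)) : ∃ d, RhoInv β f d := by
  classical
  rcases (Set.Iio β).eq_empty_or_nonempty with hem | hne
  · have hmin : ∀ α, ¬ α < β := fun α hα => by
      have : α ∈ Set.Iio β := hα
      rw [hem] at this
      exact this
    refine ⟨fun _ => {β}, fun _ _ _ => subset_rfl, fun _ => mem_singleton_self _,
      fun _ x hx => (mem_singleton.1 hx).le, fun α hα => ⟨0, ?_⟩,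
      fun _ α _ hα => (hmin α hα).elim, fun q => by simp, fun c => ⟨c, fun q hq => ?_⟩⟩
    · rcases hα.lt_or_eq with h | h
      · exact (hmin α h).elim
      · exact mem_singleton.2 h
    · simp only [card_singleton]; omega
  obtain ⟨b, hbm, hb, hbc⟩ := rho_cofinal β hc hne
  have hm : ∀ i, ∃ m, (∀ q, m ≤ q → (f (b i) q).card + (i + 1) ≤ q + 1) ∧
      ∀ q, m ≤ q → b (i - 1) ∈ f (b i) q := by
    intro i
    obtain ⟨h1, -, -, h4, -, -, h7⟩ := ih (b i) (hb i)
    obtain ⟨q₀, hq₀⟩ := h7 (i + 1)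
    obtain ⟨q₁, hq₁⟩ := h4 (b (i - 1)) (hbm (Nat.sub_le i 1))
    exact ⟨max q₀ q₁, fun q hq => hq₀ q (le_trans (le_max_left _ _) hq),
      fun q hq => h1 q₁ q (le_trans (le_max_right _ _) hq) hq₁⟩
  choose m hm1 hm2 using hm
  obtain ⟨n, hn0, hns⟩ : ∃ n : ℕ → ℕ, n 0 = m 0 ∧ ∀ k, n (k + 1) = n k + m (k + 1) + 1 :=
    ⟨fun i => Nat.rec (m 0) (fun k x => x + m (k + 1) + 1) i, rfl, fun _ => rfl⟩
  have hnm : ∀ i, m i ≤ n i := fun i => by
    cases i with
    | zero => rw [hn0]
    | succ k => rw [hns]; omega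
  have hnsm : StrictMono n := strictMono_nat_of_lt_succ fun k => by rw [hns]; omega
  have hni : ∀ i, i ≤ n i := fun i => hnsm.le_apply
  let ix : ℕ → ℕ := fun q : ℕ => Nat.findGreatest (fun i : ℕ => (n i : ℕ) ≤ (q : ℕ)) q
  have hix1 : ∀ q, n 0 ≤ q → n (ix q) ≤ q := fun q hq =>
    Nat.findGreatest_spec (P := fun i => n i ≤ q) (Nat.zero_le q) hq
  have hix2 : ∀ q i, n i ≤ q → i ≤ ix q := fun q i hq =>
    Nat.le_findGreatest (P := fun i => n i ≤ q) (le_trans (hni i) hq) hq
  have K2 : ∀ i i' q, i ≤ i' → n i' ≤ q → f (b i) q ⊆ f (b i') q := by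
    intro i i' q hi
    induction i', hi using Nat.le_induction with
    | base => intro _; exact subset_rfl
    | succ k _ ihk =>
      intro hq
      have h1 : n k ≤ q := le_trans (hnsm (Nat.lt_succ_self k)).le hq
      refine (ihk h1).trans ?_
      have h2 : b k ∈ f (b (k + 1)) q := by
        simpa using hm2 (k + 1) q (le_trans (hnm _) hq)
      rw [rho_coh (ih _ (hb (k + 1))) h2]
      exact filter_subset _ _
  let d : ℕ → Finset I := fun q => if n 0 ≤ q then insert β (f (b (ix q)) q) else {β}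
  have hd1 : ∀ q, n 0 ≤ q → d q = insert β (f (b (ix q)) q) := fun q hq => if_pos hq
  have hd2 : ∀ q, ¬ n 0 ≤ q → d q = {β} := fun q hq => if_neg hq
  have hβ : ∀ q, β ∈ d q := fun q => by
    by_cases hq : n 0 ≤ q
    · rw [hd1 q hq]; exact mem_insert_self _ _
    · rw [hd2 q hq]; exact mem_singleton_self _
  have hcard : ∀ q, n 0 ≤ q → (d q).card + ix q ≤ q + 1 := fun q hq => by
    rw [hd1 q hq]
    have h1 := hm1 (ix q) q (le_trans (hnm _) (hix1 q hq))
    have h2 := card_insert_le β (f (b (ix q)) q)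
    omega
  refine ⟨d, fun q q' hqq => ?_, hβ, fun q x hx => ?_, fun α hα => ?_, fun q α hα hαβ => ?_,
    fun q => ?_, fun c => ⟨n c, fun q hq => ?_⟩⟩
  · by_cases hq : n 0 ≤ q
    · have hq' : n 0 ≤ q' := le_trans hq hqq
      rw [hd1 q hq, hd1 q' hq']
      refine insert_subset_insert _ ?_
      refine ((ih _ (hb (ix q))).1 q q' hqq).trans ?_
      exact K2 _ _ _ (hix2 q' _ (le_trans (hix1 q hq) hqq)) (hix1 q' hq')
    · rw [hd2 q hq]
      exact singleton_subset_iff.2 (hβ q')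
  · by_cases hq : n 0 ≤ q
    · rw [hd1 q hq] at hx
      rcases mem_insert.1 hx with h | h
      · exact h.le
      · exact (((ih _ (hb (ix q))).2.2.1 q x h).trans_lt (hb _)).le
    · rw [hd2 q hq] at hx
      exact (mem_singleton.1 hx).le
  · rcases hα.lt_or_eq with h | rfl
    · obtain ⟨i, hi⟩ := hbc α h
      obtain ⟨q₀, hq₀⟩ := (ih _ (hb i)).2.2.2.1 α hi
      have h1 : n i ≤ max q₀ (n i) := le_max_right _ _
      have h0 : n 0 ≤ max q₀ (n i) := le_trans (hnsm.monotone (Nat.zero_le i)) h1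
      refine ⟨max q₀ (n i), ?_⟩
      rw [hd1 _ h0]
      refine mem_insert_of_mem ?_
      refine K2 i _ _ (hix2 _ _ h1) (hix1 _ h0) ?_
      exact (ih _ (hb i)).1 _ _ (le_max_left _ _) hq₀
    · exact ⟨0, hβ 0⟩
  · by_cases hq : n 0 ≤ q
    · rw [hd1 q hq] at hα ⊢
      have h1 : α ∈ f (b (ix q)) q := by
        rcases mem_insert.1 hα with h | h
        · exact (hαβ.ne h).elim
        · exact h
      rw [filter_insert, if_neg (not_le.2 hαβ)]
      exact rho_coh (ih _ (hb _)) h1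
    · rw [hd2 q hq] at hα
      exact (hαβ.ne (mem_singleton.1 hα)).elim
  · by_cases hq : n 0 ≤ q
    · have := hcard q hq
      omega
    · rw [hd2 q hq]; simp
  · have h0 : n 0 ≤ q := le_trans (hnsm.monotone (Nat.zero_le c)) hq
    have h1 := hcard q h0
    have h2 := hix2 q c hq
    omega

/-- Plan.  Use `exists_rec` with `D = ℕ → Finset I` and `G β f d`: `d` is monotone, `β ∈ d q`,
`d q ⊆ Iic β`, every `α ≤ β` is in some `d q`, `α ∈ d q → α < β → f α q = (d q).filter (· ≤ α)`,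
`(d q).card ≤ q + 1`, and (slack) `∀ c, ∃ q₀, ∀ q ≥ q₀, (d q).card + c ≤ q + 1`.
Step: if `Iio β` is empty take `d q = {β}`.  Otherwise take a monotone sequence `b i < β` such that
every `α < β` is `≤ b i` for some `i` (enumerate the countable set `Iio β`, take running maxima).
Choose `n 0 < n 1 < …` with `b i ∈ f (b (i+1)) (n (i+1))` and
`∀ q ≥ n i, (f (b i) q).card + (i + 1) ≤ q + 1`.  Put `d q = {β}` for `q < n 0` and
`d q = insert β (f (b i) q)` for `n i ≤ q < n (i+1)`.  Key fact: for `q ≥ n (i+1)`,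
`f (b i) q ⊆ f (b (i+1)) q` (coherence at `b (i+1)`, or `b i = b (i+1)`), hence
`f (b i) q ⊆ f (b i') q` whenever `i ≤ i'`, `n i' ≤ q`. -/
theorem exists_rho (I : Type) [LinearOrder I] [WellFoundedLT I]
    (hc : ∀ a : I, (Set.Iio a).Countable) :
    ∃ F : ℕ → I → Finset I, (∀ β q q', q ≤ q' → F q β ⊆ F q' β) ∧
      (∀ α β, α ≤ β → ∃ q, α ∈ F q β) ∧
      (∀ q α β, α ∈ F q β → F q α = (F q β).filter (· ≤ α)) ∧
      ∀ q β, (F q β).card ≤ q + 1 := by
  obtain ⟨f, hf⟩ := exists_rec (I := I) (D := ℕ → Finset I) RhoInv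
    (fun β f f' d hff h => by
      obtain ⟨h1, h2, h3, h4, h5, h6, h7⟩ := h
      exact ⟨h1, h2, h3, h4, fun q α hα hαβ => by rw [← hff α hαβ]; exact h5 q α hα hαβ, h6, h7⟩)
    (fun β f ih => rho_step β (hc β) f ih)
  exact ⟨fun q β => f β q, fun β => (hf β).1, fun α β h => (hf β).2.2.2.1 α h,
    fun q α β h => rho_coh (hf β) h, fun q β => (hf β).2.2.2.2.2.1 q⟩

end Crest.Agent.R114
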