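import Crest.Agent.R114.Step
import Crest.Agent.R114.Rho

/-! Row 114: the atoms. -/

set_option autoImplicit false

open Finset

namespace Crest.Agent.R114

variable {I : Type} [LinearOrder I] {𝕜 : Type} [RCLike 𝕜] {P : Par} {C : Cod I 𝕜}
variable {Z : Type} [NormedAddCommGroup Z] [NormedSpace 𝕜 Z] {M : Cpl P C Z}

theorem atoms_tendsto {task : I → ℕ → I →₀ 𝕜} {f : I → Br I 𝕜 × (ℕ → StrongDual 𝕜 Z)} {γ : I}
    (hf : Good M task γ f (f γ)) (z : I →₀ 𝕜) :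
    Filter.Tendsto (fun N => (f γ).2 N (M.ι z)) Filter.atTop (nhds 0) := by
  obtain ⟨N₁, hN₁⟩ := hf.ok.eventually_zero z
  have h1 : Filter.Tendsto (fun N : ℕ => 4 * nrm P C z * (1 / ((N : ℝ) + 1))) Filter.atTop
      (nhds 0) := by
    simpa using tendsto_one_div_add_atTop_nhds_zero_nat.const_mul (4 * nrm P C z)
  refine squeeze_zero_norm' (Filter.eventually_atTop.2 ⟨N₁, fun N hN => ?_⟩) h1
  obtain ⟨N₂, hN₂⟩ := hf.approx N z
  have h2 := hN₂ N₂ le_rfl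
  rw [sum_eq_zero fun k hk => hN₁ k (hN.trans (mem_Ico.1 hk).1), sub_zero] at h2
  refine h2.trans ?_
  have h3 : (N : ℝ) + 1 ≤ P.m ((f γ).1.j N) := by
    have h4 : (N : ℝ) ≤ (f γ).1.j N := by exact_mod_cast hf.ok.strictMono.le_apply
    linarith [P.le_m ((f γ).1.j N)]
  have h5 := nrm_nonneg (P := P) (C := C) z
  calc _ ≤ 4 / ((N : ℝ) + 1) * nrm P C z := by gcongr
    _ = _ := by ring

/-- Plan.  `tri`, `diag`: `Good.van` and `Good.supp`.  `norming`: `w` from `exists_norming` (support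
in `L` by `Hull`, as `L` is a lower set), `y = ∑_{γ ∈ supp w} w γ • (e_γ* + T^γ_N)
= fnl w + ∑ w γ • T^γ_N` with `N` large: in the span by `Good.mem_span`, `‖y‖ ≤ 1 + 2`
(`Cpl.norm_fnl_le`, `far_tails`), and `T^γ_N (ι z) → 0` as `N → ∞` (`Good.approx`,
`Br.OK.eventually_zero`, `m (j N) ≥ N + 1`).  `task`: `t = T^β_0`; `‖t‖ ≤ 1 + 4 / m (j 0) ≤ 2`
(`approx`, `Br.OK.fn`, `Cpl.opNorm_le`); `t (ι (u k))` is within `4 / 352 * 44 = 1 / 2` of
`∑_{l < N'} pair (φ l) (u k) = 1`. -/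
theorem atoms_of_good {task : I → ℕ → I →₀ 𝕜} {f : I → Br I 𝕜 × (ℕ → StrongDual 𝕜 Z)}
    (hf : ∀ β, Good M task β f (f β)) :
    Atoms M task fun γ => M.fnl (Finsupp.single γ 1) + (f γ).2 0 := by
  refine ⟨fun β α h => ?_, fun β => ?_, fun L hL z hz r hr => ?_, fun β hb hs => ?_⟩
  · rw [add_apply, M.fnl_ι, (hf β).van 0 α fun k γ hγ => ((hf β).supp k γ hγ).trans h,
      pair_single_left, Finsupp.single_eq_of_ne h.ne, mul_zero, add_zero]
  · rw [add_apply, M.fnl_ι, (hf β).van 0 β (hf β).supp, pair_single_left, Finsupp.single_eq_same,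
      mul_one, add_zero]
  · obtain ⟨w, hw, hh, t, hrt, ht⟩ := exists_norming z hr
    obtain ⟨N₀, hN₀⟩ := far_tails w.support fun γ _ => hf γ
    have h1 : Filter.Tendsto (fun N => ‖(t : 𝕜) + ∑ γ ∈ w.support, w γ * (f γ).2 N (M.ι z)‖)
        Filter.atTop (nhds ‖(t : 𝕜) + ∑ γ ∈ w.support, w γ * 0‖) :=
      ((tendsto_finsetSum _ fun γ _ => (atoms_tendsto (hf γ) z).const_mul (w γ)).const_add _).norm
    have h2 : r < ‖(t : 𝕜) + ∑ γ ∈ w.support, w γ * 0‖ := by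
      simp only [mul_zero, sum_const_zero, add_zero, RCLike.norm_ofReal]
      exact hrt.trans_le (le_abs_self t)
    obtain ⟨N, hN1, hN2⟩ :=
      ((h1.eventually (lt_mem_nhds h2)).and (Filter.eventually_ge_atTop N₀)).exists
    have e : ∑ γ ∈ w.support, w γ • (M.fnl (Finsupp.single γ 1) + (f γ).2 N) =
        M.fnl w + ∑ γ ∈ w.support, w γ • (f γ).2 N := by
      simp only [smul_add, sum_add_distrib, ← map_smul, Finsupp.smul_single, smul_eq_mul, mul_one]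
      rw [← map_sum]
      congr 2
      exact w.sum_single
    refine ⟨∑ γ ∈ w.support, w γ • (M.fnl (Finsupp.single γ 1) + (f γ).2 N),
      Submodule.sum_mem _ fun γ hγ => Submodule.smul_mem _ _ ((hf γ).mem_span N ?_), ?_, ?_⟩
    · obtain ⟨γ', h3, h4⟩ := (hh γ hγ).2
      exact hL.Iic_subset (hL h4 (hz γ' h3))
    · rw [e]
      have h3 := hN₀ N hN2 w fun γ _ => hw.bound_none γ
      have h4 := M.norm_fnl_le hw
      linarith [norm_add_le (M.fnl w) (∑ γ ∈ w.support, w γ • (f γ).2 N)]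
    · rw [e, add_apply, M.fnl_ι, ht]
      simpa only [_root_.sum_apply, smul_apply, smul_eq_mul] using hN1
  · obtain ⟨h1, u, hu⟩ := (hf β).task hb hs
    refine ⟨(f β).2 0, rfl, M.opNorm_le zero_le_two fun z => ?_, fun α hα => (hf β).van 0 α ?_,
      u, fun k => ⟨(hu k).1, (hu k).2.1, ?_⟩⟩
    · obtain ⟨N₁, hN₁⟩ := (hf β).approx 0 z
      have h2 := hN₁ N₁ le_rfl
      have h3 := ((hf β).ok.fn 0 N₁).pair_le_nrm z
      rw [pair_sum_left] at h3
      have h4 : 4 / P.m ((f β).1.j 0) * nrm P C z ≤ 1 * nrm P C z :=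
        mul_le_mul_of_nonneg_right ((div_le_one (P.m_pos _)).2 (P.four_le _)) (nrm_nonneg z)
      linarith [norm_le_norm_add_norm_sub' ((f β).2 0 (M.ι z))
        (∑ k ∈ Ico 0 N₁, pair ((f β).1.φ k) z)]
    · intro k γ hγ
      obtain ⟨i, γ', h2, h3⟩ := h1 k γ hγ
      exact h3.trans_lt (hα i γ' h2)
    · obtain ⟨N₁, hN₁⟩ := (hf β).approx 0 (u k)
      have h2 := hN₁ (max N₁ (k + 1)) (le_max_left _ _)
      simp only [(hu k).2.2, sum_ite_eq'] at h2
      rw [if_pos (mem_Ico.2 ⟨Nat.zero_le _, lt_max_of_lt_right k.lt_succ_self⟩)] at h2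
      have h3 : (352 : ℝ) ≤ P.m ((f β).1.j 0) := by
        have h4 : (351 : ℝ) ≤ (f β).1.j 0 := by exact_mod_cast (hf β).big
        linarith [P.le_m ((f β).1.j 0)]
      have h4 : 4 / P.m ((f β).1.j 0) * nrm P C (u k) ≤ 4 / 352 * 44 :=
        mul_le_mul (by gcongr) (hu k).2.1 (nrm_nonneg _) (by norm_num)
      have h5 := norm_le_norm_add_norm_sub ((f β).2 0 (M.ι (u k))) 1
      rw [norm_one] at h5
      linarith

theorem exists_atoms [WellFoundedLT I] [CompleteSpace Z] (hc : ∀ a : I, (Set.Iio a).Countable)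
    (M : Cpl P C Z) (task : I → ℕ → I →₀ 𝕜) : ∃ x, Atoms M task x := by
  have : Inhabited (Br I 𝕜 × (ℕ → StrongDual 𝕜 Z)) := ⟨⟨⟨0, 0⟩, 0⟩⟩
  obtain ⟨f, hf⟩ := exists_rec (Good M task) (fun _ _ _ _ h hd => hd.loc h)
    (good_step hc M task)
  exact ⟨_, atoms_of_good hf⟩

end Crest.Agent.R114
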