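import Crest.Agent.R114.K

/-! Row 114: `ℓ₁`-averages. -/

set_option autoImplicit false

open Finset

namespace Crest.Agent.R114

variable {I : Type} [LinearOrder I] {𝕜 : Type} [RCLike 𝕜] {P : Par} {C : Cod I 𝕜}

theorem Avg.mono {x : I →₀ 𝕜} {N N' : ℕ} (h : Avg P C x N) (hN : N' ≤ N) : Avg P C x N' := by
  exact fun d hd => h d (hd.trans hN)

theorem Avg.smul {x : I →₀ 𝕜} {N : ℕ} (h : Avg P C x N) {c : 𝕜} (hc : ‖c‖ ≤ 1) :
    Avg P C (c • x) N := by
  intro d hd w hw hf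
  refine le_trans (sum_le_sum fun i _ => ?_) (h d hd w hw hf)
  rw [pair_smul_right, norm_mul]
  exact mul_le_of_le_one_left (norm_nonneg _) hc

/-- Weighted functionals of small index on an average (`Fn.some_inv`). -/
theorem Avg.pair_le {x : I →₀ 𝕜} {N l : ℕ} (h : Avg P C x N) {φ : I →₀ 𝕜}
    (hφ : Fn P C (some l) φ) (hl : P.n l ≤ N) : ‖pair φ x‖ ≤ 4 / P.m l := by
  obtain ⟨d, w, hd, hw, hf, rfl⟩ := hφ.some_inv
  have h1 := h d (hd.trans hl) w hw hf
  have hm := P.m_pos l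
  rw [pair_real_smul_left, norm_mul, RCLike.norm_ofReal, abs_of_pos (inv_pos.2 hm), pair_sum_left,
    inv_mul_eq_div]
  exact div_le_div_of_nonneg_right ((norm_sum_le _ _).trans h1) hm.le

/-- Families of segments with small indices on an average (`sum_seg_le'` with `B = 4`). -/
theorem Avg.sum_seg {x : I →₀ 𝕜} {N : ℕ} (h : Avg P C x N) {κ : Type*} (s : Finset κ)
    (S : κ → Seg I 𝕜) (hS : ∀ t ∈ s, SegIn P C (S t))
    (hdis : ∀ t ∈ s, ∀ t' ∈ s, t ≠ t' → ∀ k ∈ (S t).A, ∀ k' ∈ (S t').A, (S t).j k ≠ (S t').j k')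
    (a : ℕ) (ha : ∀ t ∈ s, ∀ k ∈ (S t).A, a ≤ (S t).j k ∧ P.n ((S t).j k) ≤ N) :
    ∑ t ∈ s, ‖pair (S t).val x‖ ≤ 8 / P.m a := by
  refine (sum_seg_le' s S hS hdis x a 4 (by norm_num) fun t ht k hk =>
    ⟨(ha t ht k hk).1, fun φ hφ => h.pair_le hφ (ha t ht k hk).2⟩).trans (le_of_eq ?_)
  ring

theorem Avg.seg {x : I →₀ 𝕜} {N : ℕ} (h : Avg P C x N) {S : Seg I 𝕜} (hS : SegIn P C S) (a : ℕ)
    (ha : ∀ k ∈ S.A, a ≤ S.j k ∧ P.n (S.j k) ≤ N) : ‖pair S.val x‖ ≤ 8 / P.m a := by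
  have := h.sum_seg ({()} : Finset Unit) (fun _ => S) (fun _ _ => hS)
    (fun _ _ _ _ hne => absurd (Subsingleton.elim _ _) hne) a fun _ _ => ha
  simpa using this

/-- A sum of `N` successive vectors of norm `≤ 2 / N` is an average.  Plan: for successive
`w 0 < … < w (d-1)` in `K`, `∑_i |w i x| ≤ ∑_{(i, r)} |w i (y r)|`, only the pairs `(i, r)` with
`pair (w i) (y r) ≠ 0` count, each term is `≤ 2 / N`, and there are at most `d + N` such pairs as
`(i, r) ↦ i + r` is injective on them (if `i < i'` and `r' < r` then a common point of the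
supports of `w i`, `y r` is both below and above a common point of those of `w i'`, `y r'`). -/
theorem avg_of_sum (N : ℕ) (y : ℕ → I →₀ 𝕜) (hy : ∀ r r', r < r' → r' < N → Lt (y r) (y r'))
    (hn : ∀ r, r < N → nrm P C (y r) ≤ 2 / N) : Avg P C (∑ r ∈ range N, y r) N := by
  classical
  intro d hd w hw hf
  have h0 : (0 : ℝ) ≤ 2 / N := by positivity
  let T : Finset (Fin d × ℕ) := (univ ×ˢ range N).filter fun p => pair (w p.1) (y p.2) ≠ 0
  have hex : ∀ i r, pair (w i) (y r) ≠ 0 → ∃ α ∈ (w i).support, α ∈ (y r).support := by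
    intro i r h
    by_contra hc
    push Not at hc
    exact h (pair_eq_zero hc)
  have hlt : ∀ p ∈ T, ∀ p' ∈ T, p.1 < p'.1 → p.2 ≤ p'.2 := by
    intro p hp p' hp' h1
    by_contra h2
    obtain ⟨hp1, hp2⟩ := mem_filter.1 hp
    obtain ⟨α, hα, hα'⟩ := hex _ _ hp2
    obtain ⟨β, hβ, hβ'⟩ := hex _ _ (mem_filter.1 hp').2
    exact lt_asymm (hw _ _ h1 α hα β hβ)
      (hy _ _ (not_le.1 h2) (mem_range.1 (mem_product.1 hp1).2) β hβ' α hα')
  have hcard : #T ≤ d + N := by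
    rw [← card_range (d + N)]
    refine card_le_card_of_injOn (fun p => (p.1 : ℕ) + p.2) (fun p hp => ?_) fun p hp p' hp' h => ?_
    · have h1 := mem_range.1 (mem_product.1 (mem_filter.1 (mem_coe.1 hp)).1).2
      have h2 := p.1.2
      exact mem_coe.2 (mem_range.2 (by dsimp only; omega))
    · dsimp only at h
      rcases lt_trichotomy p.1 p'.1 with h1 | h1 | h1
      · have h2 := hlt p hp p' hp' h1
        have : (p.1 : ℕ) < p'.1 := h1
        omega
      · exact Prod.ext h1 (by rw [h1] at h; omega)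
      · have h2 := hlt p' hp' p hp h1
        have : (p'.1 : ℕ) < p.1 := h1
        omega
  calc ∑ i, ‖pair (w i) (∑ r ∈ range N, y r)‖ ≤ ∑ i, ∑ r ∈ range N, ‖pair (w i) (y r)‖ := by
        refine sum_le_sum fun i _ => ?_
        rw [pair_sum_right]
        exact norm_sum_le _ _
    _ = ∑ p ∈ T, ‖pair (w p.1) (y p.2)‖ := by
        rw [← sum_product' (f := fun i r => ‖pair (w i) (y r)‖)]
        symm
        refine sum_filter_of_ne fun p _ hp h => hp ?_
        rw [h, norm_zero]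
    _ ≤ #T • (2 / N : ℝ) := sum_le_card_nsmul _ _ _ fun p hp =>
        ((hf p.1).pair_le_nrm _).trans (hn _ (mem_range.1 (mem_product.1 (mem_filter.1 hp).1).2))
    _ ≤ 4 := by
        rw [nsmul_eq_mul]
        have h1 : (#T : ℝ) ≤ 2 * N := by exact_mod_cast (show #T ≤ 2 * N by omega)
        refine (mul_le_mul_of_nonneg_right h1 h0).trans ?_
        rcases Nat.eq_zero_or_pos N with h | h
        · simp [h]
        · have : (0 : ℝ) < N := by exact_mod_cast h
          refine le_of_eq ?_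
          field_simp
          norm_num

theorem avg_sum_Ico {M : Type*} [AddCommMonoid M] (v : ℕ → M) (a L N : ℕ) :
    ∑ i ∈ Ico (a * L) ((a + N) * L), v i =
      ∑ r ∈ range N, ∑ i ∈ Ico ((a + r) * L) ((a + r + 1) * L), v i := by
  induction N with
  | zero => simp
  | succ N ih =>
    rw [sum_range_succ, ← ih, sum_Ico_consecutive _ (Nat.mul_le_mul_right _ (by omega))
      (Nat.mul_le_mul_right _ (by omega)), add_assoc]

theorem avg_lower (v : ℕ → I →₀ 𝕜) (hv : ∀ i k, i < k → Lt (v i) (v k))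
    (hn : ∀ i, nrm P C (v i) = 1) (j : ℕ) {a b : ℕ} (hab : a ≤ b) (hb : b ≤ P.n j) :
    (b : ℝ) - a ≤ P.m j * nrm P C (∑ i ∈ Ico a b, v i) := by
  have := lower_est (P := P) (C := C) j (Ico a b) v (by rw [Nat.card_Ico]; omega)
    fun i _ k _ h => hv i k h
  simp only [hn, sum_const, Nat.card_Ico, nsmul_eq_mul, mul_one] at this
  rwa [Nat.cast_sub hab] at this

/-- Plan.  Let `a k` be the maximum of `nrm (∑_{i ∈ [q N^k, (q+1) N^k)} v i)` over
`q < N ^ (s - k)`.  `a 0 = 1`.  If `a (k+1) ≤ N / 2 * a k` for all `k < s` then the whole sum has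
norm `≤ (N/2)^s`, while `lower_est` gives `N^s ≤ m j * norm`, so `2^s ≤ m j`, false.  So some block
`x` of level `k + 1 ≤ s` has `nrm x > N / 2 * a k`; its `N` sub-blocks have norm
`≤ a k < 2 nrm x / N`; use `avg_of_sum`; the last claim is `lower_est`.  (One can avoid maxima: by
induction on `k ≤ s`, either some block of level `≤ k` works or all blocks of level `k` have norm
`≤ (N/2)^k`; in the step take a block of level `k+1` with norm `> (N/2)^(k+1)`.) -/
theorem avg_of_blocks (v : ℕ → I →₀ 𝕜) (hv : ∀ i k, i < k → Lt (v i) (v k))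
    (hn : ∀ i, nrm P C (v i) = 1) (j N s : ℕ) (hN : 0 < N) (hs : N ^ s ≤ P.n j)
    (hm : P.m j < 2 ^ s) :
    ∃ a b : ℕ, a + N ≤ b ∧ b ≤ N ^ s ∧
      Avg P C ((nrm P C (∑ i ∈ Ico a b, v i))⁻¹ • ∑ i ∈ Ico a b, v i) N ∧
      (b : ℝ) - a ≤ P.m j * nrm P C (∑ i ∈ Ico a b, v i) := by
  by_contra hcon
  have hN0 : (0 : ℝ) < N := by exact_mod_cast hN
  have key : ∀ k q : ℕ, (q + 1) * N ^ k ≤ N ^ s →
      nrm P C (∑ i ∈ Ico (q * N ^ k) ((q + 1) * N ^ k), v i) ≤ ((N : ℝ) / 2) ^ k := by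
    intro k
    induction k with
    | zero => intro q _; simp [hn]
    | succ k ih =>
      intro q hq
      by_contra hbig
      push Not at hbig
      apply hcon
      have hp : N ≤ N ^ (k + 1) := Nat.le_self_pow (by omega) N
      have hab : q * N ^ (k + 1) + N ≤ (q + 1) * N ^ (k + 1) := by rw [add_mul]; omega
      refine ⟨q * N ^ (k + 1), (q + 1) * N ^ (k + 1), hab, hq, ?_,
        avg_lower v hv hn j (by omega) (hq.trans hs)⟩
      obtain ⟨ν, hν⟩ : ∃ ν, ν = nrm P C (∑ i ∈ Ico (q * N ^ (k + 1)) ((q + 1) * N ^ (k + 1)), v i) :=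
        ⟨_, rfl⟩
      rw [← hν] at hbig ⊢
      have hν0 : 0 < ν := lt_trans (by positivity) hbig
      have e1 : q * N ^ (k + 1) = q * N * N ^ k := by ring
      have e2 : (q + 1) * N ^ (k + 1) = (q * N + N) * N ^ k := by ring
      rw [e1, e2, avg_sum_Ico, smul_sum]
      refine avg_of_sum N _ (fun r r' h1 h2 => ?_) fun r hr => ?_
      · refine Lt.mono ?_ Finsupp.support_smul Finsupp.support_smul
        refine Lt.sum_left fun i hi => Lt.sum_right fun i' hi' => hv i i' ?_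
        exact lt_of_lt_of_le (mem_Ico.1 hi).2
          ((Nat.mul_le_mul_right _ (by omega)).trans (mem_Ico.1 hi').1)
      · have h3 := ih (q * N + r) (le_trans (Nat.mul_le_mul_right _ (by omega)) (e2 ▸ hq))
        rw [nrm_real_smul, abs_of_pos (inv_pos.2 hν0), inv_mul_eq_div, div_le_div_iff₀ hν0 hN0]
        rw [pow_succ] at hbig
        nlinarith
  have h1 := key s 0 (by simp)
  have h2 := avg_lower v hv hn j (Nat.zero_le (N ^ s)) hs
  simp only [zero_mul, zero_add, one_mul] at h1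
  simp only [Nat.cast_zero, sub_zero, Nat.cast_pow] at h2
  have h3 : P.m j * nrm P C (∑ i ∈ Ico 0 (N ^ s), v i) ≤ P.m j * ((N : ℝ) / 2) ^ s :=
    mul_le_mul_of_nonneg_left h1 (P.m_pos j).le
  have h4 : P.m j * ((N : ℝ) / 2) ^ s < 2 ^ s * ((N : ℝ) / 2) ^ s :=
    mul_lt_mul_of_pos_right hm (by positivity)
  have h5 : (2 : ℝ) ^ s * ((N : ℝ) / 2) ^ s = (N : ℝ) ^ s := by
    rw [← mul_pow]; congr 1; ring
  linarith

/-- A normalised block sequence in a rich subspace. -/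
theorem Rich.exists_seq {Y : Submodule 𝕜 (I →₀ 𝕜)} (hY : Rich Y) {y₀ : I →₀ 𝕜} (hy : y₀ ∈ Y) :
    ∃ v : ℕ → I →₀ 𝕜, (∀ i k, i < k → Lt (v i) (v k)) ∧
      ∀ i, v i ∈ Y ∧ Lt y₀ (v i) ∧ nrm P C (v i) = 1 := by
  choose! f hf using hY
  have hu : ∀ n, f^[n] y₀ ∈ Y := by
    intro n
    induction n with
    | zero => exact hy
    | succ n ih => rw [Function.iterate_succ_apply']; exact (hf _ ih).1
  have hne : ∀ n, f^[n + 1] y₀ ≠ 0 := fun n => by
    rw [Function.iterate_succ_apply']; exact (hf _ (hu n)).2.1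
  have hlt : ∀ i k, Lt (f^[i] y₀) (f^[i + k + 1] y₀) := by
    intro i k
    induction k with
    | zero => rw [add_zero, Function.iterate_succ_apply']; exact (hf _ (hu i)).2.2
    | succ k ih =>
      refine ih.trans ?_ (hne _)
      rw [← add_assoc, Function.iterate_succ_apply' f (i + k + 1)]
      exact (hf _ (hu _)).2.2
  refine ⟨fun i => (nrm P C (f^[i + 1] y₀))⁻¹ • f^[i + 1] y₀, fun i k h => ?_, fun i => ⟨?_, ?_, ?_⟩⟩
  · obtain ⟨l, rfl⟩ := Nat.exists_eq_add_of_lt h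
    refine Lt.mono ?_ Finsupp.support_smul Finsupp.support_smul
    have := hlt (i + 1) l
    rwa [show i + 1 + l + 1 = i + l + 1 + 1 by omega] at this
  · dsimp only
    rw [real_smul_eq]
    exact Y.smul_mem _ (hu _)
  · refine Lt.mono ?_ Subset.rfl Finsupp.support_smul
    simpa using hlt 0 i
  · have := nrm_pos (P := P) (C := C) (hne i)
    dsimp only
    rw [nrm_real_smul, abs_of_pos (inv_pos.2 this), inv_mul_cancel₀ this.ne']

/-- Plan: `avg_of_blocks` for `Rich.exists_seq` with `N' = n (N+1) ≥ N + 1` (`Par.le_n`),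
`j = N + 2`, `s = s (N+2)` (`n_pow`, `m_lt`), then `Avg.mono`. -/
theorem exists_avg {Y : Submodule 𝕜 (I →₀ 𝕜)} (hY : Rich Y) {y₀ : I →₀ 𝕜} (hy : y₀ ∈ Y) (N : ℕ) :
    ∃ x ∈ Y, Lt y₀ x ∧ nrm P C x = 1 ∧ Avg P C x N := by
  obtain ⟨v, hv, hv'⟩ := hY.exists_seq (P := P) (C := C) hy
  have hN := P.le_n (N + 1)
  obtain ⟨a, b, hab, -, hA, hlow⟩ := avg_of_blocks v hv (fun i => (hv' i).2.2) (N + 2)
    (P.n (N + 1)) (P.s (N + 2)) (by omega) (P.n_pow (N + 1)) (P.m_lt (N + 2))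
  have hpos : 0 < nrm P C (∑ i ∈ Ico a b, v i) := by
    have h1 : (a : ℝ) < b := by exact_mod_cast (show a < b by omega)
    exact (mul_pos_iff_of_pos_left (P.m_pos (N + 2))).1 (lt_of_lt_of_le (sub_pos.2 h1) hlow)
  refine ⟨_, ?_, ?_, ?_, hA.mono (by omega)⟩
  · rw [real_smul_eq]
    exact Y.smul_mem _ (Y.sum_mem fun i _ => (hv' i).1)
  · exact Lt.mono (Lt.sum_right fun i _ => (hv' i).2.1) Subset.rfl Finsupp.support_smul
  · rw [nrm_real_smul, abs_of_pos (inv_pos.2 hpos), inv_mul_cancel₀ hpos.ne']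

end Crest.Agent.R114
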