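import Crest.Agent.R114.Space

/-! Row 114: block sequences attached to an infinite-dimensional subspace of `Z`. -/

set_option autoImplicit false

open Finset

namespace Crest.Agent.R114

variable {I : Type} [LinearOrder I] {𝕜 : Type} [RCLike 𝕜] {P : Par} {C : Cod I 𝕜}
variable {Z : Type} [NormedAddCommGroup Z] [NormedSpace 𝕜 Z]

/-- The common kernel of finitely many functionals in an infinite-dimensional subspace. -/
theorem inf_ker {V : Submodule 𝕜 Z} (hV : ¬ FiniteDimensional 𝕜 V) {κ : Type*} (s : Finset κ)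
    (y : κ → StrongDual 𝕜 Z) :
    ∃ V' : Submodule 𝕜 Z, V' ≤ V ∧ ¬ FiniteDimensional 𝕜 V' ∧ ∀ v ∈ V', ∀ i ∈ s, y i v = 0 := by
  let f : Z →ₗ[𝕜] (s → 𝕜) := LinearMap.pi fun i : s => (y i : Z →ₗ[𝕜] 𝕜)
  refine ⟨V ⊓ LinearMap.ker f, inf_le_left, fun h => hV ?_, fun v hv i hi => ?_⟩
  · exact Module.Finite.iff_fg.2 (Submodule.fg_of_fg_map_of_fg_inf_ker f
      (IsNoetherian.noetherian _) (Module.Finite.iff_fg.1 h))
  · exact congrFun (LinearMap.mem_ker.1 hv.2) ⟨i, hi⟩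

/-- Plan.  For `a : WithTop I` let `L a = {α : I | (α : WithTop I) < a}`.  Let `a₀` be minimal such
that `prj (L a₀)` is bounded below on some infinite-dimensional `V ≤ F` (`a = ⊤` has this property,
`prj_univ`).  `L a₀` is nonempty (`prj_empty`; `V ≠ 0`).  For `b ∈ L a₀`, `V' ≤ V`
infinite-dimensional and `ε > 0`: pass to `V'' = V' ∩ ker e_b*` (`inf_ker`); by minimality
`prj (Iio b)` is not bounded below on `V''`; and `prj (Iic b) = prj (Iio b) + prj {b}`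
(`prj_union`, `prj_singleton`). -/
theorem Cpl.exists_level [WellFoundedLT I] (M : Cpl P C Z) {F : Submodule 𝕜 Z}
    (hF : ¬ FiniteDimensional 𝕜 F) :
    ∃ (L : Set I) (V : Submodule 𝕜 Z) (c : ℝ), IsLowerSet L ∧ L.Nonempty ∧ V ≤ F ∧
      ¬ FiniteDimensional 𝕜 V ∧ 0 < c ∧ (∀ v ∈ V, c * ‖v‖ ≤ ‖M.prj L v‖) ∧
      ∀ b ∈ L, ∀ V' : Submodule 𝕜 Z, V' ≤ V → ¬ FiniteDimensional 𝕜 V' → ∀ ε : ℝ, 0 < ε →
        ∃ w ∈ V', ‖w‖ = 1 ∧ ‖M.prj (Set.Iic b) w‖ ≤ ε := by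
  let L : WithTop I → Set I := fun a => {α | (α : WithTop I) < a}
  let Q : Set (WithTop I) := {a | ∃ V : Submodule 𝕜 Z, V ≤ F ∧ ¬ FiniteDimensional 𝕜 V ∧
    ∃ c : ℝ, 0 < c ∧ ∀ v ∈ V, c * ‖v‖ ≤ ‖M.prj (L a) v‖}
  have hQ : Q.Nonempty := by
    refine ⟨⊤, F, le_rfl, hF, 1, one_pos, fun v _ => ?_⟩
    have : L ⊤ = Set.univ := Set.eq_univ_of_forall fun α => WithTop.coe_lt_top α
    rw [this, M.prj_univ, one_mul]
  obtain ⟨a, ⟨V, hVF, hV, c, hc, hb⟩, hmin⟩ := (wellFounded_lt (α := WithTop I)).has_min Q hQ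
  refine ⟨L a, V, c, fun α β h hα => lt_of_le_of_lt (WithTop.coe_le_coe.2 h) hα, ?_, hVF, hV, hc,
    hb, fun b hbL V' hV' hV'd ε hε => ?_⟩
  · by_contra hne
    rw [Set.not_nonempty_iff_eq_empty] at hne
    have : V = ⊥ := (Submodule.eq_bot_iff V).2 fun v hv => by
      have := hb v hv
      rw [hne, M.prj_empty, norm_zero] at this
      exact norm_le_zero_iff.1 (by nlinarith [norm_nonneg v])
    exact hV (this ▸ inferInstance)
  · obtain ⟨V'', h1, h2, h3⟩ := inf_ker hV'd ({0} : Finset ℕ)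
      (fun _ => M.fnl (Finsupp.single b 1))
    have hL : L b = Set.Iio b := Set.ext fun α => WithTop.coe_lt_coe
    have : ¬ ∀ v ∈ V'', ε * ‖v‖ ≤ ‖M.prj (L b) v‖ := fun h =>
      hmin b ⟨V'', (h1.trans hV').trans hVF, h2, ε, hε, h⟩ hbL
    push Not at this
    obtain ⟨v, hv, hlt⟩ := this
    have hv0 : 0 < ‖v‖ := by
      by_contra h
      have : v = 0 := norm_le_zero_iff.1 (not_lt.1 h)
      simp [this] at hlt
    have e : M.prj (Set.Iic b) v = M.prj (Set.Iio b) v := by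
      rw [← Set.Iio_union_right, M.prj_union Set.ordConnected_Iio Set.ordConnected_singleton
        (by rw [Set.Iio_union_right]; exact Set.ordConnected_Iic) (by simp), M.prj_singleton,
        h3 v hv 0 (by simp), zero_smul, add_zero]
    refine ⟨((‖v‖⁻¹ : ℝ) : 𝕜) • v, V'.smul_mem _ (h1 hv), ?_, ?_⟩
    · rw [norm_smul, RCLike.norm_ofReal, abs_of_pos (inv_pos.2 hv0), inv_mul_cancel₀ hv0.ne']
    · rw [map_smul, norm_smul, RCLike.norm_ofReal, abs_of_pos (inv_pos.2 hv0), e, ← hL,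
        inv_mul_le_iff₀ hv0, mul_comm]
      exact hlt.le

/-- Plan.  `L, V, c` from `exists_level`.  One step: given `b ∈ L`, `i` and `ε ≤ c / 4` take `w ∈ V`
of norm one killed by `y n`, `n < i`, with `‖prj (Iic b) w‖ ≤ ε`, and `z'` supported in `L` within
`ε` of `prj L w` (`exists_near_prj`); `z = res (Ioi b) z'` has `‖prj L w - ι z‖ ≤ 2 ε`
(`prj L w = prj (Iic b) w + prj (Ioi b) (prj L w)`), so `nrm z ≥ c / 2` and `z ≠ 0`; the next `b` is
the maximum of the support of `z`.  Take `ε i` with `∑ 2 ε i * (88 / c) ≤ 1 / 8` (and `≤ c / 4`).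
`S = ⋃ i, {α | e_α* (w i) ≠ 0}`.  For `u = ∑ a i • z i` (`i ≥ k`, finitely many) with `nrm u ≤ 44`:
`‖a i‖ * (c / 2) ≤ 44` (`nrm_le_nrm_sum`), `v = ∑ a i • w i`, `‖prj L v - ι u‖ ≤ 1 / 8`,
`c ‖v‖ ≤ 45`.  Finally apply the projection on the lower set `L₀ ⊆ L` generated by the supports
(it fixes `ι u`). -/
theorem Cpl.exists_block [WellFoundedLT I] (M : Cpl P C Z) {F : Submodule 𝕜 Z}
    (hF : ¬ FiniteDimensional 𝕜 F) (y : ℕ → StrongDual 𝕜 Z) :
    ∃ (z : ℕ → I →₀ 𝕜) (S : Set I) (B : ℝ), Blk z ∧ S.Countable ∧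
      ∀ k, ∀ u ∈ Submodule.span 𝕜 (z '' Set.Ici k), nrm P C u ≤ 44 →
        ∃ v ∈ F, ‖v‖ ≤ B ∧ (∀ n, n < k → y n v = 0) ∧
          (∀ α, α ∉ S → M.fnl (Finsupp.single α 1) v = 0) ∧
          ‖M.prj {α | ∃ i, ∃ γ ∈ (z i).support, α ≤ γ} v - M.ι u‖ ≤ 1 / 8 := by
  obtain ⟨L, V, c, hL, ⟨b₀, hb₀⟩, hVF, hV, hc, hb, hsm⟩ := M.exists_level hF
  have hLo : L.OrdConnected := hL.ordConnected
  have step : ∀ (i : ℕ) (b : L), ∃ (w : Z) (z : I →₀ 𝕜) (b' : L), w ∈ V ∧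
      (∀ n, n < i → y n w = 0) ∧ (∀ α ∈ z.support, α ∈ L ∧ b.1 < α ∧ α ≤ b'.1) ∧ z ≠ 0 ∧
      c / 2 ≤ nrm P C z ∧ ‖M.prj L w - M.ι z‖ ≤ 2 * (c / 2816 * (1 / 2) ^ i) := by
    intro i b
    set ε := c / 2816 * (1 / 2) ^ i with hεd
    have hε : 0 < ε := by positivity
    have hε1 : ε ≤ c / 4 := by
      have : (1 / 2 : ℝ) ^ i ≤ 1 := pow_le_one₀ (by norm_num) (by norm_num)
      nlinarith
    obtain ⟨V', h1, h2, h3⟩ := inf_ker hV (range i) y
    obtain ⟨w, hw, hw1, hw2⟩ := hsm b.1 b.2 V' h1 h2 ε hε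
    obtain ⟨z', hz', hz2⟩ := M.exists_near_prj hLo w hε
    have e1 : M.prj L w = M.prj (Set.Iic b.1) w + M.prj (Set.Ioi b.1) (M.prj L w) := by
      rw [M.prj_prj Set.ordConnected_Ioi hLo, ← M.prj_union Set.ordConnected_Iic
        (Set.ordConnected_Ioi.inter hLo)]
      · congr 2
        ext α
        simp only [Set.mem_union, Set.mem_Iic, Set.mem_inter_iff, Set.mem_Ioi]
        exact ⟨fun h => (le_or_gt α b.1).imp id fun h' => ⟨h', h⟩,
          fun h => h.elim (fun h => hL h b.2) fun h => h.2⟩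
      · have : Set.Iic b.1 ∪ Set.Ioi b.1 ∩ L = L := by
          ext α
          simp only [Set.mem_union, Set.mem_Iic, Set.mem_inter_iff, Set.mem_Ioi]
          exact ⟨fun h => h.elim (fun h => hL h b.2) fun h => h.2,
            fun h => (le_or_gt α b.1).imp id fun h' => ⟨h', h⟩⟩
        rwa [this]
      · exact Set.disjoint_left.2 fun α h h' => absurd h'.1 (not_lt.2 h)
    have e2 : ‖M.prj L w - M.ι (res (Set.Ioi b.1) z')‖ ≤ 2 * ε := by
      rw [← M.prj_ι _ Set.ordConnected_Ioi, e1, add_sub_assoc, ← map_sub]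
      refine (norm_add_le _ _).trans ?_
      linarith [M.norm_prj_le (Set.ordConnected_Ioi (a := b.1)) (M.prj L w - M.ι z')]
    have e3 : c / 2 ≤ nrm P C (res (Set.Ioi b.1) z') := by
      have a1 := hb w (h1 hw)
      have a2 := norm_sub_norm_le (M.prj L w) (M.ι (res (Set.Ioi b.1) z'))
      rw [M.norm_ι] at a2
      rw [hw1] at a1
      linarith
    have e4 : res (Set.Ioi b.1) z' ≠ 0 := fun h => by
      rw [h, nrm_zero] at e3; linarith
    have hne := Finsupp.support_nonempty_iff.2 e4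
    refine ⟨w, res (Set.Ioi b.1) z', ⟨_, hz' _ (mem_support_res.1 (max'_mem _ hne)).1⟩, h1 hw,
      fun n hn => h3 w hw n (mem_range.2 hn), fun α hα => ⟨hz' α (mem_support_res.1 hα).1,
        (mem_support_res.1 hα).2, le_max' _ α hα⟩, e4, e3, e2⟩
  choose W Zf Bf hW hy hs hz hn he using step
  let b : ℕ → L := fun i => Nat.rec ⟨b₀, hb₀⟩ (fun i b => Bf i b) i
  have hbs : ∀ i, b (i + 1) = Bf i (b i) := fun i => rfl
  have hmono : Monotone fun i => (b i).1 := monotone_nat_of_le_succ fun i => by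
    obtain ⟨α, hα⟩ := Finsupp.support_nonempty_iff.2 (hz i (b i))
    exact (hs i (b i) α hα).2.1.le.trans (hs i (b i) α hα).2.2
  have hlt : ∀ i k, i < k → Lt (Zf i (b i)) (Zf k (b k)) := fun i k hik α hα β hβ =>
    ((hs i (b i) α hα).2.2.trans (hmono (Nat.succ_le_of_lt hik))).trans_lt (hs k (b k) β hβ).2.1
  refine ⟨fun i => Zf i (b i), ⋃ i, {α | M.fnl (Finsupp.single α 1) (W i (b i)) ≠ 0}, 45 / c,
    ⟨fun i => hz i _, hlt⟩, Set.countable_iUnion fun i => M.countable_support _,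
    fun k u hu hu44 => ?_⟩
  obtain ⟨t, ht, a, rfl⟩ : ∃ t : Finset ℕ, (∀ i ∈ t, k ≤ i) ∧ ∃ a : ℕ → 𝕜,
      ∑ i ∈ t, a i • Zf i (b i) = u := by
    obtain ⟨l, hl, rfl⟩ := (Finsupp.mem_span_image_iff_linearCombination 𝕜).1 hu
    exact ⟨l.support, fun i hi => hl hi, l, rfl⟩
  have ha : ∀ i ∈ t, ‖a i‖ ≤ 88 / c := fun i hi => by
    have h1 := nrm_le_nrm_sum (P := P) (C := C) t (fun i => a i • Zf i (b i))
      (fun i _ i' _ h => (hlt i i' h).smul _ _) hi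
    rw [nrm_smul] at h1
    rw [le_div_iff₀ hc]
    nlinarith [mul_le_mul_of_nonneg_left (hn i (b i)) (norm_nonneg (a i))]
  have hvV : ∑ i ∈ t, a i • W i (b i) ∈ V := V.sum_mem fun i _ => V.smul_mem _ (hW i _)
  have hcl : ‖M.prj L (∑ i ∈ t, a i • W i (b i)) - M.ι (∑ i ∈ t, a i • Zf i (b i))‖ ≤ 1 / 8 := by
    rw [map_sum, map_sum, ← sum_sub_distrib]
    calc _ ≤ ∑ i ∈ t, 1 / 16 * (1 / 2 : ℝ) ^ i := norm_sum_le_of_le _ fun i hi => by
          rw [map_smul, map_smul, ← smul_sub, norm_smul]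
          calc _ ≤ 88 / c * (2 * (c / 2816 * (1 / 2) ^ i)) :=
                mul_le_mul (ha i hi) (he i _) (norm_nonneg _) (by positivity)
            _ = _ := by field_simp; norm_num
      _ ≤ 1 / 8 := by
          rw [← mul_sum]
          have := summable_geometric_two.sum_le_tsum t (fun i _ => by positivity)
          rw [tsum_geometric_two] at this
          linarith
  refine ⟨_, hVF hvV, ?_, fun n hn => ?_, fun α hα => ?_, ?_⟩
  · have a1 := hb _ hvV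
    have a2 := norm_sub_norm_le (M.prj L (∑ i ∈ t, a i • W i (b i)))
      (M.ι (∑ i ∈ t, a i • Zf i (b i)))
    rw [M.norm_ι] at a2
    rw [le_div_iff₀ hc]
    linarith
  · rw [map_sum]
    refine sum_eq_zero fun i hi => ?_
    rw [map_smul, hy i _ n (hn.trans_le (ht i hi)), smul_zero]
  · rw [map_sum]
    refine sum_eq_zero fun i _ => ?_
    have : M.fnl (Finsupp.single α 1) (W i (b i)) = 0 := by
      by_contra h
      exact hα (Set.mem_iUnion.2 ⟨i, h⟩)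
    rw [map_smul, this, smul_zero]
  · set L₀ : Set I := {α | ∃ i, ∃ γ ∈ (Zf i (b i)).support, α ≤ γ} with hL₀
    have h0 : IsLowerSet L₀ := fun α β h ⟨i, γ, hγ, h'⟩ => ⟨i, γ, hγ, h.trans h'⟩
    have h1 : L₀ ∩ L = L₀ := Set.inter_eq_left.2 fun α ⟨i, γ, hγ, h'⟩ =>
      hL h' (hs i _ γ hγ).1
    have h2 : res L₀ (∑ i ∈ t, a i • Zf i (b i)) = ∑ i ∈ t, a i • Zf i (b i) := by
      rw [res_sum]
      refine sum_congr rfl fun i _ => ?_
      rw [res_smul, res_eq_self (E := L₀) fun α hα => ⟨i, α, hα, le_rfl⟩]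
    refine le_trans (le_of_eq ?_) ((M.norm_prj_le h0.ordConnected _).trans hcl)
    rw [map_sub, M.prj_prj h0.ordConnected hLo, h1, M.prj_ι _ h0.ordConnected, h2]

end Crest.Agent.R114
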