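import Crest.Agent.R114.Stage2

/-! Row 114: infinite special sequences. -/

set_option autoImplicit false

open Finset

namespace Crest.Agent.R114

variable {I : Type} [LinearOrder I] {𝕜 : Type} [RCLike 𝕜] {P : Par} {C : Cod I 𝕜}

theorem Br.OK.strictMono {b : Br I 𝕜} (h : b.OK P C) : StrictMono b.j := by
  exact fun k l hkl => (h.1 k l hkl).1

/-- A common index occurs at the same position (compare the cardinalities of the coded sets). -/
theorem Br.OK.pos_eq {b b' : Br I 𝕜} (h : b.OK P C) (h' : b'.OK P C) {k k' : ℕ}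
    (e : b.j k = b'.j k') : k = k' := by
  have h1 := (h.2.1 k).2.1
  have h2 := (h'.2.1 k').2.1
  rw [e, h2] at h1
  have h3 := congrArg Finset.card h1
  rw [card_image_of_injective _ h'.strictMono.injective,
    card_image_of_injective _ h.strictMono.injective, card_range, card_range] at h3
  exact h3.symm

theorem Br.AD.symm {b b' : Br I 𝕜} (h : b.OK P C) (h' : b'.OK P C) (e : b.AD b') : b'.AD b := by
  refine Set.Finite.subset e fun k hk => ?_
  obtain ⟨i, hi⟩ := hk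
  have := h'.pos_eq h hi
  subst this
  exact ⟨k, hi.symm⟩

/-- The finite segments of a branch. -/
def Br.seg (b : Br I 𝕜) (N N' : ℕ) : Seg I 𝕜 := ⟨b.φ, b.j, N', Ico N N', Set.univ⟩

theorem Br.seg_val (b : Br I 𝕜) (N N' : ℕ) : (b.seg N N').val = ∑ k ∈ Ico N N', b.φ k := by
  exact res_eq_self fun α _ => Set.mem_univ α

theorem Br.OK.segIn {b : Br I 𝕜} (h : b.OK P C) (N N' : ℕ) : SegIn P C (b.seg N N') := by
  refine ⟨⟨fun k l hkl _ => h.1 k l hkl, fun k _ => h.2.1 k, fun k hk => (mem_Ico.mp hk).2,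
    fun k₁ h₁ k₂ h₂ k hk hk' => ?_, Set.ordConnected_univ⟩, fun k _ => h.2.2 k⟩
  exact mem_Ico.mpr ⟨(mem_Ico.mp h₁).1.trans hk, hk'.trans_lt (mem_Ico.mp h₂).2⟩

theorem Br.OK.fn {b : Br I 𝕜} (h : b.OK P C) (N N' : ℕ) :
    Fn P C none (∑ k ∈ Ico N N', b.φ k) := by
  rw [← Br.seg_val]
  exact (h.segIn N N').fn

/-- Each finitely supported vector meets finitely many `φ k`. -/
theorem Br.OK.eventually_zero {b : Br I 𝕜} (h : b.OK P C) (z : I →₀ 𝕜) :
    ∃ N₁, ∀ k, N₁ ≤ k → pair (b.φ k) z = 0 := by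
  have hfin : (⋃ α ∈ z.support, {k | α ∈ (b.φ k).support}).Finite := by
    refine Set.Finite.biUnion z.support.finite_toSet fun α _ => Set.Subsingleton.finite ?_
    intro k hk l hl
    rcases lt_trichotomy k l with hkl | hkl | hkl
    · exact absurd ((h.1 k l hkl).2 α hk α hl) (lt_irrefl _)
    · exact hkl
    · exact absurd ((h.1 l k hkl).2 α hl α hk) (lt_irrefl _)
  obtain ⟨M, hM⟩ := hfin.bddAbove
  refine ⟨M + 1, fun k hk => pair_eq_zero fun α hα hα' => ?_⟩
  have : k ≤ M := hM (Set.mem_biUnion (s := (z.support : Set I)) hα' hα)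
  omega

/-- `Fn.comb'` for the segments `(b t).seg N N'`: for large `N` the index sets are disjoint and
`s.card ≤ N ≤ k ≤ j k`. -/
theorem tails_fn {κ : Type} (s : Finset κ) (b : κ → Br I 𝕜) (hb : ∀ t ∈ s, (b t).OK P C)
    (had : ∀ t ∈ s, ∀ t' ∈ s, t ≠ t' → (b t).AD (b t')) :
    ∃ N₀, ∀ N, N₀ ≤ N → ∀ (N' : ℕ) (c : κ → 𝕜), (∀ t ∈ s, ‖c t‖ ≤ 1) →
      Fn P C none (∑ t ∈ s, c t • ∑ k ∈ Ico N N', (b t).φ k) := by
  have hfin : (⋃ t ∈ s, ⋃ t' ∈ s, {k | t ≠ t' ∧ ∃ i, (b t).j k = (b t').j i}).Finite := by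
    refine Set.Finite.biUnion s.finite_toSet fun t ht =>
      Set.Finite.biUnion s.finite_toSet fun t' ht' => ?_
    by_cases e : t = t'
    · simp [e]
    · exact Set.Finite.subset (had t ht t' ht' e) fun k hk => hk.2
  obtain ⟨M, hM⟩ := hfin.bddAbove
  refine ⟨M + 1 + s.card, fun N hN N' c hc => ?_⟩
  simp only [← Br.seg_val]
  refine Fn.comb' s (fun t => (b t).seg N N') c hc (fun t ht => (hb t ht).segIn N N')
    (fun t ht k hk => ?_) fun t ht t' ht' e k hk k' _ ej => ?_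
  · have h1 : N ≤ k := (mem_Ico.mp hk).1
    have h2 : k ≤ (b t).j k := (hb t ht).strictMono.le_apply
    change s.card ≤ (b t).j k
    omega
  · have h1 : N ≤ k := (mem_Ico.mp hk).1
    have h2 : k ≤ M := hM (Set.mem_biUnion (s := (s : Set κ)) ht
      (Set.mem_biUnion (s := (s : Set κ)) ht' ⟨e, k', ej⟩))
    omega

theorem branch_lt {z : ℕ → I →₀ 𝕜} (h : Blk z) {S : Set ℕ} {y : I →₀ 𝕜}
    (hy : y ∈ Submodule.span 𝕜 (z '' S)) : ∃ N₀, ∀ N, N₀ ≤ N → Lt y (z N) := by
  induction hy using Submodule.span_induction with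
  | mem x hx =>
    obtain ⟨i, -, rfl⟩ := hx
    exact ⟨i + 1, fun N hN => h.2 i N hN⟩
  | zero => exact ⟨0, fun N _ α hα => by simp at hα⟩
  | add x y _ _ hx hy =>
    obtain ⟨N₁, h₁⟩ := hx
    obtain ⟨N₂, h₂⟩ := hy
    refine ⟨max N₁ N₂, fun N hN α hα => ?_⟩
    rcases mem_union.mp (Finsupp.support_add hα) with h' | h'
    · exact h₁ N (le_of_max_le_left hN) α h'
    · exact h₂ N (le_of_max_le_right hN) α h'
  | smul a x _ hx =>
    obtain ⟨N₁, h₁⟩ := hx
    exact ⟨N₁, fun N hN => (h₁ N hN).mono Finsupp.support_smul subset_rfl⟩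

theorem branch_supp {z : ℕ → I →₀ 𝕜} {S : Set ℕ} {y : I →₀ 𝕜}
    (hy : y ∈ Submodule.span 𝕜 (z '' S)) {γ : I} (hγ : γ ∈ y.support) :
    ∃ i, γ ∈ (z i).support := by
  induction hy using Submodule.span_induction with
  | mem x hx =>
    obtain ⟨i, -, rfl⟩ := hx
    exact ⟨i, hγ⟩
  | zero => simp at hγ
  | add x y _ _ hx hy =>
    rcases mem_union.mp (Finsupp.support_add hγ) with h' | h'
    · exact hx h'
    · exact hy h'
  | smul a x _ hx => exact hx (Finsupp.support_smul hγ)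

/-- Dependent choice with access to the whole history. -/
theorem branch_rec {T : Type} [Nonempty T] (Q : ℕ → (ℕ → T) → T → Prop)
    (hcongr : ∀ k f g t, (∀ i < k, f i = g i) → Q k f t → Q k g t)
    (hstep : ∀ k f, (∀ l < k, Q l f (f l)) → ∃ t, Q k f t) : ∃ f : ℕ → T, ∀ k, Q k f (f k) := by
  classical
  let S : ℕ → (ℕ → T) → T := fun k g => Classical.epsilon (Q k g)
  let g : ℕ → ℕ → T := fun k => Nat.rec (fun _ => Classical.arbitrary T)
    (fun k gk => Function.update gk k (S k gk)) k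
  have hg : ∀ k, g (k + 1) = Function.update (g k) k (S k (g k)) := fun k => rfl
  have h1 : ∀ k i, i < k → g k i = S i (g i) := by
    intro k
    induction k with
    | zero => intro i hi; omega
    | succ k ih =>
      intro i hi
      rw [hg]
      rcases Nat.lt_succ_iff_lt_or_eq.mp hi with h | h
      · rw [Function.update_of_ne h.ne, ih i h]
      · rw [h, Function.update_self]
  refine ⟨fun k => S k (g k), fun k => ?_⟩
  induction k using Nat.strong_induction_on with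
  | _ k ih =>
    refine hcongr k (g k) _ _ (h1 k) (Classical.epsilon_spec (hstep k (g k) fun l hl => ?_))
    rw [h1 k l hl]
    exact hcongr l _ _ _ (fun i hi => (h1 k i (hi.trans hl)).symm) (ih l hl)

theorem Blk.rich {z : ℕ → I →₀ 𝕜} (h : Blk z) (k : ℕ) :
    Rich (Submodule.span 𝕜 (z '' Set.Ici k)) := by
  intro y hy
  obtain ⟨N₀, hN₀⟩ := branch_lt h hy
  exact ⟨z (max N₀ k), Submodule.subset_span ⟨_, le_max_right N₀ k, rfl⟩, h.1 _,
    hN₀ _ (le_max_left _ _)⟩

/-- One step.  `g = ∑_{i<k} φ i` has coordinates `≤ 1`; `C.rich` gives `j`.  -/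
theorem branch_index (φ : ℕ → I →₀ 𝕜) (jj : ℕ → ℕ) (k : ℕ)
    (hlt : ∀ i l, i < l → l < k → Lt (φ i) (φ l)) (hfn : ∀ i, i < k → Fn P C (some (jj i)) (φ i))
    (J : ℕ) : ∃ j, J ≤ j ∧ C.Coded j ((range k).image jj) (∑ i ∈ range k, φ i) := by
  refine C.rich _ _ (fun α => ?_) J
  rw [Finsupp.finsetSum_apply]
  by_cases h : ∃ i ∈ range k, φ i α ≠ 0
  · obtain ⟨i, hi, hα⟩ := h
    rw [sum_eq_single_of_mem i hi]
    · refine ((hfn i (mem_range.mp hi)).bound_some α).trans ?_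
      exact inv_le_one_of_one_le₀ (by linarith [P.four_le (jj i)])
    · intro l hl hli
      by_contra hα'
      rcases lt_or_gt_of_ne hli with h' | h'
      · exact lt_irrefl _ (hlt l i h' (mem_range.mp hi) α (Finsupp.mem_support_iff.mpr hα') α
          (Finsupp.mem_support_iff.mpr hα))
      · exact lt_irrefl _ (hlt i l h' (mem_range.mp hl) α (Finsupp.mem_support_iff.mpr hα) α
          (Finsupp.mem_support_iff.mpr hα'))
  · rw [sum_eq_zero fun i hi => by_contra fun hα => h ⟨i, hi, hα⟩]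
    simp

/-- Plan.  Let `J k` be above `j₀` and above `(b r).j k` for the first `k + 1` members `b 0, …, b k` of
an enumeration of `B` (if `B` is empty: `J k = j₀`).  It suffices to build a branch `c` with
`c.j k ≥ J k`: if `c.j k = (b r).j i` then `k = i` (`Br.OK.pos_eq`), so `k < r`.  Recursion (use
`exists_rec`-like strong recursion or `Nat.rec` on finite lists / functions updated at `k`): index
`j k` from `branch_index`, above the earlier ones.  If `z` is not a block sequence: `φ k = 0`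
(`Fn.zero`).  If it is: `(u k, φ k)` from `exact_pair` in `Y = span (z '' Ici k)` with `y₀ = z N`,
`N ≥ k` so large that all earlier `u i` are left of `z N`.  `Hull.lt` gives successive `φ`; for
`l ≠ k` the supports of `φ l` and `u k` are separated. -/
theorem exists_branch (B : Set (Br I 𝕜)) (hB : B.Countable) (hOK : ∀ b ∈ B, b.OK P C) (j₀ : ℕ)
    (z : ℕ → I →₀ 𝕜) :
    ∃ c : Br I 𝕜, c.OK P C ∧ j₀ ≤ c.j 0 ∧ (∀ b ∈ B, c.AD b) ∧
      (∀ k, ∀ α ∈ (c.φ k).support, ∃ i, ∃ γ ∈ (z i).support, α ≤ γ) ∧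
      (Blk z → ∃ u : ℕ → I →₀ 𝕜, ∀ k, u k ∈ Submodule.span 𝕜 (z '' Set.Ici k) ∧
        nrm P C (u k) ≤ 44 ∧ ∀ l, pair (c.φ l) (u k) = if l = k then 1 else 0) := by
  haveI : Nonempty (Br I 𝕜) := ⟨⟨fun _ => 0, fun _ => 0⟩⟩
  obtain ⟨e, he⟩ := Set.countable_iff_exists_subset_range.mp hB
  set J : ℕ → ℕ := fun k => j₀ + ∑ r ∈ range (k + 1), ((e r).j k + 1) with hJ
  -- the data at step `k`: index, functional, vector
  obtain ⟨f, hf⟩ := branch_rec (T := ℕ × (I →₀ 𝕜) × (I →₀ 𝕜))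
    (fun k f t => J k ≤ t.1 ∧ (∀ i < k, (f i).1 < t.1) ∧
      C.Coded t.1 ((range k).image fun i => (f i).1) (∑ i ∈ range k, (f i).2.1) ∧
      Fn P C (some t.1) t.2.1 ∧ (∀ i < k, Lt (f i).2.2 t.2.2) ∧
      t.2.2 ∈ Submodule.span 𝕜 (z '' Set.Ici k) ∧ Hull t.2.1 t.2.2 ∧
      (Blk z → pair t.2.1 t.2.2 = 1 ∧ nrm P C t.2.2 ≤ 44))
    (by
      rintro k f g t hfg ⟨h1, h2, h3, h4, h5, h6⟩
      refine ⟨h1, fun i hi => hfg i hi ▸ h2 i hi, ?_, h4, fun i hi => hfg i hi ▸ h5 i hi, h6⟩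
      rw [← image_congr (f := fun i => (f i).1) (fun i hi => by
          simp only [hfg i (mem_range.mp hi)]),
        ← sum_congr rfl (f := fun i => (f i).2.1) fun i hi => by rw [hfg i (mem_range.mp hi)]]
      exact h3)
    (by
      intro k f hf
      obtain ⟨j, hj, hcod⟩ := branch_index (P := P) (C := C) (fun i => (f i).2.1) (fun i => (f i).1) k
        (fun i l hil hl => Hull.lt (hf i (hil.trans hl)).2.2.2.2.2.2.1 (hf l hl).2.2.2.2.2.2.1
          ((hf l hl).2.2.2.2.1 i hil))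
        (fun i hi => (hf i hi).2.2.2.1) (J k + ∑ i ∈ range k, ((f i).1 + 1))
      have hj1 : J k ≤ j := le_trans (Nat.le_add_right _ _) hj
      have hj2 : ∀ i < k, (f i).1 < j := fun i hi => by
        have := single_le_sum (f := fun i => (f i).1 + 1) (fun _ _ => Nat.zero_le _)
          (mem_range.mpr hi)
        omega
      by_cases hz : Blk z
      · have hN : ∀ i, ∃ N₀, i < k → ∀ N, N₀ ≤ N → Lt (f i).2.2 (z N) := fun i => by
          by_cases hi : i < k
          · obtain ⟨N₀, hN₀⟩ := branch_lt hz (hf i hi).2.2.2.2.2.1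
            exact ⟨N₀, fun _ => hN₀⟩
          · exact ⟨0, fun h => absurd h hi⟩
        choose N₀ hN₀ using hN
        obtain ⟨u, hu, φ, h1, -, h2, h3, h4, h5⟩ := exact_pair (P := P) (C := C) (hz.rich k)
          (y₀ := z (k + ∑ i ∈ range k, N₀ i))
          (Submodule.subset_span ⟨_, Nat.le_add_right _ _, rfl⟩) j
        refine ⟨(j, φ, u), hj1, hj2, hcod, h2, fun i hi => ?_, hu, h3, fun _ => ⟨h4, h5⟩⟩
        refine (hN₀ i hi _ ?_).trans h1 (hz.1 _)
        have := single_le_sum (f := N₀) (fun _ _ => Nat.zero_le _) (mem_range.mpr hi)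
        omega
      · exact ⟨(j, 0, 0), hj1, hj2, hcod, Fn.zero _, fun i _ α _ β hβ => by simp at hβ,
          Submodule.zero_mem _, fun α hα => by simp at hα, fun h => absurd h hz⟩)
  have hhull : ∀ k, Hull (f k).2.1 (f k).2.2 := fun k => (hf k).2.2.2.2.2.2.1
  have hlt : ∀ k l, k < l → Lt (f k).2.2 (f l).2.2 := fun k l hkl => (hf l).2.2.2.2.1 k hkl
  have hself : ∀ u : I →₀ 𝕜, Hull u u := fun u α hα => ⟨⟨α, hα, le_rfl⟩, α, hα, le_rfl⟩
  have hc : Br.OK P C ⟨fun k => (f k).2.1, fun k => (f k).1⟩ :=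
    ⟨fun k l hkl => ⟨(hf l).2.1 k hkl, Hull.lt (hhull k) (hhull l) (hlt k l hkl)⟩,
      fun k => (hf k).2.2.1, fun k => (hf k).2.2.2.1⟩
  refine ⟨_, hc, le_trans (Nat.le_add_right _ _) (hf 0).1, fun b hb => ?_, fun k α hα => ?_,
    fun hz => ⟨fun k => (f k).2.2, fun k => ⟨(hf k).2.2.2.2.2.1, ((hf k).2.2.2.2.2.2.2 hz).2,
      fun l => ?_⟩⟩⟩
  · obtain ⟨r, rfl⟩ := he hb
    refine (Set.finite_Iio r).subset fun k hk => ?_
    obtain ⟨i, hi⟩ := hk
    have h1 := hc.pos_eq (hOK _ hb) hi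
    subst h1
    by_contra hr
    have h2 := single_le_sum (f := fun r => (e r).j k + 1) (fun _ _ => Nat.zero_le _)
      (mem_range.mpr (Nat.lt_succ_of_le (not_lt.mp hr)))
    have h3 : j₀ + ∑ r ∈ range (k + 1), ((e r).j k + 1) ≤ (f k).1 := (hf k).1
    have h4 : (f k).1 = (e r).j k := hi
    simp only [Nat.succ_eq_add_one] at h2
    omega
  · obtain ⟨γ, hγ, h1⟩ := (hhull k α hα).2
    obtain ⟨i, hi⟩ := branch_supp (hf k).2.2.2.2.2.1 hγ
    exact ⟨i, γ, hi, h1⟩
  · rcases lt_trichotomy l k with h | h | h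
    · rw [if_neg h.ne]
      exact (Hull.lt (hhull l) (hself _) (hlt l k h)).pair_eq_zero
    · subst h
      rw [if_pos rfl]
      exact ((hf l).2.2.2.2.2.2.2 hz).1
    · rw [if_neg h.ne']
      exact (Hull.lt (hself _) (hhull l) (hlt k l h)).pair_eq_zero'

end Crest.Agent.R114
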