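import Crest.Agent.R114.Defs

/-! Row 114 (S0153): block sequences of strongly unconditional sequences. -/

set_option autoImplicit false

open Finset Filter Topology

namespace Crest.Agent.R114

variable {𝕜 : Type} [RCLike 𝕜] {X : Type*} [NormedAddCommGroup X] [NormedSpace 𝕜 X]

lemma l1_eq_sum {a : ℕ →₀ 𝕜} {s : Finset ℕ} (h : a.support ⊆ s) : l1 a = ∑ i ∈ s, ‖a i‖ :=
  sum_subset h fun i _ hi => by rw [Finsupp.notMem_support_iff.mp hi, norm_zero]

lemma l1_lc_eq {V : Type*} [AddCommMonoid V] [Module 𝕜 V] (b : ℕ → V) {a : ℕ →₀ 𝕜} {s : Finset ℕ}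
    (h : a.support ⊆ s) : Finsupp.linearCombination 𝕜 b a = ∑ i ∈ s, a i • b i := by
  rw [Finsupp.linearCombination_apply, Finsupp.sum]
  exact sum_subset h fun i _ hi => by rw [Finsupp.notMem_support_iff.mp hi, zero_smul]

/-- Suppression: the norming vector of the smaller sum gives the same value on the larger one. -/
theorem SU.suppress {h : ℕ → StrongDual 𝕜 X} (hh : SU h) {s s' : Finset ℕ} (hs : s ⊆ s')
    (a : ℕ → 𝕜) : ‖∑ i ∈ s, a i • h i‖ ≤ 2 * ‖∑ i ∈ s', a i • h i‖ := by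
  obtain ⟨x, hx, h1, h2⟩ := hh s a
  have e : (∑ i ∈ s, a i • h i) x = (∑ i ∈ s', a i • h i) x := by
    simp only [_root_.sum_apply, smul_apply]
    exact sum_subset hs fun i _ hi => by rw [h2 i hi, smul_zero]
  have := (∑ i ∈ s', a i • h i).le_opNorm x
  have h3 := norm_nonneg (∑ i ∈ s', a i • h i)
  rw [e] at h1
  nlinarith

lemma l1_disj {a : ℕ → ℕ →₀ 𝕜} (ha : ∀ k l, k < l → Lt (a k) (a l)) {k l i : ℕ}
    (hk : i ∈ (a k).support) (hl : i ∈ (a l).support) : k = l := by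
  rcases lt_trichotomy k l with h | h | h
  · exact absurd (ha k l h i hk i hl) (lt_irrefl _)
  · exact h
  · exact absurd (ha l k h i hl i hk) (lt_irrefl _)

/-- `∑_{k ∈ s} b k • u k = ∑_{i ∈ S} a' i • h i` for `a' = ∑_{k ∈ s} b k • a k` and `S` the union of
the supports of the `a k`, `k ∈ s`, which is disjoint from the support of `a k` for `k ∉ s`. -/
theorem SU.block {h u : ℕ → StrongDual 𝕜 X} {a : ℕ → ℕ →₀ 𝕜} (hh : SU h) (hb : IsBlock a u h) :
    SU u := by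
  intro s b
  obtain ⟨x, hx, h1, h2⟩ := hh (s.biUnion fun k => (a k).support) (∑ k ∈ s, b k • a k : ℕ →₀ 𝕜)
  have hsup : (∑ k ∈ s, b k • a k).support ⊆ s.biUnion fun k => (a k).support :=
    Finsupp.support_finsetSum.trans (biUnion_mono fun k _ => Finsupp.support_smul)
  have e : ∑ k ∈ s, b k • u k = Finsupp.linearCombination 𝕜 h (∑ k ∈ s, b k • a k) := by
    simp only [map_sum, map_smul, hb.2]
  rw [← l1_lc_eq h hsup, ← e] at h1
  refine ⟨x, hx, h1, fun k hk => ?_⟩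
  rw [hb.2, l1_lc_eq h subset_rfl, _root_.sum_apply]
  refine sum_eq_zero fun i hi => ?_
  rw [smul_apply, h2 i, smul_zero]
  intro hi'
  obtain ⟨l, hl, hil⟩ := mem_biUnion.mp hi'
  exact hk (l1_disj hb.1 hil hi ▸ hl)

lemma l1_quarter {b : ℕ → StrongDual 𝕜 X} (hb : SU b) {x : X} {ε : ℝ}
    {t : ℕ → ℝ} (ht : ∀ k, ε ≤ t k ∧ b k x = (t k : 𝕜)) (s : Finset ℕ) (a : ℕ → 𝕜) :
    ε * ∑ i ∈ s, max (RCLike.re (a i)) 0 ≤ 2 * ‖∑ i ∈ s, a i • b i‖ * ‖x‖ := by
  have h1 := hb.suppress (filter_subset (fun i => 0 < RCLike.re (a i)) s) a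
  set s' := s.filter fun i => 0 < RCLike.re (a i)
  have h2 : ∑ i ∈ s, max (RCLike.re (a i)) 0 = ∑ i ∈ s', RCLike.re (a i) := by
    rw [sum_filter]
    refine sum_congr rfl fun i _ => ?_
    split_ifs with h
    · exact max_eq_left h.le
    · exact max_eq_right (not_lt.mp h)
  have h3 : ε * ∑ i ∈ s', RCLike.re (a i) ≤ RCLike.re ((∑ i ∈ s', a i • b i) x) := by
    rw [_root_.sum_apply, map_sum, mul_sum]
    refine sum_le_sum fun i hi => ?_
    rw [smul_apply, (ht i).2, smul_eq_mul, RCLike.re_mul_ofReal, mul_comm]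
    exact mul_le_mul_of_nonneg_left (ht i).1 (mem_filter.mp hi).2.le
  have h4 := (RCLike.re_le_norm _).trans ((∑ i ∈ s', a i • b i).le_opNorm x)
  have h5 := mul_le_mul_of_nonneg_right h1 (norm_nonneg x)
  rw [h2]
  linarith

/-- Plan.  There are `x`, `ε > 0` and, beyond every `N`, a combination `φ` with
`ε ‖φ‖ < ‖φ x‖`; normalise (`‖b k‖ = 1`, `b k x` real `> ε`) and make them successive.  For
coefficients `a` and `s = {i | re (a i) > 0}`:
`ε ∑_s re (a i) ≤ re ((∑_s a i • b i) x) ≤ 2 ‖∑ a i • b i‖ ‖x‖` (`SU.suppress`); apply this to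
`a, -a, I • a, -I • a` (or treat `re`, `-re`, `im`, `-im`); `‖a i‖ ≤ |re| + |im|`. -/
theorem exists_l1 {h : ℕ → StrongDual 𝕜 X} (hh : SU h) (ht : ¬ TailNull h) :
    ∃ b : ℕ → StrongDual 𝕜 X, SU b ∧ IsL1 b := by
  simp only [TailNull, not_forall, not_exists, not_le] at ht
  obtain ⟨x, ε, hε, H⟩ := ht
  have H' : ∀ N, ∃ (a : ℕ →₀ 𝕜) (t : ℝ), (∀ i ∈ a.support, N ≤ i) ∧
      ‖Finsupp.linearCombination 𝕜 h a‖ ≤ 1 ∧ ε ≤ t ∧
      Finsupp.linearCombination 𝕜 h a x = (t : 𝕜) := by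
    intro N
    obtain ⟨a, ha, hlt⟩ := H N
    set φ := Finsupp.linearCombination 𝕜 h a with hφ
    have h0 : 0 < ‖φ x‖ := (mul_nonneg hε.le (norm_nonneg _)).trans_lt hlt
    have hφ0 : 0 < ‖φ‖ := norm_pos_iff.mpr fun e => by simp [e] at h0
    obtain ⟨c, hc, hc'⟩ := RCLike.exists_norm_eq_mul_self (φ x)
    refine ⟨(((‖φ‖⁻¹ : ℝ) : 𝕜) * c) • a, ‖φ‖⁻¹ * ‖φ x‖,
      fun i hi => ha i (Finsupp.support_smul hi), ?_, ?_, ?_⟩
    · rw [map_smul, norm_smul, norm_mul, hc, RCLike.norm_ofReal, abs_of_pos (inv_pos.mpr hφ0),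
        mul_one, inv_mul_cancel₀ hφ0.ne']
    · rw [inv_mul_eq_div, le_div_iff₀ hφ0]; exact hlt.le
    · rw [map_smul, smul_apply, smul_eq_mul, mul_assoc, ← hφ, ← hc']; push_cast; rfl
  choose a t ha h1 h2 h3 using H'
  let N : ℕ → ℕ := fun k => Nat.rec 0 (fun _ n => max n ((a n).support.sup id + 1)) k
  have hN : Monotone N := monotone_nat_of_le_succ fun k => le_max_left _ _
  have hb : SU fun k => Finsupp.linearCombination 𝕜 h (a (N k)) := by
    refine hh.block (a := fun k => a (N k)) ⟨fun k l hkl i hi i' hi' => ?_, fun _ => rfl⟩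
    have e1 : (a (N k)).support.sup id + 1 ≤ N (k + 1) := le_max_right _ _
    have e2 := hN (Nat.succ_le_of_lt hkl)
    have e3 := le_sup (f := id) hi
    have e4 := ha _ _ hi'
    simp only [id, Nat.succ_eq_add_one] at e2 e3
    omega
  have hx : 0 < ‖x‖ := norm_pos_iff.mpr fun e => by
    have := h3 0
    rw [e, map_zero, eq_comm, RCLike.ofReal_eq_zero] at this
    linarith [h2 0]
  refine ⟨_, hb, fun k => h1 _, ε / (8 * ‖x‖), by positivity, fun c => ?_⟩
  have key := fun u : 𝕜 => l1_quarter hb (t := fun k => t (N k)) (fun k => ⟨h2 _, h3 _⟩)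
    c.support fun i => u * c i
  have hn : ∀ u : 𝕜, ‖u‖ ≤ 1 → ε * ∑ i ∈ c.support, max (RCLike.re (u * c i)) 0 ≤
      2 * ‖Finsupp.linearCombination 𝕜 (fun k => Finsupp.linearCombination 𝕜 h (a (N k))) c‖ *
        ‖x‖ := by
    intro u hu
    refine (key u).trans ?_
    simp only [mul_smul, ← smul_sum]
    rw [← l1_lc_eq _ subset_rfl, norm_smul]
    gcongr
    exact mul_le_of_le_one_left (norm_nonneg _) hu
  have k1 := hn 1 (by simp)
  have k2 := hn (-1) (by simp)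
  have hI : ‖(RCLike.I : 𝕜)‖ ≤ 1 := by
    rcases eq_or_ne (RCLike.I : 𝕜) 0 with h | h
    · simp [h]
    · exact (RCLike.norm_I_of_ne_zero h).le
  have k3 := hn RCLike.I hI
  have k4 := hn (-RCLike.I) (by rwa [norm_neg])
  have hl : l1 c ≤ ∑ i ∈ c.support, max (RCLike.re (1 * c i)) 0 +
      ∑ i ∈ c.support, max (RCLike.re (-1 * c i)) 0 +
      ∑ i ∈ c.support, max (RCLike.re (RCLike.I * c i)) 0 +
      ∑ i ∈ c.support, max (RCLike.re (-RCLike.I * c i)) 0 := by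
    rw [← sum_add_distrib, ← sum_add_distrib, ← sum_add_distrib]
    refine sum_le_sum fun i _ => ?_
    have e : ‖c i‖ ≤ |RCLike.re (c i)| + |RCLike.im (c i)| := by
      conv_lhs => rw [← RCLike.re_add_im (c i)]
      refine (norm_add_le _ _).trans ?_
      rw [norm_mul, RCLike.norm_ofReal, RCLike.norm_ofReal]
      nlinarith [abs_nonneg (RCLike.im (c i))]
    simp only [one_mul, neg_mul, map_neg, RCLike.I_mul_re, neg_neg]
    rcases abs_cases (RCLike.re (c i)) with h | h <;> rcases abs_cases (RCLike.im (c i)) with h' | h'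
      <;> linarith [le_max_left (RCLike.re (c i)) 0, le_max_right (RCLike.re (c i)) 0,
        le_max_left (-RCLike.re (c i)) 0, le_max_right (-RCLike.re (c i)) 0,
        le_max_left (RCLike.im (c i)) 0, le_max_right (RCLike.im (c i)) 0,
        le_max_left (-RCLike.im (c i)) 0, le_max_right (-RCLike.im (c i)) 0]
  rw [div_mul_eq_mul_div, div_le_iff₀ (by positivity)]
  nlinarith [mul_le_mul_of_nonneg_left hl hε.le]

theorem l1_smul (c : 𝕜) (a : ℕ →₀ 𝕜) : l1 (c • a) = ‖c‖ * l1 a := by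
  rw [l1_eq_sum Finsupp.support_smul, l1, mul_sum]
  simp

/-- `ℓ₁` norms add for disjoint supports. -/
theorem l1_block {a : ℕ → ℕ →₀ 𝕜} (ha : ∀ k l, k < l → Lt (a k) (a l)) (h1 : ∀ k, l1 (a k) = 1)
    (b : ℕ →₀ 𝕜) : l1 (Finsupp.linearCombination 𝕜 a b) = l1 b := by
  have hsup : (∑ k ∈ b.support, b k • a k).support ⊆ b.support.biUnion fun k => (a k).support :=
    Finsupp.support_finsetSum.trans (biUnion_mono fun k _ => Finsupp.support_smul)
  rw [l1_lc_eq a subset_rfl, l1_eq_sum hsup, sum_biUnion, l1]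
  · refine sum_congr rfl fun k hk => ?_
    rw [← mul_one ‖b k‖, ← h1 k, l1, mul_sum]
    refine sum_congr rfl fun i hi => ?_
    rw [Finsupp.finsetSum_apply, sum_eq_single k, Finsupp.smul_apply, norm_smul]
    · intro l _ hl
      rw [Finsupp.smul_apply, Finsupp.notMem_support_iff.mp fun h => hl (l1_disj ha h hi),
        smul_zero]
    · exact fun h => absurd hk h
  · exact fun k _ l _ hkl => disjoint_left.mpr fun i hi hi' => hkl (l1_disj ha hi hi')

/-- Nonzero successive blocks: the `k`-th one is supported in `[k, ∞)`. -/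
theorem le_of_block {a : ℕ → ℕ →₀ 𝕜} (ha : ∀ k l, k < l → Lt (a k) (a l)) (h1 : ∀ k, l1 (a k) = 1)
    (k : ℕ) : ∀ i ∈ (a k).support, k ≤ i := by
  induction k with
  | zero => exact fun i _ => Nat.zero_le i
  | succ k ih =>
    intro i hi
    obtain ⟨l, hl⟩ : (a k).support.Nonempty := by
      by_contra hne
      have := h1 k
      rw [l1, not_nonempty_iff_eq_empty.mp hne, sum_empty] at this
      exact zero_ne_one this
    exact (ih l hl).trans_lt (ha k (k + 1) k.lt_succ_self l hl i hi)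

theorem norm_lc_apply_le {b : ℕ → StrongDual 𝕜 X} (a : ℕ →₀ 𝕜) (x : X) {B : ℝ}
    (h : ∀ i ∈ a.support, ‖b i x‖ ≤ B) : ‖Finsupp.linearCombination 𝕜 b a x‖ ≤ B * l1 a := by
  rw [l1_lc_eq b subset_rfl, _root_.sum_apply, l1, mul_sum]
  refine norm_sum_le_of_le _ fun i hi => ?_
  rw [smul_apply, norm_smul, mul_comm]
  exact mul_le_mul_of_nonneg_right (h i hi) (norm_nonneg _)

theorem L1Block.refl (b : ℕ → StrongDual 𝕜 X) : L1Block b b := by
  refine ⟨fun k => Finsupp.single k 1, ⟨fun k l hkl i hi i' hi' => ?_, fun k => by simp⟩,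
    fun k => ?_⟩
  · rw [mem_singleton.mp (Finsupp.support_single_subset hi),
      mem_singleton.mp (Finsupp.support_single_subset hi')]
    exact hkl
  · rw [l1_eq_sum Finsupp.support_single_subset]; simp

theorem L1Block.trans {d c b : ℕ → StrongDual 𝕜 X} (h : L1Block d c) (h' : L1Block c b) :
    L1Block d b := by
  obtain ⟨a, ⟨ha, ha'⟩, h1⟩ := h
  obtain ⟨a', ⟨hb, hb'⟩, h2⟩ := h'
  refine ⟨fun k => Finsupp.linearCombination 𝕜 a' (a k), ⟨fun k l hkl => ?_, fun k => ?_⟩,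
    fun k => (l1_block hb h2 _).trans (h1 k)⟩
  · simp only [l1_lc_eq a' subset_rfl]
    exact Lt.sum_left fun i hi => Lt.sum_right fun i' hi' =>
      (hb i i' (ha k l hkl i hi i' hi')).smul _ _
  · simp only [ha', l1_lc_eq c subset_rfl, l1_lc_eq a' subset_rfl, map_sum, map_smul, hb']

theorem L1Block.su {c b : ℕ → StrongDual 𝕜 X} (h : L1Block c b) (hb : SU b) : SU c := by
  obtain ⟨a, ha, _⟩ := h
  exact hb.block ha

theorem L1Block.isL1 {c b : ℕ → StrongDual 𝕜 X} (h : L1Block c b) (hb : IsL1 b) : IsL1 c := by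
  obtain ⟨a, ⟨ha, ha'⟩, h1⟩ := h
  obtain ⟨hb1, δ, hδ, hb2⟩ := hb
  refine ⟨fun k => ?_, δ, hδ, fun e => ?_⟩
  · rw [ha', l1_lc_eq b subset_rfl, ← h1 k, l1]
    refine norm_sum_le_of_le _ fun i _ => ?_
    rw [norm_smul]
    exact mul_le_of_le_one_right (norm_nonneg _) (hb1 i)
  · have : Finsupp.linearCombination 𝕜 c e =
        Finsupp.linearCombination 𝕜 b (Finsupp.linearCombination 𝕜 a e) := by
      rw [l1_lc_eq c subset_rfl, l1_lc_eq a subset_rfl]
      simp only [map_sum, map_smul, ha']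
    rw [this, ← l1_block ha h1 e]
    exact hb2 _

theorem IsL1.ne_zero {c : ℕ → StrongDual 𝕜 X} (h : IsL1 c) (k : ℕ) : c k ≠ 0 := by
  obtain ⟨-, δ, hδ, h2⟩ := h
  intro e
  have := h2 (Finsupp.single k 1)
  rw [l1_eq_sum Finsupp.support_single_subset] at this
  simp [e] at this
  linarith

theorem IsL1.tailNull {c : ℕ → StrongDual 𝕜 X} (h : IsL1 c)
    (hn : ∀ x, Tendsto (fun k => c k x) atTop (𝓝 0)) : TailNull c := by
  obtain ⟨-, δ, hδ, h2⟩ := h
  intro x ε hε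
  obtain ⟨N, hN⟩ := Metric.tendsto_atTop.mp (hn x) (ε * δ) (mul_pos hε hδ)
  refine ⟨N, fun a ha => (norm_lc_apply_le a x (B := ε * δ) fun i hi => ?_).trans ?_⟩
  · simpa using (hN i (ha i hi)).le
  · rw [mul_assoc]; exact mul_le_mul_of_nonneg_left (h2 a) hε.le

/-- Plan.  If the second alternative fails, build `c 0 = b`, `c (n+1)` an `L1Block` of `c n` with
`∀ x, ‖x‖ ≤ 1 → ∀ᶠ k, ‖c (n+1) k x‖ < 1 / (n+1)`.  `c m` is an `L1Block` of `c n` for `n ≤ m`, so
(`le_of_block`, `norm_lc_apply_le`) `‖c m k x‖ ≤ δ` as soon as `‖c n i x‖ ≤ δ` for all `i ≥ k`.  With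
coefficients `A n` of `c n` over `b` choose `k n ≥ n` above the support of `A (n-1) (k (n-1))`; the
diagonal sequence `c n (k n)` is a pointwise null `L1Block` of `b`. -/
theorem stabilise (b : ℕ → StrongDual 𝕜 X) :
    (∃ c, L1Block c b ∧ ∀ x, Tendsto (fun k => c k x) atTop (𝓝 0)) ∨
    ∃ (c : ℕ → StrongDual 𝕜 X) (δ : ℝ), L1Block c b ∧ 0 < δ ∧
      ∀ d, L1Block d c → ∃ x : X, ‖x‖ ≤ 1 ∧ ∃ᶠ k in atTop, δ ≤ ‖d k x‖ := by
  refine or_iff_not_imp_right.mpr fun H => ?_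
  have H' : ∀ (n : ℕ) (c : {c // L1Block c b}), ∃ d : {c // L1Block c b}, L1Block d.1 c.1 ∧
      ∀ x : X, ‖x‖ ≤ 1 → ∀ᶠ k in atTop, ‖d.1 k x‖ ≤ 1 / ((n : ℝ) + 1) := by
    intro n c
    by_contra hc
    refine H ⟨c.1, 1 / ((n : ℝ) + 1), c.2, by positivity, fun d hd => ?_⟩
    by_contra hx
    refine hc ⟨⟨d, hd.trans c.2⟩, hd, fun x hx1 => ?_⟩
    have : ¬ ∃ᶠ k in atTop, 1 / ((n : ℝ) + 1) ≤ ‖d k x‖ := fun h => hx ⟨x, hx1, h⟩
    filter_upwards [not_frequently.mp this] with k hk using (not_le.mp hk).le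
  choose g hg1 hg2 using H'
  let c : ℕ → {c // L1Block c b} := fun n => Nat.rec ⟨b, L1Block.refl b⟩ (fun n c => g n c) n
  have hc : ∀ n m, n ≤ m → L1Block (c m).1 (c n).1 := by
    intro n m hnm
    induction hnm with
    | refl => exact L1Block.refl _
    | step _ ih => exact (hg1 _ _).trans ih
  choose A hA hA1 using fun n => (c n).2
  let k : ℕ → ℕ := fun n => Nat.rec 0 (fun n k => max (k + 1) ((A n k).support.sup id + 1)) n
  have hk : StrictMono k := strictMono_nat_of_lt_succ fun n =>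
    Nat.lt_of_succ_le (le_max_left _ _)
  refine ⟨fun n => (c n).1 (k n), ⟨fun n => A n (k n), ⟨fun n m hnm i hi i' hi' => ?_,
    fun n => (hA n).2 _⟩, fun n => hA1 n _⟩, fun x => ?_⟩
  · have e1 : (A n (k n)).support.sup id + 1 ≤ k (n + 1) := le_max_right _ _
    have e2 := hk.monotone (Nat.succ_le_of_lt hnm)
    have e3 := le_sup (f := id) hi
    have e4 := le_of_block (hA m).1 (hA1 m) _ _ hi'
    simp only [id, Nat.succ_eq_add_one] at e2 e3
    omega
  · have key : ∀ y : X, ‖y‖ ≤ 1 → Tendsto (fun n => (c n).1 (k n) y) atTop (𝓝 0) := by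
      intro y hy
      refine Metric.tendsto_atTop.mpr fun ε hε => ?_
      obtain ⟨n, hn⟩ := exists_nat_one_div_lt hε
      obtain ⟨N, hN⟩ := eventually_atTop.mp (hg2 n (c n) y hy)
      refine ⟨max N (n + 1), fun m hm => ?_⟩
      obtain ⟨a, ha, ha1⟩ := hc (n + 1) m (le_of_max_le_right hm)
      rw [dist_zero_right, ha.2]
      refine (norm_lc_apply_le _ y (B := 1 / ((n : ℝ) + 1)) fun i hi => hN i ?_).trans_lt ?_
      · exact ((le_of_max_le_left hm).trans (hk.le_apply (x := m))).trans (le_of_block ha.1 ha1 _ _ hi)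
      · rwa [ha1, mul_one]
    obtain ⟨r, hr⟩ : ∃ r : ℝ, 0 < r ∧ ‖x‖ ≤ r := ⟨‖x‖ + 1, by positivity, by linarith⟩
    have h1 : ‖((r⁻¹ : ℝ) : 𝕜) • x‖ ≤ 1 := by
      rw [norm_smul, RCLike.norm_ofReal, abs_of_pos (inv_pos.mpr hr.1), inv_mul_le_iff₀ hr.1]
      simpa using hr.2
    have h2 := (key _ h1).const_mul (r : 𝕜)
    simp only [map_smul, smul_eq_mul, ← mul_assoc, ← RCLike.ofReal_mul, mul_inv_cancel₀ hr.1.ne',
      RCLike.ofReal_one, one_mul, mul_zero] at h2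
    exact h2

end Crest.Agent.R114
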