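import Crest.Agent.R114.SQ
import Crest.Agent.R114.L1

/-! Row 114 (S0153): the tail-null case. -/

set_option autoImplicit false

open Finset

namespace Crest.Agent.R114

variable {𝕜 : Type} [RCLike 𝕜] {X : Type*} [NormedAddCommGroup X] [NormedSpace 𝕜 X]

set_option maxSynthPendingDepth 3 in
/-- Plan.  `U = span (range u)` as a normed space, `V = StrongDual 𝕜 U`, `T x φ = φ x`
(`‖T x‖ ≤ ‖x‖`).  From `SU` with `s = {k}`: `v k` with `u k (v k) = 1`, `u i (v k) = 0` for `i ≠ k`;
`e k = T (v k)`, linearly independent (evaluate at the `u i`).  Apply `sq_of_span` with `C = 2`.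
* `T x` is in the closed span: for `φ = ∑ a i • u i`,
`(T x - ∑_{k<N} u k x • e k) φ = (∑_{i ≥ N} a i • u i) x` has norm `≤ ε * 2 ‖φ‖` (`ht`,
`SU.suppress`).
* For `Ψ ∈ V*`, `a k = Ψ (e k)`, `ψ = ∑_{k ∈ s} b k • e k`, `f = ∑_{k ∈ s} a k • u k`:
`Ψ ψ = ψ f`; for `x` from `hu s a`, `T x = ∑_{k ∈ s} u k x • e k`, so `Ψ (T x) = f x` and
`‖f‖ ≤ 2 ‖Ψ ∘ T‖`. -/
theorem sq_of_tailNull [CompleteSpace X] {u : ℕ → StrongDual 𝕜 X} (hu : SU u) (h0 : ∀ k, u k ≠ 0)
    (ht : TailNull u) : SQ 𝕜 X := by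
  have hv : ∀ k, ∃ v : X, ∀ i, u i v = if i = k then 1 else 0 := fun k => by
    obtain ⟨x, -, h1, h2⟩ := hu {k} fun _ => 1
    simp only [sum_singleton, one_smul, mem_singleton] at h1 h2
    have h3 : u k x ≠ 0 := fun e => by
      rw [e, norm_zero, mul_zero] at h1
      exact h0 k (norm_le_zero_iff.1 h1)
    refine ⟨(u k x)⁻¹ • x, fun i => ?_⟩
    split_ifs with hi
    · rw [hi, map_smul, smul_eq_mul, inv_mul_cancel₀ h3]
    · rw [map_smul, h2 i hi, smul_zero]
  choose v hv using hv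
  let U : Submodule 𝕜 (StrongDual 𝕜 X) := Submodule.span 𝕜 (Set.range u)
  let T : X →L[𝕜] StrongDual 𝕜 U := ContinuousLinearMap.flip (U.subtypeL : U →L[𝕜] X →L[𝕜] 𝕜)
  have hT : ∀ x (φ : U), T x φ = φ.1 x := fun _ _ => rfl
  have hco : ∀ (s : Finset ℕ) (a : ℕ → 𝕜) k, (∑ i ∈ s, a i • u i) (v k) =
      if k ∈ s then a k else 0 := fun s a k => by
    simp [hv]
  have hrep : ∀ φ : U, ∃ a : ℕ →₀ 𝕜, φ.1 = ∑ i ∈ a.support, a i • u i ∧ ∀ k, φ.1 (v k) = a k :=
    fun φ => by
      obtain ⟨a, ha⟩ := Finsupp.mem_span_range_iff_exists_finsupp.1 φ.2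
      refine ⟨a, ha.symm, fun k => ?_⟩
      rw [← ha, Finsupp.sum, hco]
      split_ifs with hk
      · rfl
      · exact (Finsupp.notMem_support_iff.1 hk).symm
  have hmem : ∀ (s : Finset ℕ) (a : ℕ → 𝕜), ∑ i ∈ s, a i • u i ∈ U := fun s a =>
    U.sum_mem fun i _ => U.smul_mem _ (Submodule.subset_span ⟨i, rfl⟩)
  refine sq_of_span T (fun k => T (v k)) ?_ (fun x => ?_) 2 fun Ψ w hw => ?_
  · refine linearIndependent_iff'.2 fun s b hb i hi => ?_
    have := DFunLike.congr_fun hb ⟨u i, Submodule.subset_span ⟨i, rfl⟩⟩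
    simpa [hT, hv, hi] using this
  · refine Metric.mem_closure_iff.2 fun ε hε => ?_
    obtain ⟨N, hN⟩ := ht x (ε / 4) (by positivity)
    refine ⟨∑ k ∈ range N, u k x • T (v k), Submodule.sum_mem _ fun k _ =>
      Submodule.smul_mem _ _ (Submodule.subset_span ⟨k, rfl⟩), ?_⟩
    rw [dist_eq_norm]
    refine (ContinuousLinearMap.opNorm_le_bound _ (M := ε / 2) (by positivity) fun φ => ?_).trans_lt
      (by linarith)
    obtain ⟨a, ha, ha'⟩ := hrep φ
    have e1 : Finsupp.linearCombination 𝕜 u (a.filter (N ≤ ·)) =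
        ∑ i ∈ a.support with N ≤ i, a i • u i := by
      rw [Finsupp.linearCombination_apply, Finsupp.sum, Finsupp.support_filter]
      exact sum_congr rfl fun i hi => by rw [Finsupp.filter_apply_pos _ _ (mem_filter.1 hi).2]
    have e2 : (T x - ∑ k ∈ range N, u k x • T (v k)) φ =
        (∑ i ∈ a.support with N ≤ i, a i • u i) x := by
      have e3 : ∑ k ∈ range N, u k x * a k = ∑ i ∈ a.support with ¬ N ≤ i, a i * u i x := by
        symm
        refine (sum_subset (fun i hi => mem_range.2 (not_le.1 (mem_filter.1 hi).2))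
          fun i hi hi' => ?_).trans (sum_congr rfl fun i _ => mul_comm _ _)
        have : i ∉ a.support := fun h => hi' (mem_filter.2 ⟨h, not_le.2 (mem_range.1 hi)⟩)
        rw [Finsupp.notMem_support_iff.1 this, zero_mul]
      simp only [_root_.sub_apply, _root_.sum_apply,
        _root_.smul_apply, hT, ha', smul_eq_mul]
      rw [e3, ha, sub_eq_iff_eq_add, sum_filter_add_sum_filter_not]
      simp
    have h1 := hN (a.filter (N ≤ ·)) fun i hi => by
      rw [Finsupp.support_filter] at hi; exact (mem_filter.1 hi).2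
    rw [e1] at h1
    have h2 := hu.suppress (filter_subset (N ≤ ·) a.support) a
    rw [← ha] at h2
    rw [e2]
    refine h1.trans ((mul_le_mul_of_nonneg_left h2 (by positivity)).trans (le_of_eq ?_))
    change _ = ε / 2 * ‖φ.1‖
    ring
  · obtain ⟨b, rfl⟩ := Finsupp.mem_span_range_iff_exists_finsupp.1 hw
    obtain ⟨x, hx1, hx2, hx3⟩ := hu b.support fun k => Ψ (T (v k))
    set f := ∑ k ∈ b.support, Ψ (T (v k)) • u k with hf
    have e1 : Ψ (b.sum fun i a => a • T (v i)) =
        (b.sum fun i a => a • T (v i)) ⟨f, hmem _ _⟩ := by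
      rw [Finsupp.sum, map_sum, _root_.sum_apply]
      refine sum_congr rfl fun k hk => ?_
      rw [map_smul, _root_.smul_apply, hT]
      exact congrArg _ ((hco b.support (fun k => Ψ (T (v k))) k).trans (if_pos hk)).symm
    have e2 : T x = ∑ k ∈ b.support, u k x • T (v k) := by
      ext φ
      obtain ⟨a, ha, ha'⟩ := hrep φ
      simp only [_root_.sum_apply, _root_.smul_apply, hT, ha',
        smul_eq_mul]
      rw [ha]
      simp only [_root_.sum_apply, _root_.smul_apply, smul_eq_mul]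
      rw [sum_subset (subset_union_left (s₂ := b.support)) fun i _ hi => by
          rw [Finsupp.notMem_support_iff.1 hi, zero_mul],
        sum_subset (subset_union_right (s₁ := a.support) (s₂ := b.support)) fun i _ hi => by
          rw [hx3 i hi, zero_mul]]
      exact sum_congr rfl fun i _ => mul_comm _ _
    have e3 : f x = Ψ.comp T x := by
      rw [ContinuousLinearMap.comp_apply, e2, map_sum, hf, _root_.sum_apply]
      exact sum_congr rfl fun k _ => by simp [mul_comm]
    have h1 : ‖f‖ ≤ 2 * ‖Ψ.comp T‖ := by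
      refine hx2.trans (mul_le_mul_of_nonneg_left ?_ (by norm_num))
      rw [e3]
      exact ((Ψ.comp T).le_opNorm _).trans (mul_le_of_le_one_right (norm_nonneg _) hx1)
    rw [e1, mul_comm]
    exact (ContinuousLinearMap.le_opNorm _ _).trans
      (mul_le_mul_of_nonneg_left h1 (norm_nonneg _))

end Crest.Agent.R114
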