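import Crest.Agent.R114.Defs
import Crest.Agent.R114.Rho

/-! Row 114: existence of the coding. -/

set_option autoImplicit false

open Finset

namespace Crest.Agent.R114

theorem cod_net (𝕜 : Type) [RCLike 𝕜] : ∃ (d : ℕ → 𝕜) (N : ℕ → ℕ), ∀ (p : ℕ) (x : 𝕜), ‖x‖ ≤ 1 →
    ∃ i < N p, ‖x - d i‖ ≤ 1 / ((p : ℝ) + 1) := by
  haveI : ProperSpace 𝕜 := FiniteDimensional.proper_real 𝕜
  obtain ⟨d, hd⟩ := TopologicalSpace.exists_dense_seq 𝕜
  have h : ∀ p : ℕ, ∃ N : ℕ, ∀ x : 𝕜, ‖x‖ ≤ 1 → ∃ i < N, ‖x - d i‖ ≤ 1 / ((p : ℝ) + 1) := by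
    intro p
    obtain ⟨t, ht⟩ := (isCompact_closedBall (0 : 𝕜) 1).elim_finite_subcover
      (fun i => Metric.ball (d i) (1 / ((p : ℝ) + 1))) (fun _ => Metric.isOpen_ball) fun x _ => by
        obtain ⟨i, hi⟩ := hd.exists_dist_lt x (ε := 1 / ((p : ℝ) + 1)) (by positivity)
        exact Set.mem_iUnion.2 ⟨i, hi⟩
    refine ⟨t.sup id + 1, fun x hx => ?_⟩
    obtain ⟨i, hi, h⟩ := Set.mem_iUnion₂.1 (ht (mem_closedBall_zero_iff.2 hx))
    exact ⟨i, Nat.lt_succ_of_le (le_sup (f := id) hi), (mem_ball_iff_norm.1 h).le⟩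
  choose N hN using h
  exact ⟨d, N, hN⟩

/-- Plan.  `F` from `exists_rho`.  For each `p` fix a finite set `net p ⊆ 𝕜` such that every point
of the closed unit ball is within `1 / (p + 1)` of `net p` (the ball is compact: `𝕜` is proper).
Codes: `T = Σ p : ℕ, Finset (Fin p) × (Fin (p + 2) → net p)`, countable with finitely many codes of
each level; fix an injection `e : T → ℕ`.  For `j = 2 * e c + 1` put `p j` = level of `c`, `set j` =
the coded set, `val j i` = the coded value (`0` if `i ≥ p + 2`); for the other `j` put `p j = j`.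
`p_tend`: finitely many codes have level `< q`.  `rich`: take `β` above the support of `g`, and `p`
so large that `g.support ⊆ F p β`, `A ⊆ range p` and `p` exceeds the levels of the finitely many
codes with `e c < J`.  The map `α ↦ (F p α).card` is injective on `F p β` (by coherence, for
`α < α'` in `F p β` we have `F p α ⊂ F p α'`, as `α' ∈ F p α'`, `α' ∉ F p α`) with values
`≤ p + 1`, so there is a code whose value at `(F p α).card` is close to `g α`. -/
theorem exists_cod (I : Type) [LinearOrder I] [WellFoundedLT I] [Nonempty I]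
    (hc : ∀ a : I, (Set.Iio a).Countable) (𝕜 : Type) [RCLike 𝕜] : Nonempty (Cod I 𝕜) := by
  classical
  obtain ⟨F, hmono, hex, hcoh, hcard⟩ := exists_rho I hc
  obtain ⟨d, N, hN⟩ := cod_net 𝕜
  let T := Σ p : ℕ, Finset (Fin p) × (Fin (p + 2) → Fin (N p))
  obtain ⟨e, he⟩ := exists_injective_nat T
  let f : T → ℕ × Finset ℕ × (ℕ → 𝕜) := fun c =>
    (c.1, c.2.1.map Fin.valEmbedding, fun i => if h : i < c.1 + 2 then d (c.2.2 ⟨i, h⟩) else 0)
  let dec : ℕ → ℕ × Finset ℕ × (ℕ → 𝕜) := fun j =>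
    if h : ∃ c, 2 * e c + 1 = j then f h.choose else (j, ∅, 0)
  have hdec : ∀ c, dec (2 * e c + 1) = f c := fun c => by
    have h : ∃ c', 2 * e c' + 1 = 2 * e c + 1 := ⟨c, rfl⟩
    have h1 := h.choose_spec
    rw [show dec (2 * e c + 1) = f h.choose from dif_pos h, he (show e h.choose = e c by omega)]
  refine ⟨⟨F, fun j => (dec j).1, fun j => (dec j).2.1, fun j => (dec j).2.2, hmono, hex, hcoh,
    fun q => ?_, fun A g hg J => ?_⟩⟩
  · have hfin : {c : T | c.1 < q}.Finite := by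
      refine ((Set.finite_lt_nat q).biUnion (t := fun p => Set.range (fun x :
        Finset (Fin p) × (Fin (p + 2) → Fin (N p)) => (⟨p, x⟩ : T)))
        fun p _ => Set.finite_range _).subset fun c hc => ?_
      exact Set.mem_iUnion₂.2 ⟨c.1, hc, c.2, rfl⟩
    obtain ⟨B, hB⟩ := (hfin.image fun c => 2 * e c + 1).bddAbove
    refine ⟨B + q + 1, fun j hj => ?_⟩
    by_cases h : ∃ c, 2 * e c + 1 = j
    · obtain ⟨c, rfl⟩ := h
      rw [hdec]
      by_contra h
      have := hB ⟨c, not_le.1 h, rfl⟩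
      dsimp only at this
      omega
    · rw [show dec j = (j, ∅, 0) from dif_neg h]
      dsimp only
      omega
  · obtain ⟨β, hβ⟩ : ∃ β, ∀ α ∈ g.support, α ≤ β := g.support.exists_le
    have h1 : ∀ α : I, ∃ q, α ∈ g.support → α ∈ F q β := fun α => by
      by_cases h : α ∈ g.support
      · obtain ⟨q, hq⟩ := hex α β (hβ α h)
        exact ⟨q, fun _ => hq⟩
      · exact ⟨0, fun h' => absurd h' h⟩
    choose q hq using h1
    obtain ⟨B, hB⟩ := (((Set.finite_lt_nat J).preimage he.injOn).image Sigma.fst).bddAbove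
    obtain ⟨p, hp1, hp2, hp3⟩ : ∃ p, g.support.sup q ≤ p ∧ A.sup id < p ∧ B < p :=
      ⟨g.support.sup q + A.sup id + B + 1, by omega, by omega, by omega⟩
    have hlt : ∀ α ∈ F p β, ∀ α' ∈ F p β, α < α' → (F p α).card < (F p α').card :=
      fun α hα α' hα' h => by
        rw [hcoh p α β hα, hcoh p α' β hα']
        refine card_lt_card ⟨fun γ hγ => mem_filter.2 ⟨(mem_filter.1 hγ).1,
          (mem_filter.1 hγ).2.trans h.le⟩, fun hs => ?_⟩
        exact absurd (mem_filter.1 (hs (mem_filter.2 ⟨hα', le_rfl⟩))).2 (not_le.2 h)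
    have h2 : ∀ i : ℕ, ∃ k : Fin (N p), ∀ α ∈ F p β, (F p α).card = i →
        ‖g α - d k‖ ≤ 1 / ((p : ℝ) + 1) := fun i => by
      by_cases h : ∃ α ∈ F p β, (F p α).card = i
      · obtain ⟨α, hα, rfl⟩ := h
        obtain ⟨k, hk, h⟩ := hN p (g α) (hg α)
        refine ⟨⟨k, hk⟩, fun α' hα' h' => ?_⟩
        rcases lt_trichotomy α α' with h3 | rfl | h3
        · exact absurd h' (hlt α hα α' hα' h3).ne'
        · exact h
        · exact absurd h' (hlt α' hα' α hα h3).ne
      · obtain ⟨k, hk, -⟩ := hN p 0 (by simp)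
        exact ⟨⟨k, hk⟩, fun α hα h' => absurd ⟨α, hα, h'⟩ h⟩
    choose v hv using h2
    let c : T := ⟨p, A.attachFin fun a ha => (le_sup (f := id) ha).trans_lt hp2, fun i => v i⟩
    refine ⟨2 * e c + 1, ?_, odd_two_mul_add_one _, ?_, β, ?_, ?_⟩
    · by_contra h
      have := hB ⟨c, show e c < J by omega, rfl⟩
      dsimp only [c] at this
      omega
    · rw [hdec]
      exact map_valEmbedding_attachFin _
    · rw [hdec]
      exact fun α hα => hmono β _ _ ((le_sup hα).trans hp1) (hq α hα)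
    · rw [hdec]
      intro α hα
      have h3 : (F p α).card < p + 2 := Nat.lt_succ_of_le (hcard p α)
      have h4 := hv _ α hα rfl
      simpa only [f, c, dif_pos h3] using h4

end Crest.Agent.R114
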