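import Mathlib

/-!
Row 114, statement S0152: a Banach space without separable quotient under CH.  Definitions.

Overview.  `I` is a well order of type `ω₁`.  On `I →₀ 𝕜` we define a Gowers-tree type norm `nrm`
through a set `K` (`Fn P C none`) of finitely supported functionals: multiples of unit vectors,
weighted averages `W j` (`Fn P C (some j)`), and Schreier sums of special segments with disjoint
index sets.  Special sequences are coded through a `ρ`-function (`Cod`).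
* `K`: basic properties.  `Avg`: `ℓ₁`-averages.  `Sign`, `Stage1`: normalised vectors on which all
  special segments with large indices are small.  `Stage2`: exact pairs.  `Branch`: infinite
  special sequences along any block sequence.
* `Z` = completion.  `Atoms`: by recursion functionals `x β = e_β* + (branch corrected by far
  tails)`.  `Dual`: the dual of `X = closed span of the x β` is `Z`.  `Final`: no separable quotient.

Statement S0153 (separable quotients when the continuum is real-valued measurable) uses `SQ`, `SU`,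
`IsBlock`, `L1Block`, `TailNull`, `IsL1`.
-/

set_option autoImplicit false

open Finset

namespace Crest.Agent.R114

/-- `X` has a separable infinite-dimensional quotient. -/
def SQ (𝕜 X : Type*) [RCLike 𝕜] [NormedAddCommGroup X] [NormedSpace 𝕜 X] : Prop :=
  ∃ M : Submodule 𝕜 X, IsClosed (M : Set X) ∧
    TopologicalSpace.SeparableSpace (X ⧸ M) ∧ ¬ FiniteDimensional 𝕜 (X ⧸ M)

section basic
variable {I : Type} [LinearOrder I] {𝕜 : Type} [RCLike 𝕜]

/-- The bilinear pairing of finitely supported functions. -/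
noncomputable def pair (w z : I →₀ 𝕜) : 𝕜 := ∑ α ∈ w.support, w α * z α

/-- `w` lies entirely to the left of `z`. -/
def Lt (w z : I →₀ 𝕜) : Prop := ∀ α ∈ w.support, ∀ β ∈ z.support, α < β

open Classical in
/-- Restriction to a set of coordinates. -/
noncomputable def res (E : Set I) (w : I →₀ 𝕜) : I →₀ 𝕜 := w.filter (· ∈ E)

/-- The `ℓ₁` norm. -/
noncomputable def l1 (z : I →₀ 𝕜) : ℝ := ∑ α ∈ z.support, ‖z α‖

/-- The support of `φ` lies in the smallest interval containing the support of `u`. -/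
def Hull (φ u : I →₀ 𝕜) : Prop :=
  ∀ α ∈ φ.support, (∃ β ∈ u.support, β ≤ α) ∧ ∃ γ ∈ u.support, α ≤ γ

/-- A subspace containing nonzero vectors to the right of each of its vectors. -/
def Rich (Y : Submodule 𝕜 (I →₀ 𝕜)) : Prop := ∀ y ∈ Y, ∃ y' ∈ Y, y' ≠ 0 ∧ Lt y y'

/-- A block sequence. -/
def Blk (z : ℕ → I →₀ 𝕜) : Prop := (∀ i, z i ≠ 0) ∧ ∀ i k, i < k → Lt (z i) (z k)

end basic

/-- The numerical parameters. -/
structure Par where
  /-- weights -/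
  m : ℕ → ℝ
  /-- sizes -/
  n : ℕ → ℕ
  /-- binary length of the weights -/
  s : ℕ → ℕ
  m_zero : 4 ≤ m 0
  m_succ : ∀ j : ℕ, ((j : ℝ) + 2) * m j ≤ m (j + 1)
  m_lt : ∀ j, m j < 2 ^ s j
  n_mono : Monotone n
  n_ge : ∀ j : ℕ, (j : ℝ) * m j ≤ n j
  n_pow : ∀ j, n j ^ s (j + 1) ≤ n (j + 1)
  n_boot : ∀ j, m j * (5 * (∑ l ∈ range j, (n l : ℝ) + 1) ^ s j) ≤ n j
  n_three : ∀ j : ℕ, 3 * (((j : ℝ) + 2) * m (j + 1)) ≤ n j
  n_sign : ∀ j : ℕ, 4 * (n j : ℝ) ^ s (j + 1) * (⌈((j : ℝ) + 2) * m (j + 1)⌉₊ : ℝ) *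
    ((n j : ℝ) ^ s (j + 1) + 1) ^ 2 ≤ Real.exp (n j / (8 * (((j : ℝ) + 2) * m (j + 1)) ^ 2))

/-- A `ρ`-function (in the form of coherent finite sets `F q β`) together with a coding. -/
structure Cod (I : Type) [LinearOrder I] (𝕜 : Type) [RCLike 𝕜] where
  /-- the finite sets exhausting `[0, β]` -/
  F : ℕ → I → Finset I
  /-- the level coded by an index -/
  p : ℕ → ℕ
  /-- the set of earlier indices coded by an index -/
  set : ℕ → Finset ℕ
  /-- the approximate values coded by an index -/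
  val : ℕ → ℕ → 𝕜
  F_mono : ∀ β q q', q ≤ q' → F q β ⊆ F q' β
  F_ex : ∀ α β, α ≤ β → ∃ q, α ∈ F q β
  F_coh : ∀ q α β, α ∈ F q β → F q α = (F q β).filter (· ≤ α)
  p_tend : ∀ q, ∃ J, ∀ j, J ≤ j → q ≤ p j
  rich : ∀ (A : Finset ℕ) (g : I →₀ 𝕜), (∀ α, ‖g α‖ ≤ 1) → ∀ J, ∃ j, J ≤ j ∧ Odd j ∧ set j = A ∧
    ∃ β, g.support ⊆ F (p j) β ∧
      ∀ α ∈ F (p j) β, ‖g α - val j (F (p j) α).card‖ ≤ 1 / ((p j : ℝ) + 1)

section K
variable {I : Type} [LinearOrder I] {𝕜 : Type} [RCLike 𝕜]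

/-- The index `j` codes the set `A` of earlier indices and the sum `g` of earlier functionals. -/
def Cod.Coded (C : Cod I 𝕜) (j : ℕ) (A : Finset ℕ) (g : I →₀ 𝕜) : Prop :=
  Odd j ∧ C.set j = A ∧ ∃ β, g.support ⊆ C.F (C.p j) β ∧
    ∀ α ∈ C.F (C.p j) β, ‖g α - C.val j (C.F (C.p j) α).card‖ ≤ 1 / ((C.p j : ℝ) + 1)

/-- Data of a special segment: a finite special sequence, a convex set of positions and an
interval of coordinates. -/
structure Seg (I : Type) (𝕜 : Type) [RCLike 𝕜] where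
  /-- the functionals -/
  φ : ℕ → I →₀ 𝕜
  /-- their indices -/
  j : ℕ → ℕ
  /-- the length -/
  len : ℕ
  /-- the positions used -/
  A : Finset ℕ
  /-- the coordinates used -/
  E : Set I

/-- The combinatorial conditions on a segment. -/
def Seg.OK (C : Cod I 𝕜) (S : Seg I 𝕜) : Prop :=
  (∀ k l, k < l → l < S.len → S.j k < S.j l ∧ Lt (S.φ k) (S.φ l)) ∧
  (∀ k, k < S.len → C.Coded (S.j k) ((range k).image S.j) (∑ i ∈ range k, S.φ i)) ∧
  (∀ k ∈ S.A, k < S.len) ∧ (∀ k₁ ∈ S.A, ∀ k₂ ∈ S.A, ∀ k, k₁ ≤ k → k ≤ k₂ → k ∈ S.A) ∧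
  S.E.OrdConnected

/-- The functional of a segment. -/
noncomputable def Seg.val (S : Seg I 𝕜) : I →₀ 𝕜 := res S.E (∑ k ∈ S.A, S.φ k)

/-- `Fn P C none w`: `w` is in the norming set `K`.  `Fn P C (some j) φ`: `φ` has weight `m j`. -/
inductive Fn (P : Par) (C : Cod I 𝕜) : Option ℕ → (I →₀ 𝕜) → Prop
  | basic (α : I) (c : 𝕜) (hc : ‖c‖ ≤ 1) : Fn P C none (Finsupp.single α c)
  | ofW (j : ℕ) (φ : I →₀ 𝕜) (h : Fn P C (some j) φ) : Fn P C none φ
  | avg (j d : ℕ) (w : Fin d → I →₀ 𝕜) (hd : d ≤ P.n j) (hs : ∀ i i', i < i' → Lt (w i) (w i'))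
      (h : ∀ i, Fn P C none (w i)) : Fn P C (some j) (((P.m j)⁻¹ : ℝ) • ∑ i, w i)
  | comb (ι : Type) [Fintype ι] (S : ι → Seg I 𝕜) (c : ι → 𝕜) (hc : ∀ t, ‖c t‖ ≤ 1)
      (hS : ∀ t, (S t).OK C) (hd : ∀ t, ∀ k ∈ (S t).A, Fintype.card ι ≤ (S t).j k)
      (hdis : ∀ t t', t ≠ t' → ∀ k ∈ (S t).A, ∀ k' ∈ (S t').A, (S t).j k ≠ (S t').j k')
      (h : ∀ t k, k ∈ (S t).A → Fn P C (some ((S t).j k)) ((S t).φ k)) :
      Fn P C none (∑ t, c t • (S t).val)

/-- The norm. -/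
noncomputable def nrm (P : Par) (C : Cod I 𝕜) (z : I →₀ 𝕜) : ℝ :=
  ⨆ w : {w : I →₀ 𝕜 // Fn P C none w}, ‖pair w.1 z‖

/-- An admissible special segment. -/
def SegIn (P : Par) (C : Cod I 𝕜) (S : Seg I 𝕜) : Prop :=
  S.OK C ∧ ∀ k ∈ S.A, Fn P C (some (S.j k)) (S.φ k)

/-- The property of `ℓ₁^N`-averages that is used. -/
def Avg (P : Par) (C : Cod I 𝕜) (x : I →₀ 𝕜) (N : ℕ) : Prop :=
  ∀ d, d ≤ N → ∀ w : Fin d → I →₀ 𝕜, (∀ i i', i < i' → Lt (w i) (w i')) →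
    (∀ i, Fn P C none (w i)) → ∑ i, ‖pair (w i) x‖ ≤ 4

/-- Data of an infinite special sequence. -/
structure Br (I : Type) (𝕜 : Type) [RCLike 𝕜] where
  /-- the functionals -/
  φ : ℕ → I →₀ 𝕜
  /-- their indices -/
  j : ℕ → ℕ

/-- An infinite special sequence. -/
def Br.OK (P : Par) (C : Cod I 𝕜) (b : Br I 𝕜) : Prop :=
  (∀ k l, k < l → b.j k < b.j l ∧ Lt (b.φ k) (b.φ l)) ∧
  (∀ k, C.Coded (b.j k) ((range k).image b.j) (∑ i ∈ range k, b.φ i)) ∧
  ∀ k, Fn P C (some (b.j k)) (b.φ k)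

/-- Almost disjoint index sets. -/
def Br.AD (b b' : Br I 𝕜) : Prop := {k | ∃ i, b.j k = b'.j i}.Finite

/-- `Z` is the completion of `I →₀ 𝕜` for `nrm`. -/
structure Cpl (P : Par) (C : Cod I 𝕜) (Z : Type) [NormedAddCommGroup Z] [NormedSpace 𝕜 Z] where
  /-- the embedding -/
  ι : (I →₀ 𝕜) →ₗ[𝕜] Z
  /-- finitely supported functionals -/
  fnl : (I →₀ 𝕜) →ₗ[𝕜] StrongDual 𝕜 Z
  /-- interval projections -/
  prj : Set I → Z →L[𝕜] Z
  dense : DenseRange ι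
  norm_ι : ∀ z, ‖ι z‖ = nrm P C z
  fnl_ι : ∀ w z, fnl w (ι z) = pair w z
  prj_ι : ∀ E : Set I, E.OrdConnected → ∀ z, prj E (ι z) = ι (res E z)

/-- The properties of the atoms `x β` for the tasks `task β`. -/
structure Atoms {P : Par} {C : Cod I 𝕜} {Z : Type} [NormedAddCommGroup Z] [NormedSpace 𝕜 Z]
    (M : Cpl P C Z) (task : I → ℕ → I →₀ 𝕜) (x : I → StrongDual 𝕜 Z) : Prop where
  tri : ∀ β α, β < α → x β (M.ι (Finsupp.single α 1)) = 0
  diag : ∀ β, x β (M.ι (Finsupp.single β 1)) = 1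
  norming : ∀ L : Set I, IsLowerSet L → ∀ z : I →₀ 𝕜, (∀ α ∈ z.support, α ∈ L) →
    ∀ r : ℝ, r < nrm P C z → ∃ y ∈ Submodule.span 𝕜 (x '' L), ‖y‖ ≤ 3 ∧ r < ‖y (M.ι z)‖
  task : ∀ β, Blk (task β) → (∀ i, ∀ γ ∈ (task β i).support, γ < β) →
    ∃ t : StrongDual 𝕜 Z, x β = M.fnl (Finsupp.single β 1) + t ∧ ‖t‖ ≤ 2 ∧
      (∀ α, (∀ i, ∀ γ ∈ (task β i).support, γ < α) → t (M.ι (Finsupp.single α 1)) = 0) ∧
      ∃ u : ℕ → I →₀ 𝕜, ∀ k, u k ∈ Submodule.span 𝕜 (task β '' Set.Ici k) ∧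
        nrm P C (u k) ≤ 44 ∧ 1 / 2 ≤ ‖t (M.ι (u k))‖

open Classical in
/-- The sub-segment of the positions whose index lies in `D`. -/
noncomputable def Seg.win (S : Seg I 𝕜) (D : Set ℕ) : Seg I 𝕜 :=
  { S with A := S.A.filter fun k => S.j k ∈ D }

/-- The value coded by the index `j` on the vector `x`. -/
noncomputable def Cod.cv (C : Cod I 𝕜) (j : ℕ) (x : I →₀ 𝕜) : 𝕜 :=
  ∑ α ∈ x.support, C.val j (C.F (C.p j) α).card * x α

/-- Rapidly increasing sequences of averages (first stage), with windows `[J s, J (s + 1))`. -/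
structure RIS (P : Par) (C : Cod I 𝕜) (θ : ℝ) (r : ℕ) (x : ℕ → I →₀ 𝕜) (J : ℕ → ℕ) : Prop where
  lt : ∀ s s', s < s' → Lt (x s) (x s')
  nrm_eq : ∀ s, nrm P C (x s) = 1
  avg : ∀ s, Avg P C (x s) (P.n (J s))
  mono : Monotone J
  big : r + 1 ≤ J 0
  tail : ∀ s, 2 / P.m (J (s + 1)) * l1 (x s) ≤ θ
  err : ∀ s j, J (s + 1) ≤ j → l1 (x s) / ((C.p j : ℝ) + 1) ≤ θ
  supp : ∀ s, ∃ β, ∀ j, J s ≤ j → ∀ s', s' < s → (x s').support ⊆ C.F (C.p j) β

/-- Rapidly increasing sequences of first stage vectors (second stage). -/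
structure Ris2 (P : Par) (C : Cod I 𝕜) (j : ℕ) (u : ℕ → I →₀ 𝕜) (jj t : ℕ → ℕ) : Prop where
  lt : ∀ i i', i < i' → Lt (u i) (u i')
  nrm_eq : ∀ i, nrm P C (u i) = 1
  avg : ∀ i, Avg P C (u i) (P.n (jj i))
  odd : ∀ i, Odd (jj i)
  le : ∀ i, j ≤ jj i
  seg : ∀ i S, SegIn P C S → (∀ k ∈ S.A, jj i + 1 < S.j k) →
    ‖pair S.val (u i)‖ ≤ 15 / ((jj i : ℝ) + 2)
  t_mono : Monotone t
  t_le : ∀ i, t i ≤ jj i
  few : ∀ i, (t i : ℝ) * (15 / ((jj i : ℝ) + 2)) ≤ 1 / P.m j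
  tail : ∀ i, 2 / P.m (t (i + 1)) * l1 (u i) ≤ 1 / P.m j

/-- `|w (∑_{i ∈ s} u i)| ≤ A |s| + B` for all finite `s` and all `w ∈ K`. -/
def Est (P : Par) (C : Cod I 𝕜) (u : ℕ → I →₀ 𝕜) (A B : ℝ) : Prop :=
  ∀ s : Finset ℕ, ∀ w, Fn P C none w → ‖pair w (∑ i ∈ s, u i)‖ ≤ A * s.card + B

/-- The invariant of the recursion defining the atoms: `d = (b, T)` is good at `β` over the earlier
data `f`; `T N` is the tail `∑_{k ≥ N} b.φ k` of the branch, corrected by far tails. -/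
structure Good {P : Par} {C : Cod I 𝕜} {Z : Type} [NormedAddCommGroup Z] [NormedSpace 𝕜 Z]
    (M : Cpl P C Z) (task : I → ℕ → I →₀ 𝕜) (β : I) (f : I → Br I 𝕜 × (ℕ → StrongDual 𝕜 Z))
    (d : Br I 𝕜 × (ℕ → StrongDual 𝕜 Z)) : Prop where
  ok : d.1.OK P C
  big : 351 ≤ d.1.j 0
  ad : ∀ γ, γ < β → d.1.AD (f γ).1
  supp : ∀ k, ∀ α ∈ (d.1.φ k).support, α < β
  van : ∀ N α, (∀ k, ∀ γ ∈ (d.1.φ k).support, γ < α) → d.2 N (M.ι (Finsupp.single α 1)) = 0
  approx : ∀ N z, ∃ N₁, ∀ N', N₁ ≤ N' →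
    ‖d.2 N (M.ι z) - ∑ k ∈ Ico N N', pair (d.1.φ k) z‖ ≤ 4 / P.m (d.1.j N) * nrm P C z
  span : ∀ N, d.2 0 - d.2 N ∈
    Submodule.span 𝕜 ((fun γ => M.fnl (Finsupp.single γ 1) + (f γ).2 0) '' Set.Iio β)
  task : Blk (task β) → (∀ i, ∀ γ ∈ (task β i).support, γ < β) →
    (∀ k, ∀ α ∈ (d.1.φ k).support, ∃ i, ∃ γ ∈ (task β i).support, α ≤ γ) ∧
    ∃ u : ℕ → I →₀ 𝕜, ∀ k, u k ∈ Submodule.span 𝕜 (task β '' Set.Ici k) ∧ nrm P C (u k) ≤ 44 ∧
      ∀ l, pair (d.1.φ l) (u k) = if l = k then 1 else 0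

end K

section S0153
variable {𝕜 : Type} [RCLike 𝕜] {X : Type*} [NormedAddCommGroup X] [NormedSpace 𝕜 X]

/-- Strong suppression unconditionality: a finite combination is normed by a vector killed by the
other functionals. -/
def SU (h : ℕ → StrongDual 𝕜 X) : Prop :=
  ∀ (s : Finset ℕ) (a : ℕ → 𝕜), ∃ x : X, ‖x‖ ≤ 1 ∧
    ‖∑ i ∈ s, a i • h i‖ ≤ 2 * ‖(∑ i ∈ s, a i • h i) x‖ ∧ ∀ i, i ∉ s → h i x = 0

/-- `c` is a block sequence of `b` with coefficients `a`. -/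
def IsBlock (a : ℕ → ℕ →₀ 𝕜) (c b : ℕ → StrongDual 𝕜 X) : Prop :=
  (∀ k l, k < l → Lt (a k) (a l)) ∧ ∀ k, c k = Finsupp.linearCombination 𝕜 b (a k)

/-- `c` is an `ℓ₁`-normalised block sequence of `b`. -/
def L1Block (c b : ℕ → StrongDual 𝕜 X) : Prop :=
  ∃ a : ℕ → ℕ →₀ 𝕜, IsBlock a c b ∧ ∀ k, l1 (a k) = 1

/-- Tails of the span of `u` tend to zero pointwise, uniformly on the unit ball of the span. -/
def TailNull (u : ℕ → StrongDual 𝕜 X) : Prop :=
  ∀ (x : X) (ε : ℝ), 0 < ε → ∃ N, ∀ a : ℕ →₀ 𝕜, (∀ i ∈ a.support, N ≤ i) →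
    ‖Finsupp.linearCombination 𝕜 u a x‖ ≤ ε * ‖Finsupp.linearCombination 𝕜 u a‖

/-- `b` is bounded by one and has a lower `ℓ₁` estimate. -/
def IsL1 (b : ℕ → StrongDual 𝕜 X) : Prop :=
  (∀ i, ‖b i‖ ≤ 1) ∧ ∃ δ : ℝ, 0 < δ ∧ ∀ a : ℕ →₀ 𝕜, δ * l1 a ≤ ‖Finsupp.linearCombination 𝕜 b a‖

end S0153

/-! ### Elementary lemmas -/

section lemmas
variable {I : Type} [LinearOrder I] {𝕜 : Type} [RCLike 𝕜]

omit [LinearOrder I] in
lemma pair_eq_sum {w z : I →₀ 𝕜} {s : Finset I} (h : w.support ⊆ s) :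
    pair w z = ∑ α ∈ s, w α * z α :=
  sum_subset h fun α _ hα => by rw [Finsupp.notMem_support_iff.mp hα, zero_mul]

lemma pair_comm (w z : I →₀ 𝕜) : pair w z = pair z w := by
  rw [pair_eq_sum (subset_union_left (s₂ := z.support)),
    pair_eq_sum (subset_union_right (s₁ := w.support))]
  simp only [mul_comm]

omit [LinearOrder I] in
lemma pair_add_right (w z z' : I →₀ 𝕜) : pair w (z + z') = pair w z + pair w z' := by
  simp [pair, mul_add, sum_add_distrib]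

omit [LinearOrder I] in
lemma pair_smul_right (w z : I →₀ 𝕜) (c : 𝕜) : pair w (c • z) = c * pair w z := by
  simp [pair, mul_sum, mul_left_comm]

/-- The pairing as a bilinear map. -/
noncomputable def pairL : (I →₀ 𝕜) →ₗ[𝕜] (I →₀ 𝕜) →ₗ[𝕜] 𝕜 :=
  LinearMap.mk₂ 𝕜 pair
    (fun w w' z => by rw [pair_comm, pair_add_right, pair_comm z, pair_comm z])
    (fun c w z => by rw [pair_comm, pair_smul_right, pair_comm z, smul_eq_mul])
    pair_add_right (fun c w z => by rw [pair_smul_right, smul_eq_mul])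

lemma pairL_apply (w z : I →₀ 𝕜) : pairL w z = pair w z := rfl

lemma pair_add_left (w w' z : I →₀ 𝕜) : pair (w + w') z = pair w z + pair w' z := by
  simp only [← pairL_apply, map_add, LinearMap.add_apply]
lemma pair_smul_left (c : 𝕜) (w z : I →₀ 𝕜) : pair (c • w) z = c * pair w z := by
  simp only [← pairL_apply, map_smul, LinearMap.smul_apply, smul_eq_mul]
lemma pair_sub_left (w w' z : I →₀ 𝕜) : pair (w - w') z = pair w z - pair w' z := by
  simp only [← pairL_apply, map_sub, LinearMap.sub_apply]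
lemma pair_sub_right (w z z' : I →₀ 𝕜) : pair w (z - z') = pair w z - pair w z' := by
  simp only [← pairL_apply, map_sub]
lemma pair_sum_left {ι : Type*} (s : Finset ι) (w : ι → I →₀ 𝕜) (z : I →₀ 𝕜) :
    pair (∑ i ∈ s, w i) z = ∑ i ∈ s, pair (w i) z := by
  simp only [← pairL_apply, map_sum, LinearMap.sum_apply]
lemma pair_sum_right {ι : Type*} (s : Finset ι) (w : I →₀ 𝕜) (z : ι → I →₀ 𝕜) :
    pair w (∑ i ∈ s, z i) = ∑ i ∈ s, pair w (z i) := by
  simp only [← pairL_apply, map_sum]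
omit [LinearOrder I] in
@[simp] lemma pair_zero_left (z : I →₀ 𝕜) : pair 0 z = 0 := by simp [pair]
omit [LinearOrder I] in
@[simp] lemma pair_zero_right (w : I →₀ 𝕜) : pair w 0 = 0 := by simp [pair]

omit [LinearOrder I] in
lemma real_smul_eq (c : ℝ) (w : I →₀ 𝕜) : c • w = (c : 𝕜) • w := by
  ext α; simp [RCLike.real_smul_eq_coe_mul]

lemma pair_real_smul_left (c : ℝ) (w z : I →₀ 𝕜) : pair (c • w) z = (c : 𝕜) * pair w z := by
  rw [real_smul_eq, pair_smul_left]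
omit [LinearOrder I] in
lemma pair_real_smul_right (c : ℝ) (w z : I →₀ 𝕜) : pair w (c • z) = (c : 𝕜) * pair w z := by
  rw [real_smul_eq, pair_smul_right]

@[simp] lemma pair_single_left (α : I) (c : 𝕜) (z : I →₀ 𝕜) :
    pair (Finsupp.single α c) z = c * z α := by
  rw [pair_eq_sum Finsupp.support_single_subset]; simp
@[simp] lemma pair_single_right (α : I) (c : 𝕜) (w : I →₀ 𝕜) :
    pair w (Finsupp.single α c) = w α * c := by
  rw [pair_comm, pair_single_left, mul_comm]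

omit [LinearOrder I] in
lemma pair_eq_zero {w z : I →₀ 𝕜} (h : ∀ α ∈ w.support, α ∉ z.support) : pair w z = 0 :=
  sum_eq_zero fun α hα => by rw [Finsupp.notMem_support_iff.mp (h α hα), mul_zero]

lemma Lt.pair_eq_zero {w z : I →₀ 𝕜} (h : Lt w z) : pair w z = 0 :=
  R114.pair_eq_zero fun α hα hα' => lt_irrefl _ (h α hα α hα')
lemma Lt.pair_eq_zero' {w z : I →₀ 𝕜} (h : Lt z w) : pair w z = 0 :=
  R114.pair_eq_zero fun α hα hα' => lt_irrefl _ (h α hα' α hα)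

lemma Lt.trans {a b c : I →₀ 𝕜} (h : Lt a b) (h' : Lt b c) (hb : b ≠ 0) : Lt a c := by
  obtain ⟨γ, hγ⟩ := Finsupp.support_nonempty_iff.mpr hb
  exact fun α hα β hβ => (h α hα γ hγ).trans (h' γ hγ β hβ)

lemma Lt.mono {a a' b b' : I →₀ 𝕜} (h : Lt a b) (ha : a'.support ⊆ a.support)
    (hb : b'.support ⊆ b.support) : Lt a' b' := fun α hα β hβ => h α (ha hα) β (hb hβ)

lemma Lt.sum_right {ι : Type*} {a : I →₀ 𝕜} {s : Finset ι} {b : ι → I →₀ 𝕜}
    (h : ∀ i ∈ s, Lt a (b i)) : Lt a (∑ i ∈ s, b i) := fun α hα β hβ => by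
  classical
  obtain ⟨i, hi, hβ'⟩ := mem_biUnion.mp (Finsupp.support_finsetSum hβ)
  exact h i hi α hα β hβ'

lemma Lt.sum_left {ι : Type*} {b : I →₀ 𝕜} {s : Finset ι} {a : ι → I →₀ 𝕜}
    (h : ∀ i ∈ s, Lt (a i) b) : Lt (∑ i ∈ s, a i) b := fun α hα β hβ => by
  classical
  obtain ⟨i, hi, hα'⟩ := mem_biUnion.mp (Finsupp.support_finsetSum hα)
  exact h i hi α hα' β hβ

lemma Lt.smul {a b : I →₀ 𝕜} (h : Lt a b) (c c' : 𝕜) : Lt (c • a) (c' • b) :=
  h.mono Finsupp.support_smul Finsupp.support_smul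

lemma Hull.lt {φ φ' u u' : I →₀ 𝕜} (h : Hull φ u) (h' : Hull φ' u') (hu : Lt u u') :
    Lt φ φ' := fun α hα α' hα' => by
  obtain ⟨γ, hγ, h1⟩ := (h α hα).2
  obtain ⟨β, hβ, h2⟩ := (h' α' hα').1
  exact h1.trans_lt ((hu γ hγ β hβ).trans_le h2)

omit [LinearOrder I] in
open Classical in
lemma res_apply (E : Set I) (w : I →₀ 𝕜) (α : I) : res E w α = if α ∈ E then w α else 0 := by
  simp [res, Finsupp.filter_apply]

omit [LinearOrder I] in
lemma res_apply_of_mem {E : Set I} (w : I →₀ 𝕜) {α : I} (h : α ∈ E) : res E w α = w α := by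
  rw [res_apply, if_pos h]
omit [LinearOrder I] in
lemma res_apply_of_notMem {E : Set I} (w : I →₀ 𝕜) {α : I} (h : α ∉ E) : res E w α = 0 := by
  rw [res_apply, if_neg h]

omit [LinearOrder I] in
lemma mem_support_res {E : Set I} {w : I →₀ 𝕜} {α : I} :
    α ∈ (res E w).support ↔ α ∈ w.support ∧ α ∈ E := by
  by_cases h : α ∈ E <;> simp [res_apply, h]

omit [LinearOrder I] in
lemma support_res_subset (E : Set I) (w : I →₀ 𝕜) : (res E w).support ⊆ w.support :=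
  fun _ h => (mem_support_res.mp h).1

/-- Restriction as a linear map. -/
noncomputable def resL (E : Set I) : (I →₀ 𝕜) →ₗ[𝕜] (I →₀ 𝕜) where
  toFun := res E
  map_add' := fun w w' => by ext α; by_cases h : α ∈ E <;> simp [res_apply, h]
  map_smul' := fun c w => by ext α; by_cases h : α ∈ E <;> simp [res_apply, h]

omit [LinearOrder I] in
lemma resL_apply (E : Set I) (w : I →₀ 𝕜) : resL E w = res E w := rfl
omit [LinearOrder I] in
lemma res_add (E : Set I) (w w' : I →₀ 𝕜) : res E (w + w') = res E w + res E w' :=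
  (resL E).map_add w w'
omit [LinearOrder I] in
lemma res_sub (E : Set I) (w w' : I →₀ 𝕜) : res E (w - w') = res E w - res E w' :=
  (resL E).map_sub w w'
omit [LinearOrder I] in
lemma res_smul (E : Set I) (c : 𝕜) (w : I →₀ 𝕜) : res E (c • w) = c • res E w :=
  (resL E).map_smul c w
omit [LinearOrder I] in
lemma res_sum {ι : Type*} (E : Set I) (s : Finset ι) (w : ι → I →₀ 𝕜) :
    res E (∑ i ∈ s, w i) = ∑ i ∈ s, res E (w i) := map_sum (resL E) w s
omit [LinearOrder I] in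
@[simp] lemma res_zero (E : Set I) : res E (0 : I →₀ 𝕜) = 0 := (resL E).map_zero
omit [LinearOrder I] in
lemma res_res (E E' : Set I) (w : I →₀ 𝕜) : res E (res E' w) = res (E ∩ E') w := by
  ext α; by_cases h : α ∈ E <;> by_cases h' : α ∈ E' <;> simp [res_apply, h, h']
omit [LinearOrder I] in
lemma res_eq_self {E : Set I} {w : I →₀ 𝕜} (h : ∀ α ∈ w.support, α ∈ E) : res E w = w := by
  ext α
  by_cases h' : α ∈ E
  · exact res_apply_of_mem w h'
  · rw [res_apply_of_notMem w h']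
    exact (Finsupp.notMem_support_iff.mp fun hα => h' (h α hα)).symm
omit [LinearOrder I] in
lemma res_eq_zero {E : Set I} {w : I →₀ 𝕜} (h : ∀ α ∈ w.support, α ∉ E) : res E w = 0 :=
  Finsupp.support_eq_empty.mp (eq_empty_of_forall_notMem fun α hα =>
    h α (mem_support_res.mp hα).1 (mem_support_res.mp hα).2)

omit [LinearOrder I] in
lemma pair_res (E : Set I) (w z : I →₀ 𝕜) : pair (res E w) z = pair w (res E z) := by
  rw [pair_eq_sum (support_res_subset E w), pair]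
  refine sum_congr rfl fun α _ => ?_
  by_cases h : α ∈ E <;> simp [res_apply, h]

omit [LinearOrder I] in
lemma l1_nonneg (z : I →₀ 𝕜) : 0 ≤ l1 z := sum_nonneg fun _ _ => norm_nonneg _

lemma norm_pair_le_l1 {w : I →₀ 𝕜} {B : ℝ} (h : ∀ α, ‖w α‖ ≤ B) (z : I →₀ 𝕜) :
    ‖pair w z‖ ≤ B * l1 z := by
  rw [pair_comm, pair, l1, mul_sum]
  refine norm_sum_le_of_le _ fun α _ => ?_
  rw [norm_mul, mul_comm]
  exact mul_le_mul_of_nonneg_right (h α) (norm_nonneg _)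

namespace Par
variable (P : Par)

lemma four_le (j : ℕ) : 4 ≤ P.m j := by
  induction j with
  | zero => exact P.m_zero
  | succ j ih => nlinarith [P.m_succ j, Nat.cast_nonneg (α := ℝ) j]

lemma m_pos (j : ℕ) : 0 < P.m j := by linarith [P.four_le j]

lemma two_mul_le (j : ℕ) : 2 * P.m j ≤ P.m (j + 1) := by
  nlinarith [P.m_succ j, Nat.cast_nonneg (α := ℝ) j, P.m_pos j]

lemma m_mono : Monotone P.m :=
  monotone_nat_of_le_succ fun j => by linarith [P.two_mul_le j, P.m_pos j]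

lemma le_m (j : ℕ) : (j : ℝ) + 1 ≤ P.m j := by
  cases j with
  | zero => simpa using (by linarith [P.m_zero] : (1 : ℝ) ≤ P.m 0)
  | succ j => push_cast; nlinarith [P.m_succ j, P.four_le j, Nat.cast_nonneg (α := ℝ) j]

lemma sum_Ico_le (j J : ℕ) : ∑ l ∈ Ico j (j + J), (P.m l)⁻¹ ≤ 2 / P.m j - 2 / P.m (j + J) := by
  induction J with
  | zero => simp
  | succ J ih =>
    rw [← add_assoc, sum_Ico_succ_top (by omega)]
    have h1 := P.two_mul_le (j + J)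
    have h2 := P.m_pos (j + J)
    have h3 : 2 / P.m (j + J + 1) ≤ (P.m (j + J))⁻¹ := by
      rw [div_le_iff₀ (P.m_pos _), inv_mul_eq_div, le_div_iff₀ h2]; exact h1
    have h4 : 2 / P.m (j + J) = 2 * (P.m (j + J))⁻¹ := div_eq_mul_inv _ _
    linarith

/-- `∑_{l ≥ j} 1 / m l ≤ 2 / m j` for any finite set of indices `≥ j`. -/
lemma sum_inv_le (j : ℕ) (s : Finset ℕ) (h : ∀ l ∈ s, j ≤ l) : ∑ l ∈ s, (P.m l)⁻¹ ≤ 2 / P.m j := by
  have h1 : s ⊆ Ico j (j + (s.sup id + 1)) := fun l hl =>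
    mem_Ico.mpr ⟨h l hl, by have := le_sup (f := id) hl; simp only [id] at this; omega⟩
  have h2 := sum_le_sum_of_subset_of_nonneg h1 (f := fun l => (P.m l)⁻¹)
    fun l _ _ => (inv_pos.mpr (P.m_pos l)).le
  have h3 := P.sum_Ico_le j (s.sup id + 1)
  have h4 : 0 ≤ 2 / P.m (j + (s.sup id + 1)) := (div_pos two_pos (P.m_pos _)).le
  linarith

/-- The same for an injectively indexed family. -/
lemma sum_inv_le' {ι : Type*} (j : ℕ) (s : Finset ι) (f : ι → ℕ) (hf : Set.InjOn f s)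
    (h : ∀ i ∈ s, j ≤ f i) : ∑ i ∈ s, (P.m (f i))⁻¹ ≤ 2 / P.m j := by
  rw [← sum_image (f := fun l => (P.m l)⁻¹) hf]
  refine P.sum_inv_le j _ fun l hl => ?_
  obtain ⟨i, hi, rfl⟩ := mem_image.mp hl
  exact h i hi

lemma le_n (j : ℕ) : j ≤ P.n j := by
  have : (j : ℝ) ≤ P.n j := by nlinarith [P.n_ge j, P.four_le j, Nat.cast_nonneg (α := ℝ) j]
  exact_mod_cast this

end Par

end lemmas

end Crest.Agent.R114
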