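import Crest.Agent.R114.Space

/-! Row 114: the dual of the closed span of the atoms is `Z`. -/

set_option autoImplicit false

open Finset

namespace Crest.Agent.R114

variable {I : Type} [LinearOrder I] {𝕜 : Type} [RCLike 𝕜] {P : Par} {C : Cod I 𝕜}
variable {Z : Type} [NormedAddCommGroup Z] [NormedSpace 𝕜 Z] {M : Cpl P C Z}

/-- Bounded completeness.  Plan: if `L` is empty take `0`.  Otherwise the net `(v a)_{a ∈ L}` is
Cauchy: if not, there are `ε > 0` and `a 0 ≤ a 1 ≤ …` in `L` with `‖v (a (i+1)) - v (a i)‖ ≥ ε`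
(`Metric.cauchySeq_iff'`); for `w = v (a d)` and `i < d`,
`v (a (i+1)) - v (a i) = prj (Ioc (a i) (a (i+1))) w` (`prj_union`), so `Cpl.lower_est` with
`d = n j ≥ j * m j` gives `j * ε ≤ B` for all `j`.  The limit `w` works, by continuity of `prj`. -/
theorem Cpl.bdd_complete [CompleteSpace Z] (M : Cpl P C Z) {L : Set I} (hL : IsLowerSet L)
    (v : I → Z) {B : ℝ} (hB : ∀ a ∈ L, ‖v a‖ ≤ B)
    (hv : ∀ a ∈ L, ∀ b ∈ L, a ≤ b → M.prj (Set.Iic a) (v b) = v a) :
    ∃ w, M.prj L w = w ∧ ∀ a ∈ L, M.prj (Set.Iic a) w = v a := by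
  rcases L.eq_empty_or_nonempty with rfl | ⟨a₀, ha₀⟩
  · exact ⟨0, map_zero _, fun a ha => ha.elim⟩
  have : Nonempty L := ⟨⟨a₀, ha₀⟩⟩
  have hc : CauchySeq fun a : L => v a := by
    rw [Metric.cauchySeq_iff']
    by_contra h
    push Not at h
    obtain ⟨ε, hε, h⟩ := h
    choose g hg1 hg2 using h
    set a : ℕ → L := fun i => g^[i] ⟨a₀, ha₀⟩ with ha
    have hs : ∀ i, a (i + 1) = g (a i) := fun i => Function.iterate_succ_apply' _ _ _
    have hm : Monotone fun i => (a i : I) :=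
      monotone_nat_of_le_succ fun i => by rw [hs]; exact hg1 (a i)
    obtain ⟨j, hj⟩ := exists_nat_gt (B / ε)
    have h1 := M.lower_est j (P.n j) le_rfl _ hm (v (a (P.n j)))
    have h2 : ∀ i ∈ range (P.n j), ε ≤ ‖M.prj (Set.Ioc (a i : I) (a (i + 1))) (v (a (P.n j)))‖ := by
      intro i hi
      have h3 := M.prj_union (E := Set.Iic (a i : I)) (E' := Set.Ioc (a i : I) (a (i + 1)))
        Set.ordConnected_Iic Set.ordConnected_Ioc
        (by rw [Set.Iic_union_Ioc_eq_Iic (hm i.le_succ)]; exact Set.ordConnected_Iic)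
        (Set.Iic_disjoint_Ioc le_rfl) (v (a (P.n j)))
      have hi' := mem_range.1 hi
      rw [Set.Iic_union_Ioc_eq_Iic (hm i.le_succ), hv _ (a i).2 _ (a _).2 (hm hi'.le),
        hv _ (a (i + 1)).2 _ (a _).2 (hm hi')] at h3
      have h4 := hg2 (a i)
      rw [← hs, dist_eq_norm, h3, add_sub_cancel_left] at h4
      exact h4
    have h3 := card_nsmul_le_sum _ _ _ h2
    rw [card_range, nsmul_eq_mul] at h3
    have h4 := mul_le_mul_of_nonneg_left (hB _ (a (P.n j)).2) (P.m_pos j).le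
    have h5 := mul_le_mul_of_nonneg_right (P.n_ge j) hε.le
    rw [div_lt_iff₀ hε] at hj
    nlinarith [P.m_pos j]
  obtain ⟨w, hw⟩ := cauchySeq_tendsto_of_complete hc
  refine ⟨w, tendsto_nhds_unique (((M.prj L).continuous.tendsto w).comp hw) (hw.congr fun a => ?_),
    fun a ha => tendsto_nhds_unique (((M.prj (Set.Iic a)).continuous.tendsto w).comp hw)
      (tendsto_const_nhds.congr' ?_)⟩
  · have h1 := hv a a.2 a a.2 le_rfl
    change v a = M.prj L (v a)
    rw [← h1, M.prj_prj hL.ordConnected Set.ordConnected_Iic,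
      Set.inter_eq_right.2 (hL.Iic_subset a.2)]
  · filter_upwards [Filter.eventually_ge_atTop (⟨a, ha⟩ : L)] with b hb
    exact (hv a ha b b.2 hb).symm

/-- Norming in `Z`. Plan: `z` from `exists_near_prj` within `ε` of `v`; for `r < nrm z` take `y` from
`hx.norming`; `y v = ψ y` (span induction), so `r < ‖y (ι z)‖ ≤ 3 ‖ψ‖ + 3 ε`. -/
theorem Atoms.norm_le {task : I → ℕ → I →₀ 𝕜} {x : I → StrongDual 𝕜 Z} (hx : Atoms M task x)
    {L : Set I} (hL : IsLowerSet L) (ψ : StrongDual 𝕜 (StrongDual 𝕜 Z)) {v : Z}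
    (hv : M.prj L v = v) (h : ∀ γ ∈ L, x γ v = ψ (x γ)) : ‖v‖ ≤ 3 * ‖ψ‖ := by
  refine le_of_forall_pos_le_add fun ε hε => ?_
  obtain ⟨z, hz, hz'⟩ := M.exists_near_prj hL.ordConnected v (ε := ε / 4) (by positivity)
  rw [hv] at hz'
  have h1 : nrm P C z ≤ 3 * ‖ψ‖ + 3 * (ε / 4) := le_of_forall_lt fun r hr => by
    obtain ⟨y, hy, hy1, hy2⟩ := hx.norming L hL z hz r hr
    have h2 : y v = ψ y := by
      clear hy1 hy2
      induction hy using Submodule.span_induction with
      | mem y hy =>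
        obtain ⟨γ, hγ, rfl⟩ := hy
        exact h γ hγ
      | zero => simp
      | add y y' _ _ h1 h2 => rw [add_apply, map_add, h1, h2]
      | smul c y _ h1 => rw [smul_apply, map_smul, h1]
    have h3 : ‖y v‖ ≤ ‖ψ‖ * 3 := by
      rw [h2]
      exact ψ.le_opNorm_of_le hy1
    have h4 : ‖y v - y (M.ι z)‖ ≤ 3 * (ε / 4) := by
      rw [← map_sub]
      exact (y.le_opNorm _).trans (mul_le_mul hy1 hz'.le (norm_nonneg _) (by norm_num))
    linarith [norm_le_norm_add_norm_sub (y v) (y (M.ι z))]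
  rw [← M.norm_ι] at h1
  linarith [norm_le_norm_add_norm_sub' v (M.ι z)]

/-- Plan.  Call `v` a solution on a lower set `L` if `prj L v = v` and `x γ v = ψ (x γ)` on `L`.
Solutions are unique (`Atoms.norm_le` with `ψ = 0`) and bounded by `3 ‖ψ‖`; the projection of a
solution on `L` to a smaller lower set is a solution (`Cpl.apply_prj`, `hx.tri`).  If there are
solutions `v a` on `Iic a` for all `a ∈ L`, then `Cpl.bdd_complete` gives a solution on `L`.
Strong induction: from a solution `w` on `Iio b`, `w + (ψ (x b) - x b w) • e_b` is a solution on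
`Iic b` (`hx.tri`, `hx.diag`).  Finally take `L = univ`. -/
theorem Atoms.dual [WellFoundedLT I] [CompleteSpace Z] {task : I → ℕ → I →₀ 𝕜}
    {x : I → StrongDual 𝕜 Z} (hx : Atoms M task x) (ψ : StrongDual 𝕜 (StrongDual 𝕜 Z)) :
    ∃ v : Z, ‖v‖ ≤ 3 * ‖ψ‖ ∧ ∀ γ, x γ v = ψ (x γ) := by
  set Sol : Set I → Z → Prop := fun L v => M.prj L v = v ∧ ∀ γ ∈ L, x γ v = ψ (x γ) with hSol
  have ap : ∀ {γ a : I}, γ ≤ a → ∀ v, x γ (M.prj (Set.Iic a) v) = x γ v := fun h v =>
    M.apply_prj Set.ordConnected_Iic (fun α hα => hx.tri _ _ (h.trans_lt (not_le.1 hα))) v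
  have glue : ∀ L : Set I, IsLowerSet L → (∀ a ∈ L, ∃ v, Sol (Set.Iic a) v) → ∃ w, Sol L w := by
    intro L hL h
    choose! v hv using h
    obtain ⟨w, hw1, hw2⟩ := M.bdd_complete hL v
      (fun a ha => hx.norm_le (isLowerSet_Iic a) ψ (hv a ha).1 (hv a ha).2) (fun a ha b hb hab => by
        have h1 := hx.norm_le (isLowerSet_Iic a) 0 (v := M.prj (Set.Iic a) (v b) - v a)
          (by rw [map_sub, (hv a ha).1, M.prj_prj Set.ordConnected_Iic Set.ordConnected_Iic,
            Set.inter_self])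
          (fun γ hγ => by
            rw [map_sub, ap hγ, (hv a ha).2 γ hγ, (hv b hb).2 γ (hγ.trans hab), sub_self, zero_apply])
        rw [ContinuousLinearMap.opNorm_zero, mul_zero, norm_le_zero_iff] at h1
        exact sub_eq_zero.1 h1)
    exact ⟨w, hw1, fun γ hγ => by rw [← ap le_rfl, hw2 γ hγ, (hv γ hγ).2 γ Set.self_mem_Iic]⟩
  have step : ∀ b, ∃ v, Sol (Set.Iic b) v := by
    intro b
    induction b using WellFoundedLT.induction with
    | ind b ih =>
      obtain ⟨w, hw1, hw2⟩ := glue _ (isLowerSet_Iio b) ih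
      refine ⟨w + (ψ (x b) - x b w) • M.ι (Finsupp.single b 1), ?_, fun γ hγ => ?_⟩
      · rw [map_add, map_smul, M.prj_ι _ Set.ordConnected_Iic, res_eq_self (E := Set.Iic b) fun α hα =>
          (Finset.mem_singleton.1 (Finsupp.support_single_subset hα)).le]
        congr 1
        rw [← hw1, M.prj_prj Set.ordConnected_Iic Set.ordConnected_Iio,
          Set.inter_eq_right.2 Set.Iio_subset_Iic_self]
      · rw [map_add, map_smul]
        rcases eq_or_lt_of_le (Set.mem_Iic.1 hγ) with rfl | h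
        · rw [hx.diag, smul_eq_mul, mul_one, add_sub_cancel]
        · rw [hx.tri _ _ h, smul_zero, add_zero, hw2 γ h]
  obtain ⟨v, hv1, hv2⟩ := glue _ isLowerSet_univ fun a _ => step a
  exact ⟨v, hx.norm_le isLowerSet_univ ψ hv1 hv2, fun γ => hv2 γ trivial⟩

end Crest.Agent.R114
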