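import Crest.Agent.R114.Dual
import Crest.Agent.R114.Block

/-! Row 114: the closed span of the atoms has no separable infinite-dimensional quotient. -/

set_option autoImplicit false

open Finset

namespace Crest.Agent.R114

/-- The closed span of a family in a Banach space, as an abstract Banach space. -/
theorem exists_span {𝕜 : Type} [RCLike 𝕜] {W : Type} [NormedAddCommGroup W] [NormedSpace 𝕜 W]
    [CompleteSpace W] {κ : Type} (x : κ → W) :
    ∃ (X : Type) (_ : NormedAddCommGroup X) (_ : NormedSpace 𝕜 X) (_ : CompleteSpace X)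
      (e : X →ₗᵢ[𝕜] W) (ξ : κ → X), (∀ β, e (ξ β) = x β) ∧
      Dense (Submodule.span 𝕜 (Set.range ξ) : Set X) := by
  let p : Submodule 𝕜 W := (Submodule.span 𝕜 (Set.range x)).topologicalClosure
  have hp : IsClosed (p : Set W) := Submodule.isClosed_topologicalClosure _
  have hx : ∀ β, x β ∈ p := fun β =>
    Submodule.le_topologicalClosure _ (Submodule.subset_span ⟨β, rfl⟩)
  refine ⟨p, inferInstance, inferInstance, hp.completeSpace_coe, p.subtypeₗᵢ,
    fun β => ⟨x β, hx β⟩, fun _ => rfl, ?_⟩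
  have e : Subtype.val '' (Submodule.span 𝕜 (Set.range fun β => (⟨x β, hx β⟩ : p)) : Set p) =
      (Submodule.span 𝕜 (Set.range x) : Set W) := by
    have h1 := Submodule.map_span p.subtype (Set.range fun β => (⟨x β, hx β⟩ : p))
    rw [← Set.range_comp] at h1
    exact congrArg (fun q : Submodule 𝕜 W => (q : Set W)) h1
  refine Subtype.dense_iff.2 ?_
  exact fun w hw => closure_mono e.ge hw

variable {I : Type} [LinearOrder I] {𝕜 : Type} [RCLike 𝕜] {P : Par} {C : Cod I 𝕜}
variable {Z : Type} [NormedAddCommGroup Z] [NormedSpace 𝕜 Z] {M : Cpl P C Z}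
variable {X : Type} [NormedAddCommGroup X] [NormedSpace 𝕜 X]

/-- The atoms are linearly independent: evaluate a vanishing combination at `e_β`, `β` the largest
index with nonzero coefficient (`hx.tri`, `hx.diag`). -/
theorem Atoms.not_finiteDimensional [Infinite I] {task : I → ℕ → I →₀ 𝕜} {x : I → StrongDual 𝕜 Z}
    (hx : Atoms M task x) (e : X →ₗᵢ[𝕜] StrongDual 𝕜 Z) (ξ : I → X) (hξ : ∀ β, e (ξ β) = x β) :
    ¬ FiniteDimensional 𝕜 X := by
  classical
  have h1 : LinearIndependent 𝕜 x := by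
    rw [linearIndependent_iff']
    intro s g hg
    by_contra hcon
    push Not at hcon
    obtain ⟨i, hi, hgi⟩ := hcon
    have hne : (s.filter fun i => g i ≠ 0).Nonempty := ⟨i, mem_filter.2 ⟨hi, hgi⟩⟩
    have hβ := mem_filter.1 (max'_mem _ hne)
    set β := (s.filter fun i => g i ≠ 0).max' hne with hβdef
    have h2 := congrArg (fun t : StrongDual 𝕜 Z => t (M.ι (Finsupp.single β 1))) hg
    simp only [_root_.sum_apply, _root_.smul_apply, smul_eq_mul,
      _root_.zero_apply] at h2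
    rw [sum_eq_single β, hx.diag, mul_one] at h2
    · exact hβ.2 h2
    · intro j hj hjβ
      by_cases hgj : g j = 0
      · rw [hgj, zero_mul]
      · have : j ≤ β := le_max' _ j (mem_filter.2 ⟨hj, hgj⟩)
        rw [hx.tri j β (lt_of_le_of_ne this hjβ), mul_zero]
    · intro h
      exact absurd hβ.1 h
  have h3 : LinearIndependent 𝕜 ξ := by
    apply LinearIndependent.of_comp e.toLinearMap
    have : e.toLinearMap ∘ ξ = x := funext hξ
    rwa [this]
  intro hfin
  exact Module.Finite.not_linearIndependent_of_infinite ξ h3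

/-- Every functional on `X` is given by a vector of `Z`: extend `g` from the range of `e` by
Hahn–Banach (`exists_extension_norm_eq`) to `ψ`, use `Atoms.dual` and density. -/
theorem Atoms.dual' [WellFoundedLT I] [CompleteSpace Z] {task : I → ℕ → I →₀ 𝕜}
    {x : I → StrongDual 𝕜 Z} (hx : Atoms M task x) (e : X →ₗᵢ[𝕜] StrongDual 𝕜 Z) (ξ : I → X)
    (hξ : ∀ β, e (ξ β) = x β) (hd : Dense (Submodule.span 𝕜 (Set.range ξ) : Set X))
    (g : StrongDual 𝕜 X) : ∃ v : Z, ∀ y, e y v = g y := by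
  obtain ⟨ψ, hψ, -⟩ := exists_extension_norm_eq (LinearMap.range e.toLinearMap)
    (g.comp e.equivRange.symm.toLinearIsometry.toContinuousLinearMap)
  have hψ' : ∀ y, ψ (e y) = g y := by
    intro y
    have := hψ (e.equivRange y)
    simpa using this
  obtain ⟨v, -, hv⟩ := hx.dual ψ
  refine ⟨v, fun y => ?_⟩
  have h1 : (ContinuousLinearMap.apply 𝕜 𝕜 v).comp e.toContinuousLinearMap = g := by
    refine ContinuousLinearMap.ext_on hd ?_
    rintro _ ⟨β, rfl⟩
    have h2 := hψ' (ξ β)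
    rw [hξ] at h2
    rw [← h2, ← hv, ← hξ]
    rfl
  rw [← h1]
  rfl

/-- The annihilator `F` of `N` in `Z` is infinite-dimensional.  Plan: for `v ∈ F` the functional
`y ↦ e y v` descends to `X ⧸ N`; by `Atoms.dual'` every continuous functional on `X ⧸ N` arises in
this way.  So if `F` is finite-dimensional, the dual of the normed space `X ⧸ N` is
finite-dimensional, hence so is `X ⧸ N` (`NormedSpace.inclusionInDoubleDualLi`).  (Variant:
the linear map `X → (F →ₗ 𝕜)`, `y ↦ (v ↦ e y v)` has kernel `N` by Hahn–Banach and `Atoms.dual'`, so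
`X ⧸ N` embeds in the finite-dimensional `Module.Dual 𝕜 F`.) -/
theorem Atoms.annihilator [WellFoundedLT I] [CompleteSpace Z] {task : I → ℕ → I →₀ 𝕜}
    {x : I → StrongDual 𝕜 Z} (hx : Atoms M task x) (e : X →ₗᵢ[𝕜] StrongDual 𝕜 Z) (ξ : I → X)
    (hξ : ∀ β, e (ξ β) = x β) (hd : Dense (Submodule.span 𝕜 (Set.range ξ) : Set X))
    (N : Submodule 𝕜 X) (hN : IsClosed (N : Set X)) (hinf : ¬ FiniteDimensional 𝕜 (X ⧸ N)) :
    ∃ F : Submodule 𝕜 Z, ¬ FiniteDimensional 𝕜 F ∧ ∀ v ∈ F, ∀ y ∈ N, e y v = 0 := by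
  let F : Submodule 𝕜 Z := ⨅ y ∈ N, LinearMap.ker (e y : Z →ₗ[𝕜] 𝕜)
  have hF : ∀ v, v ∈ F ↔ ∀ y ∈ N, e y v = 0 := by
    intro v
    simp [F, Submodule.mem_iInf]
  refine ⟨F, fun hfin => hinf ?_, fun v hv => (hF v).1 hv⟩
  let Φ : X →ₗ[𝕜] Module.Dual 𝕜 F := LinearMap.mk₂ 𝕜 (fun y (v : F) => e y v.1)
    (fun y y' v => by simp) (fun c y v => by simp) (fun y v v' => by simp) (fun c y v => by simp)
  have h1 : N ≤ LinearMap.ker Φ := by
    intro y hy
    rw [LinearMap.mem_ker]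
    exact LinearMap.ext fun v => (hF v.1).1 v.2 y hy
  have h2 : LinearMap.ker Φ ≤ N := by
    intro y hy
    obtain ⟨g, -, hg⟩ := exists_dual_vector'' 𝕜 (N.mkQ y)
    obtain ⟨v, hv⟩ := hx.dual' e ξ hξ hd (g.comp N.mkQL)
    have hvF : v ∈ F := (hF v).2 fun y' hy' => by
      rw [hv]
      have : N.mkQL y' = 0 := (Submodule.Quotient.mk_eq_zero N).2 hy'
      rw [ContinuousLinearMap.comp_apply, this, map_zero]
    have h3 : e y v = 0 := LinearMap.congr_fun (LinearMap.mem_ker.1 hy) ⟨v, hvF⟩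
    rw [hv] at h3
    have h4 : ((‖N.mkQ y‖ : ℝ) : 𝕜) = 0 := by rw [← hg]; exact h3
    have h5 : ‖N.mkQ y‖ = 0 := by exact_mod_cast h4
    exact (Submodule.Quotient.mk_eq_zero N).1 (norm_eq_zero.1 h5)
  exact FiniteDimensional.of_injective (N.liftQ Φ h1)
    (LinearMap.ker_eq_bot.1 (Submodule.ker_liftQ_eq_bot _ _ _ h2))

/-- Plan.  Let `N` be closed in `X` with separable infinite-dimensional quotient, `F` from
`Atoms.annihilator`, `y n ∈ X` with dense classes in `X ⧸ N`; `z, S, B` from `Cpl.exists_block`.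
Choose `β` with `task β = z` outside the countable set `S ∪ L₀`, `L₀ = {α | ∃ i, ∃ γ ∈ supp (z i),
α ≤ γ}`.  `hx.task β` gives `t`, `u`.  For every `k` get `v ∈ F` for `u k`: `x β v = t v =
t (prj L₀ v)` (`Cpl.apply_prj`) is within `2 / 8` of `t (ι (u k))`, so `‖x β v‖ ≥ 1 / 4`.  Choose `n`
and `y' ∈ N` with `‖ξ β - y n - y'‖ * B < 1 / 4` and `k = n + 1`:
`x β v = e (ξ β - y n - y') v`, contradiction. -/
theorem Atoms.not_sq [WellFoundedLT I] [CompleteSpace Z] (hc : ∀ a : I, (Set.Iio a).Countable)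
    {task : I → ℕ → I →₀ 𝕜} (htask : ∀ z, ¬ {β | task β = z}.Countable)
    {x : I → StrongDual 𝕜 Z} (hx : Atoms M task x) (e : X →ₗᵢ[𝕜] StrongDual 𝕜 Z) (ξ : I → X)
    (hξ : ∀ β, e (ξ β) = x β) (hd : Dense (Submodule.span 𝕜 (Set.range ξ) : Set X)) :
    ¬ SQ 𝕜 X := by
  rintro ⟨N, hN, hsep, hinf⟩
  obtain ⟨F, hF, hFN⟩ := hx.annihilator e ξ hξ hd N hN hinf
  obtain ⟨q, hq⟩ := TopologicalSpace.exists_dense_seq (X ⧸ N)
  choose y hy using fun n => N.mkQ_surjective (q n)
  obtain ⟨z, S, B, hz, hS, hB⟩ := M.exists_block hF fun n => e (y n)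
  set L : Set I := {α | ∃ i, ∃ γ ∈ (z i).support, α ≤ γ} with hL
  have hLc : L.Countable := by
    have : L ⊆ ⋃ i, ⋃ γ ∈ ((z i).support : Set I), Set.Iic γ := by
      rintro α ⟨i, γ, h1, h2⟩
      exact Set.mem_iUnion.2 ⟨i, Set.mem_biUnion h1 h2⟩
    refine Set.Countable.mono this (Set.countable_iUnion fun i =>
      (Finset.countable_toSet _).biUnion fun γ _ => ?_)
    rw [← Set.Iio_insert]
    exact (hc γ).insert γ
  have hLl : IsLowerSet L := by
    rintro a b hab ⟨i, γ, h1, h2⟩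
    exact ⟨i, γ, h1, hab.trans h2⟩
  obtain ⟨β, hβ, hβ'⟩ : ∃ β, task β = z ∧ β ∉ S ∪ L := by
    by_contra hcon
    push Not at hcon
    exact htask z ((hS.union hLc).mono fun β hβ => hcon β hβ)
  have hout : ∀ α, α ∉ L → ∀ i, ∀ γ ∈ (z i).support, γ < α := fun α hα i γ hγ =>
    not_le.1 fun h => hα ⟨i, γ, hγ, h⟩
  obtain ⟨t, hxt, ht2, ht0, u, hu⟩ := hx.task β (hβ ▸ hz)
    (hβ ▸ hout β fun h => hβ' (Or.inr h))
  rw [hβ] at ht0 hu
  have hδ : 0 < 1 / (8 * (|B| + 1)) := by positivity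
  obtain ⟨n, hn⟩ := hq.exists_dist_lt (N.mkQ (ξ β)) hδ
  obtain ⟨m, hm1, hm2⟩ := Submodule.Quotient.norm_mk_lt (N.mkQ (ξ β) - q n) hδ
  rw [dist_eq_norm] at hn
  obtain ⟨hu1, hu2, hu3⟩ := hu (n + 1)
  obtain ⟨v, hvF, hvB, hvy, hvS, hvu⟩ := hB (n + 1) _ hu1 hu2
  have hN' : ξ β - y n - m ∈ N := by
    rw [← Submodule.Quotient.mk_eq_zero, Submodule.Quotient.mk_sub, Submodule.Quotient.mk_sub, hm1,
      ← hy n]
    exact sub_self _
  have h1 : x β v = e m v := by
    have h2 := hFN v hvF _ hN'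
    rw [map_sub, map_sub, _root_.sub_apply, _root_.sub_apply, hξ,
      hvy n (Nat.lt_succ_self n), sub_zero, sub_eq_zero] at h2
    exact h2
  have h2 : x β v = t (M.prj L v) := by
    rw [hxt, _root_.add_apply, hvS β fun h => hβ' (Or.inl h), zero_add,
      M.apply_prj hLl.ordConnected fun α hα => ht0 α (hout α hα)]
  have h3 : ‖t (M.prj L v) - t (M.ι (u (n + 1)))‖ ≤ 2 * (1 / 8) := by
    rw [← map_sub]
    exact (t.le_opNorm _).trans (mul_le_mul ht2 hvu (norm_nonneg _) (by norm_num))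
  have h4 : 1 / 4 ≤ ‖x β v‖ := by
    rw [h2]
    have := norm_sub_le (t (M.prj L v)) (t (M.prj L v) - t (M.ι (u (n + 1))))
    rw [sub_sub_cancel] at this
    linarith
  have h5 : ‖x β v‖ ≤ ‖m‖ * |B| := by
    rw [h1]
    refine ((e m).le_opNorm v).trans ?_
    rw [e.norm_map]
    exact mul_le_mul_of_nonneg_left (hvB.trans (le_abs_self B)) (norm_nonneg _)
  have h6 : ‖m‖ * (4 * (|B| + 1)) < 1 := by
    have h7 : ‖m‖ < 1 / (4 * (|B| + 1)) := by
      have : 1 / (4 * (|B| + 1)) = 1 / (8 * (|B| + 1)) + 1 / (8 * (|B| + 1)) := by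
        field_simp
        norm_num
      linarith
    rwa [lt_div_iff₀ (by positivity)] at h7
  nlinarith [norm_nonneg m]

/-- Under CH: the index set and the enumeration of the tasks.  Plan: `I = (Ordinal.omega 1).ToType`
(or `(Cardinal.aleph 1).ord.ToType`); initial segments are countable; `#I = ℵ₁ = 𝔠`,
`#𝕜 ≤ 𝔠`, `#(I →₀ 𝕜) ≤ 𝔠`, `#(ℕ → I →₀ 𝕜) ≤ 𝔠 ^ ℵ₀ = 𝔠`; take a surjection from `I` onto
`(ℕ → I →₀ 𝕜) × I`; the fibres of its first coordinate surject onto `I`. -/
theorem exists_index (𝕜 : Type) [RCLike 𝕜] (hCH : Cardinal.mk ℝ = Cardinal.aleph 1) :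
    ∃ (I : Type) (_ : LinearOrder I) (_ : WellFoundedLT I) (_ : Infinite I),
      (∀ a : I, (Set.Iio a).Countable) ∧
      ∃ task : I → ℕ → I →₀ 𝕜, ∀ z, ¬ {β | task β = z}.Countable := by
  let I : Type := (Cardinal.aleph 1).ord.ToType
  have hI : Cardinal.mk I = Cardinal.aleph 1 := Cardinal.mk_ord_toType _
  have hc : Cardinal.aleph 1 = Cardinal.continuum := by rw [← hCH, Cardinal.mk_real]
  have hunc : ¬ Countable I := by
    rw [← Cardinal.mk_le_aleph0_iff, hI, not_le]
    exact Cardinal.aleph0_lt_aleph_one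
  have hinf : Infinite I := by
    rw [← not_finite_iff_infinite]
    intro h
    exact hunc inferInstance
  have hk : Cardinal.mk 𝕜 ≤ Cardinal.continuum := by
    have h1 : Function.Injective fun z : 𝕜 => (RCLike.re z, RCLike.im z) := by
      intro z w h
      exact RCLike.ext (congrArg Prod.fst h) (congrArg Prod.snd h)
    have := Cardinal.mk_le_of_injective h1
    simpa [Cardinal.mk_real] using this
  have h1 : Cardinal.mk (I →₀ 𝕜) ≤ Cardinal.continuum := by
    rw [Cardinal.mk_finsupp_of_infinite, hI, hc]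
    exact max_le le_rfl hk
  have h2 : Cardinal.mk (ℕ → I →₀ 𝕜) ≤ Cardinal.continuum := by
    rw [← Cardinal.power_def, Cardinal.mk_nat, ← Cardinal.continuum_power_aleph0]
    exact Cardinal.power_le_power_right h1
  have h3 : Cardinal.mk ((ℕ → I →₀ 𝕜) × I) ≤ Cardinal.mk I := by
    rw [Cardinal.mk_prod, Cardinal.lift_id, Cardinal.lift_id, hI, hc,
      ← Cardinal.continuum_mul_self]
    exact mul_le_mul' h2 (by rw [Cardinal.continuum_mul_self])
  obtain ⟨j⟩ := (Cardinal.le_def _ _).1 h3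
  refine ⟨I, inferInstance, inferInstance, hinf, fun a => ?_,
    fun β => (Function.invFun j β).1, fun z hz => hunc ?_⟩
  · rw [← Cardinal.le_aleph0_iff_set_countable, ← Cardinal.lt_aleph_one_iff]
    exact (Cardinal.mk_Iio_lt a (by simp [I])).trans_eq hI
  · have h4 : Function.Injective fun a : I => j (z, a) := fun a b h =>
      congrArg Prod.snd (j.injective h)
    rw [← Set.countable_univ_iff]
    refine (hz.preimage_of_injOn h4.injOn).mono fun a _ => ?_
    show (Function.invFun j (j (z, a))).1 = z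
    rw [Function.leftInverse_invFun j.injective]

end Crest.Agent.R114
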