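import Mathlib

/-! Row 114 (S0153): free sequences from a total measure with a Fubini property. -/

set_option autoImplicit false

open Finset MeasureTheory

namespace Crest.Agent.R114

/-- Iterated almost-everywhere quantifier over the coordinates `k, …, k + n - 1`. -/
def freeAE {Ω : Type} [MeasurableSpace Ω] (μ : Measure Ω) :
    ℕ → ℕ → (ℕ → Ω) → ((ℕ → Ω) → Prop) → Prop
  | 0, _, f, Q => Q f
  | n + 1, k, f, Q => ∀ᵐ ω ∂μ, freeAE μ n (k + 1) (Function.update f k ω) Q

/-- A wrapper carrying the discrete `σ`-algebra. -/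
structure FreeW (Ω : Type) where
  /-- the sequence -/
  val : ℕ → Ω

instance {Ω : Type} : MeasurableSpace (FreeW Ω) := ⊤
instance {Ω : Type} : DiscreteMeasurableSpace (FreeW Ω) := ⟨fun _ => trivial⟩

lemma free_measure {Ω : Type} [MeasurableSpace Ω] [DiscreteMeasurableSpace Ω] (μ : Measure Ω)
    [IsProbabilityMeasure μ] (n : ℕ) : ∀ (k : ℕ) (f : ℕ → Ω), ∃ ν : Measure (FreeW Ω),
      IsProbabilityMeasure ν ∧ ∀ Q, (∀ᵐ g ∂ν, Q g.val) → freeAE μ n k f Q := by
  induction n with
  | zero =>
    intro k f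
    refine ⟨Measure.dirac ⟨f⟩, inferInstance, fun Q h => ?_⟩
    exact (ae_dirac_iff (p := fun g : FreeW Ω => Q g.val) MeasurableSet.of_discrete).mp h
  | succ n ih =>
    intro k f
    choose ν hν hQ using fun ω => ih (k + 1) (Function.update f k ω)
    have hm : Measurable ν := Measurable.of_discrete
    refine ⟨μ.bind ν, ⟨?_⟩, fun Q h => ?_⟩
    · rw [Measure.bind_apply MeasurableSet.univ hm.aemeasurable]
      simp
    · filter_upwards [Measure.ae_ae_of_ae_bind hm.aemeasurable h] with ω hω using hQ ω Q hω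

lemma free_comm {Ω : Type} [MeasurableSpace Ω] (μ : Measure Ω) (i : ℕ) (ω : Ω) (n : ℕ) :
    ∀ (k : ℕ) (f : ℕ → Ω) (Q : (ℕ → Ω) → Prop), i < k →
      freeAE μ n k f (fun g => Q (Function.update g i ω)) →
      freeAE μ n k (Function.update f i ω) Q := by
  induction n with
  | zero => exact fun k f Q _ h => h
  | succ n ih =>
    intro k f Q hk h
    filter_upwards [h] with ω' hω'
    rw [Function.update_comm hk.ne]
    exact ih (k + 1) _ Q (by omega) hω'

lemma free_back {Ω : Type} [MeasurableSpace Ω] (μ : Measure Ω) (Q : (ℕ → Ω) → Prop) (n l : ℕ) :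
    ∀ k, (∀ f, freeAE μ n (k + l) f Q) → ∀ f, freeAE μ (n + l) k f Q := by
  induction l with
  | zero => exact fun k h => h
  | succ l ih =>
    intro k h f
    exact Filter.Eventually.of_forall fun ω =>
      ih (k + 1) (fun f => by rw [show k + 1 + l = k + (l + 1) by omega]; exact h f) _

lemma free_seq {Ω : Type} [MeasurableSpace Ω] (μ : Measure Ω) [IsProbabilityMeasure μ]
    {B : Type} [Countable B] (Q : B → (ℕ → Ω) → Prop) (len : B → ℕ)
    (hQ : ∀ b f f', (∀ i, i < len b → f i = f' i) → Q b f → Q b f')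
    (h : ∀ b f, freeAE μ (len b) 0 f (Q b)) : ∃ ω : ℕ → Ω, ∀ b, Q b ω := by
  have hne : Nonempty Ω := nonempty_of_isProbabilityMeasure μ
  obtain ⟨ω₀⟩ := id hne
  have step : ∀ k (f : ℕ → Ω), (∀ b n, len b = k + n → freeAE μ n k f (Q b)) →
      ∃ ω, ∀ b n, len b = k + 1 + n → freeAE μ n (k + 1) (Function.update f k ω) (Q b) := by
    intro k f hf
    have : ∀ᵐ ω ∂μ, ∀ b n, len b = k + 1 + n →
        freeAE μ n (k + 1) (Function.update f k ω) (Q b) := by
      refine ae_all_iff.mpr fun b => ae_all_iff.mpr fun n => ?_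
      by_cases e : len b = k + 1 + n
      · filter_upwards [hf b (n + 1) (by omega)] with ω hω _ using hω
      · exact Filter.Eventually.of_forall fun ω h' => absurd h' e
    exact this.exists
  choose! g hg using step
  let F : ℕ → ℕ → Ω := fun k => Nat.rec (fun _ => ω₀) (fun k f => Function.update f k (g k f)) k
  have hF : ∀ k b n, len b = k + n → freeAE μ n k (F k) (Q b) := by
    intro k
    induction k with
    | zero => intro b n e; simpa [e] using h b (F 0)
    | succ k ih => exact hg k (F k) ih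
  have hst : ∀ k i, i < k → F k i = g i (F i) := by
    intro k
    induction k with
    | zero => intro i hi; omega
    | succ k ih =>
      intro i hi
      change Function.update (F k) k (g k (F k)) i = _
      rcases Nat.lt_succ_iff_lt_or_eq.mp hi with h' | rfl
      · rw [Function.update_of_ne h'.ne, ih i h']
      · rw [Function.update_self]
  exact ⟨fun i => g i (F i), fun b => hQ b _ _ (hst _) (hF (len b) b 0 rfl)⟩

/-- Plan.  For `f : ℕ → Ω` and a predicate `Q` on `ℕ → Ω` define `AE 0 k f Q = Q f`,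
`AE (n+1) k f Q = ∀ᵐ ω ∂μ, AE n (k+1) (Function.update f k ω) Q`.
(1) There is a probability measure `ν n k f` on a wrapper `W` of `ℕ → Ω` with the `σ`-algebra `⊤`
with `AE n k f Q ↔ ∀ᵐ g ∂ν n k f, Q g` (`Measure.dirac`, `Measure.bind`; everything is measurable).
(2) For `i < k`: `AE n k (update f i ω) Q ↔ AE n k f (fun g => Q (update g i ω))`
(`Function.update_comm`).
(3) For `i ∉ s a` and `Q g := x a g ∈ Y (g i)`: `AE (n+1) i f Q` for all `n, f` by (1), (2), `hx`
and `hswap`; hence `AE (l+n+1) (i-l) f Q`, in particular `AE (i+n+1) 0 f Q`, for all `f`.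
(4) Fix for each of the countably many pairs `(a, i)` a length `len > max (s a ∪ {i})`; build
`f (k+1) = update (f k) k (ω k)` keeping `AE (len - k) k (f k) Q` for all pairs with `k ≤ len`
(`ae_all_iff`, `Filter.Eventually.exists`).  `f len` agrees with `ω` below `len`. -/
theorem exists_free {Ω : Type} [MeasurableSpace Ω] [DiscreteMeasurableSpace Ω] (μ : Measure Ω)
    [IsProbabilityMeasure μ] {X : Type*} (Y : Ω → Set X)
    (hswap : ∀ (Γ : Type) [MeasurableSpace Γ] [DiscreteMeasurableSpace Γ] (ν : Measure Γ)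
      [IsProbabilityMeasure ν] (x : Γ → X), ∀ᵐ ω ∂μ, ∀ᵐ γ ∂ν, x γ ∈ Y ω)
    {A : Type} [Countable A] (s : A → Finset ℕ) (x : A → (ℕ → Ω) → X)
    (hx : ∀ a f f', (∀ i ∈ s a, f i = f' i) → x a f = x a f') :
    ∃ ω : ℕ → Ω, ∀ a i, i ∉ s a → x a ω ∈ Y (ω i) := by
  refine (free_seq μ (B := {p : A × ℕ // p.2 ∉ s p.1})
    (fun p g => x p.1.1 g ∈ Y (g p.1.2)) (fun p => (s p.1.1).sup id + 1 + p.1.2) ?_ ?_).imp
    fun ω hω a i hi => hω ⟨(a, i), hi⟩
  · rintro ⟨⟨a, i⟩, hi⟩ f f' h hq
    dsimp only at h hq ⊢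
    rw [← h i (by omega), ← hx a f f' fun l hl => h l (by
      have := le_sup (f := id) hl; simp only [id] at this; omega)]
    exact hq
  · rintro ⟨⟨a, i⟩, hi⟩
    refine free_back μ _ _ i 0 fun f => ?_
    rw [zero_add]
    obtain ⟨ν, hν, hQ⟩ := free_measure μ ((s a).sup id) (i + 1) f
    filter_upwards [hswap (FreeW Ω) ν fun g => x a g.val] with ω hω
    refine free_comm μ i ω _ _ f _ (by omega) (hQ _ ?_)
    filter_upwards [hω] with g hg
    rw [Function.update_self, hx a _ g.val fun l hl =>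
      Function.update_of_ne (by rintro rfl; exact hi hl) _ _]
    exact hg

end Crest.Agent.R114
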