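import Crest.Agent.R114.Defs

/-! Row 114: basic properties of the norming set `K` and of the norm. -/

set_option autoImplicit false

open Finset

namespace Crest.Agent.R114

variable {I : Type} [LinearOrder I] {𝕜 : Type} [RCLike 𝕜] {P : Par} {C : Cod I 𝕜}

theorem k_sum_apply {κ : Type} [LinearOrder κ] {s : Finset κ} {w : κ → I →₀ 𝕜}
    (hs : ∀ i ∈ s, ∀ i' ∈ s, i < i' → Lt (w i) (w i')) {i : κ} (hi : i ∈ s) {α : I}
    (hα : α ∈ (w i).support) : (∑ k ∈ s, w k) α = w i α := by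
  rw [Finsupp.finsetSum_apply]
  refine sum_eq_single_of_mem i hi fun k hk hki => ?_
  by_contra h
  have h' := Finsupp.mem_support_iff.2 h
  rcases lt_or_gt_of_ne hki with h1 | h1
  · exact lt_irrefl _ (hs k hk i hi h1 α h' α hα)
  · exact lt_irrefl _ (hs i hi k hk h1 α hα α h')

theorem k_ok_injOn {S : Seg I 𝕜} (h : S.OK C) : Set.InjOn S.j S.A := by
  intro k hk l hl e
  by_contra hkl
  rcases lt_or_gt_of_ne hkl with h1 | h1
  · exact (h.1 k l h1 (h.2.2.1 l hl)).1.ne e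
  · exact (h.1 l k h1 (h.2.2.1 k hk)).1.ne e.symm

theorem k_injOn {κ : Type*} {s : Finset κ} {S : κ → Seg I 𝕜} (hS : ∀ t ∈ s, (S t).OK C)
    (hdis : ∀ t ∈ s, ∀ t' ∈ s, t ≠ t' → ∀ k ∈ (S t).A, ∀ k' ∈ (S t').A,
      (S t).j k ≠ (S t').j k') :
    Set.InjOn (fun x : Σ _ : κ, ℕ => (S x.1).j x.2) (s.sigma fun t => (S t).A) := by
  rintro ⟨t, k⟩ h ⟨t', k'⟩ h' e
  obtain ⟨h1, h2⟩ := mem_sigma.1 (mem_coe.1 h)
  obtain ⟨h1', h2'⟩ := mem_sigma.1 (mem_coe.1 h')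
  by_cases ht : t = t'
  · subst ht
    have : k = k' := k_ok_injOn (hS t h1) h2 h2' e
    rw [this]
  · exact absurd e (hdis t h1 t' h1' ht k h2 k' h2')

/-- Induction on `Fn`.  `avg`: `α` is in the support of at most one `w i`.  `comb`: in each segment
at most one position `k ∈ A` has `α` in the support of `φ k`, and the corresponding indices are
distinct, so the sum is at most `∑ 1 / m l ≤ 2 / m 0 ≤ 1` (`Par.sum_inv_le'`). -/
theorem Fn.bound {o : Option ℕ} {w : I →₀ 𝕜} (h : Fn P C o w) (α : I) :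
    ‖w α‖ ≤ o.elim 1 fun j => (P.m j)⁻¹ := by
  induction h with
  | basic β c hc =>
    classical
    rw [Finsupp.single_apply]
    split_ifs
    · exact hc
    · simp
  | ofW j φ _ ih =>
    refine ih.trans ?_
    exact inv_le_one_of_one_le₀ (by linarith [P.four_le j])
  | avg j d w _ hs _ ih =>
    have h1 : ‖(∑ i, w i) α‖ ≤ 1 := by
      by_cases h : ∃ i, α ∈ (w i).support
      · obtain ⟨i, hi⟩ := h
        rw [k_sum_apply (fun i _ i' _ => hs i i') (mem_univ i) hi]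
        exact ih i
      · push Not at h
        rw [Finsupp.finsetSum_apply, sum_eq_zero fun i _ => Finsupp.notMem_support_iff.1 (h i)]
        simp
    rw [Finsupp.smul_apply, norm_smul, Real.norm_eq_abs, abs_of_pos (inv_pos.2 (P.m_pos j))]
    exact mul_le_of_le_one_right (inv_pos.2 (P.m_pos j)).le h1
  | comb ι S c hc hS _ hdis _ ih =>
    have h1 := P.sum_inv_le' 0 _ _
      (k_injOn (s := univ) (fun t _ => hS t) fun t _ t' _ => hdis t t') fun _ _ => Nat.zero_le _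
    have h2 : 2 / P.m 0 ≤ 1 := by
      rw [div_le_one (P.m_pos 0)]; linarith [P.four_le 0]
    refine le_trans ?_ (h1.trans h2)
    rw [Finsupp.finsetSum_apply, sum_sigma]
    refine norm_sum_le_of_le _ fun t _ => ?_
    rw [Finsupp.smul_apply, norm_smul]
    refine (mul_le_of_le_one_left (norm_nonneg _) (hc t)).trans ?_
    rw [Seg.val, res_apply]
    split_ifs
    · rw [Finsupp.finsetSum_apply]
      exact norm_sum_le_of_le _ fun k hk => ih t k hk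
    · rw [norm_zero]
      exact sum_nonneg fun k _ => (inv_pos.2 (P.m_pos _)).le

theorem Fn.bound_none {w : I →₀ 𝕜} (h : Fn P C none w) (α : I) : ‖w α‖ ≤ 1 := h.bound α

theorem Fn.bound_some {j : ℕ} {w : I →₀ 𝕜} (h : Fn P C (some j) w) (α : I) :
    ‖w α‖ ≤ (P.m j)⁻¹ := h.bound α

/-- Induction; in `comb` replace `(S t).E` by `E ∩ (S t).E`. -/
theorem Fn.res {o : Option ℕ} {w : I →₀ 𝕜} (h : Fn P C o w) {E : Set I} (hE : E.OrdConnected) :
    Fn P C o (res E w) := by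
  induction h with
  | basic β c hc =>
    by_cases hβ : β ∈ E
    · rw [res_eq_self fun α hα => by
        rw [mem_singleton.1 (Finsupp.support_single_subset hα)]; exact hβ]
      exact .basic β c hc
    · rw [res_eq_zero fun α hα => by
        rw [mem_singleton.1 (Finsupp.support_single_subset hα)]; exact hβ,
        ← Finsupp.single_zero β]
      exact .basic β 0 (by simp)
  | ofW j φ _ ih => exact .ofW j _ ih
  | avg j d w hd hs _ ih =>
    rw [real_smul_eq, res_smul, ← real_smul_eq, res_sum]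
    exact .avg j d _ hd
      (fun i i' h => (hs i i' h).mono (support_res_subset _ _) (support_res_subset _ _)) ih
  | comb ι S c hc hS hd hdis h _ =>
    have := Fn.comb ι (fun t => ({ S t with E := E ∩ (S t).E } : Seg I 𝕜)) c hc
      (fun t => ⟨(hS t).1, (hS t).2.1, (hS t).2.2.1, (hS t).2.2.2.1, hE.inter (hS t).2.2.2.2⟩)
      hd hdis h
    rw [res_sum]
    simpa only [Seg.val, res_smul, res_res] using this

theorem Fn.smul {o : Option ℕ} {w : I →₀ 𝕜} (h : Fn P C o w) {c : 𝕜} (hc : ‖c‖ ≤ 1) :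
    Fn P C o (c • w) := by
  induction h with
  | basic β a ha =>
    rw [Finsupp.smul_single]
    exact .basic β _ (by rw [norm_smul]; exact mul_le_one₀ hc (norm_nonneg _) ha)
  | ofW j φ _ ih => exact .ofW j _ ih
  | avg j d w hd hs _ ih =>
    rw [smul_comm, smul_sum]
    exact .avg j d _ hd (fun i i' h => (hs i i' h).smul c c) ih
  | comb ι S a ha hS hd hdis h _ =>
    have := Fn.comb ι S (fun t => c * a t)
      (fun t => by rw [norm_mul]; exact mul_le_one₀ hc (norm_nonneg _) (ha t)) hS hd hdis h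
    rw [smul_sum]
    simpa only [mul_smul] using this

theorem Fn.zero (o : Option ℕ) : Fn P C o (0 : I →₀ 𝕜) := by
  have h : ∀ j, Fn P C (some j) (0 : I →₀ 𝕜) := fun j => by
    simpa using Fn.avg (P := P) (C := C) j 0 (fun _ => 0) (Nat.zero_le _) (fun i => i.elim0)
      fun i => i.elim0
  cases o with
  | none => exact .ofW 0 _ (h 0)
  | some j => exact h j

/-- `Fn.avg` for a family indexed by a finite subset of a linear order (`Finset.orderEmbOfFin`). -/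
theorem Fn.avg' {κ : Type} [LinearOrder κ] (j : ℕ) (s : Finset κ) (w : κ → I →₀ 𝕜)
    (hd : s.card ≤ P.n j) (hs : ∀ i ∈ s, ∀ i' ∈ s, i < i' → Lt (w i) (w i'))
    (h : ∀ i ∈ s, Fn P C none (w i)) : Fn P C (some j) (((P.m j)⁻¹ : ℝ) • ∑ i ∈ s, w i) := by
  have := Fn.avg (P := P) (C := C) j s.card (fun i => w (s.orderIsoOfFin rfl i)) hd
    (fun i i' hi => hs _ (Subtype.coe_prop _) _ (Subtype.coe_prop _)
      (Subtype.coe_lt_coe.2 ((s.orderIsoOfFin rfl).lt_iff_lt.2 hi)))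
    fun i => h _ (Subtype.coe_prop _)
  rw [← sum_coe_sort s w, ← (s.orderIsoOfFin rfl).toEquiv.sum_comp fun x : s => w x]
  exact this

/-- Inversion for weighted functionals. -/
theorem Fn.some_inv {j : ℕ} {φ : I →₀ 𝕜} (h : Fn P C (some j) φ) :
    ∃ (d : ℕ) (w : Fin d → I →₀ 𝕜), d ≤ P.n j ∧ (∀ i i', i < i' → Lt (w i) (w i')) ∧
      (∀ i, Fn P C none (w i)) ∧ φ = ((P.m j)⁻¹ : ℝ) • ∑ i, w i := by
  cases h with
  | avg _ d w hd hs h => exact ⟨d, w, hd, hs, h, rfl⟩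

/-- Inversion for `K`. -/
theorem Fn.none_inv {w : I →₀ 𝕜} (h : Fn P C none w) :
    (∃ α c, ‖c‖ ≤ 1 ∧ w = Finsupp.single α c) ∨ (∃ j, Fn P C (some j) w) ∨
    ∃ (ι : Type) (_ : Fintype ι) (S : ι → Seg I 𝕜) (c : ι → 𝕜), (∀ t, ‖c t‖ ≤ 1) ∧
      (∀ t, SegIn P C (S t)) ∧ (∀ t, ∀ k ∈ (S t).A, Fintype.card ι ≤ (S t).j k) ∧
      (∀ t t', t ≠ t' → ∀ k ∈ (S t).A, ∀ k' ∈ (S t').A, (S t).j k ≠ (S t').j k') ∧
      w = ∑ t, c t • (S t).val := by
  cases h with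
  | basic α c hc => exact Or.inl ⟨α, c, hc, rfl⟩
  | ofW j _ h => exact Or.inr (Or.inl ⟨j, h⟩)
  | comb ι S c hc hS hd hdis h =>
    exact Or.inr (Or.inr ⟨ι, _, S, c, hc, fun t => ⟨hS t, h t⟩, hd, hdis, rfl⟩)

/-- `Fn.comb` for a family indexed by a finite set. -/
theorem Fn.comb' {κ : Type} (s : Finset κ) (S : κ → Seg I 𝕜) (c : κ → 𝕜)
    (hc : ∀ t ∈ s, ‖c t‖ ≤ 1) (hS : ∀ t ∈ s, SegIn P C (S t))
    (hd : ∀ t ∈ s, ∀ k ∈ (S t).A, s.card ≤ (S t).j k)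
    (hdis : ∀ t ∈ s, ∀ t' ∈ s, t ≠ t' → ∀ k ∈ (S t).A, ∀ k' ∈ (S t').A, (S t).j k ≠ (S t').j k') :
    Fn P C none (∑ t ∈ s, c t • (S t).val) := by
  have := Fn.comb (P := P) (C := C) s (fun t => S t) (fun t => c t) (fun t => hc t t.2)
    (fun t => (hS t t.2).1) (fun t => by rw [Fintype.card_coe]; exact hd t t.2)
    (fun t t' h => hdis t t.2 t' t'.2 fun e => h (Subtype.ext e)) fun t => (hS t t.2).2
  rwa [sum_coe_sort s fun t => c t • (S t).val] at this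

theorem SegIn.odd {S : Seg I 𝕜} (h : SegIn P C S) {k : ℕ} (hk : k ∈ S.A) : Odd (S.j k) := by
  exact (h.1.2.1 k (h.1.2.2.1 k hk)).1

theorem SegIn.injOn {S : Seg I 𝕜} (h : SegIn P C S) : Set.InjOn S.j S.A := by
  exact k_ok_injOn h.1

/-- `comb` with one segment: indices are odd, hence `≥ 1`. -/
theorem SegIn.fn {S : Seg I 𝕜} (h : SegIn P C S) : Fn P C none S.val := by
  simpa using Fn.comb' ({()} : Finset Unit) (fun _ => S) (fun _ => 1) (by simp) (fun _ _ => h)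
    (fun _ _ k hk => (h.odd hk).pos) fun _ _ _ _ h => absurd rfl h

theorem SegIn.win {S : Seg I 𝕜} (h : SegIn P C S) {D : Set ℕ} (hD : D.OrdConnected) :
    SegIn P C (S.win D) := by
  classical
  have hm : ∀ k, k ∈ (S.win D).A ↔ k ∈ S.A ∧ S.j k ∈ D := fun k => by simp [Seg.win]
  have hj : ∀ k l, k ≤ l → l < S.len → S.j k ≤ S.j l := fun k l hkl hl => by
    rcases hkl.eq_or_lt with rfl | h1
    · exact le_rfl
    · exact (h.1.1 k l h1 hl).1.le
  refine ⟨⟨h.1.1, h.1.2.1, fun k hk => h.1.2.2.1 k ((hm k).1 hk).1, ?_, h.1.2.2.2.2⟩,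
    fun k hk => h.2 k ((hm k).1 hk).1⟩
  intro k₁ h₁ k₂ h₂ k a b
  rw [hm] at h₁ h₂ ⊢
  have hk := h.1.2.2.2.1 k₁ h₁.1 k₂ h₂.1 k a b
  exact ⟨hk, hD.out h₁.2 h₂.2 ⟨hj _ _ a (h.1.2.2.1 k hk), hj _ _ b (h.1.2.2.1 k₂ h₂.1)⟩⟩

omit [LinearOrder I] in
theorem Seg.mem_win {S : Seg I 𝕜} {D : Set ℕ} {k : ℕ} : k ∈ (S.win D).A ↔ k ∈ S.A ∧ S.j k ∈ D := by
  simp [Seg.win]

omit [LinearOrder I] in
theorem Seg.win_win (S : Seg I 𝕜) (D D' : Set ℕ) : (S.win D).win D' = S.win (D ∩ D') := by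
  have : ((S.win D).win D').A = (S.win (D ∩ D')).A := by
    ext k
    rw [Seg.mem_win, Seg.mem_win, Seg.mem_win, and_assoc]
    rfl
  change ({ S with A := ((S.win D).win D').A } : Seg I 𝕜) = { S with A := (S.win (D ∩ D')).A }
  rw [this]

omit [LinearOrder I] in
/-- Splitting a segment at an index. -/
theorem Seg.val_split (S : Seg I 𝕜) (a : ℕ) :
    S.val = (S.win (Set.Iio a)).val + (S.win (Set.Ici a)).val := by
  have h1 : S.A = (S.win (Set.Iio a)).A ∪ (S.win (Set.Ici a)).A := by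
    ext k
    rw [mem_union, Seg.mem_win, Seg.mem_win, ← and_or_left]
    exact ⟨fun h => ⟨h, lt_or_ge (S.j k) a⟩, fun h => h.1⟩
  have h2 : Disjoint (S.win (Set.Iio a)).A (S.win (Set.Ici a)).A :=
    disjoint_left.2 fun k hk hk' => not_le.2 (Set.mem_Iio.1 (Seg.mem_win.1 hk).2)
      (Set.mem_Ici.1 (Seg.mem_win.1 hk').2)
  rw [Seg.val, h1, sum_union h2, res_add]
  rfl

omit [LinearOrder I] in
theorem Seg.val_eq_zero {S : Seg I 𝕜} (h : S.A = ∅) : S.val = 0 := by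
  rw [Seg.val, h, sum_empty, res_zero]

/-- The functional of a segment is a sum of weighted functionals with distinct indices
(`res S.E (S.φ k)` is in `W (S.j k)` by `Fn.res`). -/
theorem sum_seg_le {κ : Type*} (s : Finset κ) (S : κ → Seg I 𝕜) (hS : ∀ t ∈ s, SegIn P C (S t))
    (hdis : ∀ t ∈ s, ∀ t' ∈ s, t ≠ t' → ∀ k ∈ (S t).A, ∀ k' ∈ (S t').A, (S t).j k ≠ (S t').j k')
    (x : I →₀ 𝕜) (f : ℕ → ℝ) (D : Finset ℕ) (hD : ∀ t ∈ s, ∀ k ∈ (S t).A, (S t).j k ∈ D)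
    (hf : ∀ l ∈ D, ∀ φ, Fn P C (some l) φ → ‖pair φ x‖ ≤ f l) :
    ∑ t ∈ s, ‖pair (S t).val x‖ ≤ ∑ l ∈ D, f l := by
  classical
  have h1 : ∑ t ∈ s, ‖pair (S t).val x‖ ≤
      ∑ y ∈ s.sigma fun t => (S t).A, f ((S y.1).j y.2) := by
    rw [sum_sigma]
    refine sum_le_sum fun t ht => ?_
    rw [Seg.val, res_sum, pair_sum_left]
    exact norm_sum_le_of_le _ fun k hk =>
      hf _ (hD t ht k hk) _ (((hS t ht).2 k hk).res (hS t ht).1.2.2.2.2)
  refine h1.trans ?_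
  rw [← sum_image (f := f) (k_injOn (fun t ht => (hS t ht).1) hdis)]
  refine sum_le_sum_of_subset_of_nonneg (fun l hl => ?_) fun l hl _ => ?_
  · obtain ⟨y, hy, rfl⟩ := mem_image.1 hl
    exact hD _ (mem_sigma.1 hy).1 _ (mem_sigma.1 hy).2
  · simpa using hf l hl 0 (Fn.zero _)

/-- Consequence of `sum_seg_le` (with `D` the set of all indices) and `Par.sum_inv_le`. -/
theorem sum_seg_le' {κ : Type*} (s : Finset κ) (S : κ → Seg I 𝕜) (hS : ∀ t ∈ s, SegIn P C (S t))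
    (hdis : ∀ t ∈ s, ∀ t' ∈ s, t ≠ t' → ∀ k ∈ (S t).A, ∀ k' ∈ (S t').A, (S t).j k ≠ (S t').j k')
    (x : I →₀ 𝕜) (a : ℕ) (B : ℝ) (hB : 0 ≤ B)
    (hf : ∀ t ∈ s, ∀ k ∈ (S t).A, a ≤ (S t).j k ∧
      ∀ φ, Fn P C (some ((S t).j k)) φ → ‖pair φ x‖ ≤ B / P.m ((S t).j k)) :
    ∑ t ∈ s, ‖pair (S t).val x‖ ≤ 2 / P.m a * B := by
  classical
  have hD : ∀ l ∈ s.biUnion fun t => (S t).A.image (S t).j,
      ∃ t ∈ s, ∃ k ∈ (S t).A, (S t).j k = l := fun l hl => by simpa using hl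
  refine (sum_seg_le s S hS hdis x (fun l => B / P.m l)
    (s.biUnion fun t => (S t).A.image (S t).j)
    (fun t ht k hk => mem_biUnion.2 ⟨t, ht, mem_image_of_mem _ hk⟩) fun l hl => ?_).trans ?_
  · obtain ⟨t, ht, k, hk, rfl⟩ := hD l hl
    exact (hf t ht k hk).2
  · simp only [div_eq_inv_mul B, ← sum_mul]
    refine mul_le_mul_of_nonneg_right (P.sum_inv_le a _ fun l hl => ?_) hB
    obtain ⟨t, ht, k, hk, rfl⟩ := hD l hl
    exact (hf t ht k hk).1

theorem Fn.pair_le_l1 {l : ℕ} {φ : I →₀ 𝕜} (h : Fn P C (some l) φ) (x : I →₀ 𝕜) :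
    ‖pair φ x‖ ≤ l1 x / P.m l := by
  rw [div_eq_inv_mul]
  exact norm_pair_le_l1 h.bound_some x

/-- Segments with large indices: `sum_seg_le'` with `B = l1 x`. -/
theorem sum_seg_tail {κ : Type*} (s : Finset κ) (S : κ → Seg I 𝕜) (hS : ∀ t ∈ s, SegIn P C (S t))
    (hdis : ∀ t ∈ s, ∀ t' ∈ s, t ≠ t' → ∀ k ∈ (S t).A, ∀ k' ∈ (S t').A, (S t).j k ≠ (S t').j k')
    (x : I →₀ 𝕜) (a : ℕ) (ha : ∀ t ∈ s, ∀ k ∈ (S t).A, a ≤ (S t).j k) :
    ∑ t ∈ s, ‖pair (S t).val x‖ ≤ 2 / P.m a * l1 x := by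
  exact sum_seg_le' s S hS hdis x a _ (l1_nonneg x) fun t ht k hk =>
    ⟨ha t ht k hk, fun φ hφ => hφ.pair_le_l1 x⟩

theorem SegIn.tail {S : Seg I 𝕜} (h : SegIn P C S) (x : I →₀ 𝕜) (a : ℕ)
    (ha : ∀ k ∈ S.A, a ≤ S.j k) : ‖pair S.val x‖ ≤ 2 / P.m a * l1 x := by
  simpa using sum_seg_tail ({()} : Finset Unit) (fun _ => S) (fun _ _ => h)
    (fun _ _ _ _ h => absurd rfl h) x a fun _ _ => ha

/-! ### The norm -/

instance k_nonempty : Nonempty {w : I →₀ 𝕜 // Fn P C none w} := ⟨⟨0, Fn.zero _⟩⟩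

theorem Fn.pair_le_nrm {o : Option ℕ} {w : I →₀ 𝕜} (h : Fn P C o w) (z : I →₀ 𝕜) :
    ‖pair w z‖ ≤ nrm P C z := by
  have hb : BddAbove (Set.range fun w : {w : I →₀ 𝕜 // Fn P C none w} => ‖pair w.1 z‖) := by
    refine ⟨1 * l1 z, ?_⟩
    rintro _ ⟨w, rfl⟩
    exact norm_pair_le_l1 w.2.bound_none z
  cases o with
  | none => exact le_ciSup hb ⟨w, h⟩
  | some j => exact le_ciSup hb ⟨w, .ofW j w h⟩

theorem nrm_le {z : I →₀ 𝕜} {B : ℝ} (h : ∀ w, Fn P C none w → ‖pair w z‖ ≤ B) :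
    nrm P C z ≤ B := by
  exact ciSup_le fun w => h w.1 w.2

theorem nrm_nonneg (z : I →₀ 𝕜) : 0 ≤ nrm P C z := by
  exact Real.iSup_nonneg fun _ => norm_nonneg _

theorem nrm_zero : nrm P C (0 : I →₀ 𝕜) = 0 := by
  exact le_antisymm (nrm_le fun w _ => by simp) (nrm_nonneg _)

theorem nrm_add_le (z z' : I →₀ 𝕜) : nrm P C (z + z') ≤ nrm P C z + nrm P C z' := by
  refine nrm_le fun w hw => ?_
  rw [pair_add_right]
  exact norm_add_le_of_le (hw.pair_le_nrm z) (hw.pair_le_nrm z')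

theorem nrm_smul (c : 𝕜) (z : I →₀ 𝕜) : nrm P C (c • z) = ‖c‖ * nrm P C z := by
  rw [nrm, nrm, Real.mul_iSup_of_nonneg (norm_nonneg c)]
  simp only [pair_smul_right, norm_mul]

theorem nrm_real_smul (c : ℝ) (z : I →₀ 𝕜) : nrm P C (c • z) = |c| * nrm P C z := by
  rw [real_smul_eq, nrm_smul, RCLike.norm_ofReal]

theorem nrm_sum_le {κ : Type*} (s : Finset κ) (z : κ → I →₀ 𝕜) :
    nrm P C (∑ i ∈ s, z i) ≤ ∑ i ∈ s, nrm P C (z i) := by
  refine nrm_le fun w hw => ?_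
  rw [pair_sum_right]
  exact norm_sum_le_of_le _ fun i _ => hw.pair_le_nrm _

theorem apply_le_nrm (z : I →₀ 𝕜) (α : I) : ‖z α‖ ≤ nrm P C z := by
  simpa using (Fn.basic (P := P) (C := C) α 1 (by simp)).pair_le_nrm z

theorem nrm_le_l1 (z : I →₀ 𝕜) : nrm P C z ≤ l1 z := by
  exact nrm_le fun w hw => by simpa using norm_pair_le_l1 hw.bound_none z

theorem nrm_pos {z : I →₀ 𝕜} (h : z ≠ 0) : 0 < nrm P C z := by
  obtain ⟨α, hα⟩ := Finsupp.support_nonempty_iff.2 h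
  exact (norm_pos_iff.2 (Finsupp.mem_support_iff.1 hα)).trans_le (apply_le_nrm z α)

theorem nrm_res_le {E : Set I} (hE : E.OrdConnected) (z : I →₀ 𝕜) :
    nrm P C (res E z) ≤ nrm P C z := by
  refine nrm_le fun w hw => ?_
  rw [← pair_res]
  exact (hw.res hE).pair_le_nrm z

/-- The smallest interval containing the support. -/
def k_hull (u : I →₀ 𝕜) : Set I := {α | (∃ β ∈ u.support, β ≤ α) ∧ ∃ γ ∈ u.support, α ≤ γ}

theorem k_hull_conn (u : I →₀ 𝕜) : (k_hull u).OrdConnected :=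
  ⟨fun _ ⟨⟨β, hβ, h⟩, _⟩ _ ⟨_, γ, hγ, h'⟩ _ hz =>
    ⟨⟨β, hβ, h.trans hz.1⟩, γ, hγ, hz.2.trans h'⟩⟩

theorem k_hull_self (u : I →₀ 𝕜) : Hull u u := fun α hα => ⟨⟨α, hα, le_rfl⟩, α, hα, le_rfl⟩

/-- A term of a sum of successive vectors is an interval restriction of the sum. -/
theorem nrm_le_nrm_sum {κ : Type} [LinearOrder κ] (s : Finset κ) (z : κ → I →₀ 𝕜)
    (hs : ∀ i ∈ s, ∀ i' ∈ s, i < i' → Lt (z i) (z i')) {i : κ} (hi : i ∈ s) :
    nrm P C (z i) ≤ nrm P C (∑ k ∈ s, z k) := by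
  have h : res (k_hull (z i)) (∑ k ∈ s, z k) = z i := by
    rw [res_sum, sum_eq_single_of_mem i hi, res_eq_self (E := k_hull (z i)) (k_hull_self _)]
    intro k hk hki
    refine res_eq_zero fun α hα ⟨⟨β, hβ, h1⟩, γ, hγ, h2⟩ => ?_
    rcases lt_or_gt_of_ne hki with h | h
    · exact not_lt.2 h1 (hs k hk i hi h α hα β hβ)
    · exact not_lt.2 h2 (hs i hi k hk h γ hγ α hα)
  conv_lhs => rw [← h]
  exact nrm_res_le (k_hull_conn _) _

/-- Almost norming functionals: restrict to the hull of the support, rotate by a unimodular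
scalar. For `z = 0` take `w = 0`. -/
theorem exists_norming (z : I →₀ 𝕜) {r : ℝ} (hr : r < nrm P C z) :
    ∃ w, Fn P C none w ∧ Hull w z ∧ ∃ t : ℝ, r < t ∧ pair w z = (t : 𝕜) := by
  obtain ⟨w, hw⟩ := exists_lt_of_lt_ciSup hr
  obtain ⟨c, hc, e⟩ := RCLike.exists_norm_eq_mul_self (pair w.1 z)
  refine ⟨c • res (k_hull z) w.1, (w.2.res (k_hull_conn z)).smul hc.le,
    fun α hα => (mem_support_res.1 (Finsupp.support_smul hα)).2, _, hw, ?_⟩
  rw [pair_smul_left, pair_res, res_eq_self (E := k_hull z) (k_hull_self z), e]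

/-- Average the almost norming functionals `w i` of the `z i` (`pair (w i) (z k) = 0` for `i ≠ k`,
the support of `z i` is contained in the support of the sum). -/
theorem exists_W {κ : Type} [LinearOrder κ] (j : ℕ) (s : Finset κ) (z : κ → I →₀ 𝕜)
    (hd : s.card ≤ P.n j) (hs : ∀ i ∈ s, ∀ i' ∈ s, i < i' → Lt (z i) (z i')) {ε : ℝ}
    (hε : 0 < ε) :
    ∃ φ, Fn P C (some j) φ ∧ Hull φ (∑ i ∈ s, z i) ∧
      ∃ t : ℝ, (∑ i ∈ s, nrm P C (z i) - ε) / P.m j ≤ t ∧ pair φ (∑ i ∈ s, z i) = (t : 𝕜) := by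
  classical
  have hδ : 0 < ε / (s.card + 1) := by positivity
  choose w hw hH t ht e using fun i => exists_norming (P := P) (C := C) (z i)
    (sub_lt_self (nrm P C (z i)) hδ)
  refine ⟨_, Fn.avg' j s w hd (fun i hi i' hi' h => (hH i).lt (hH i') (hs i hi i' hi' h))
    fun i _ => hw i, fun α hα => ?_, (P.m j)⁻¹ * ∑ i ∈ s, t i, ?_, ?_⟩
  · obtain ⟨i, hi, hα'⟩ := mem_biUnion.1 (Finsupp.support_finsetSum (Finsupp.support_smul hα))
    have hsub : ∀ β ∈ (z i).support, β ∈ (∑ k ∈ s, z k).support := fun β hβ => by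
      rw [Finsupp.mem_support_iff, k_sum_apply hs hi hβ]
      exact Finsupp.mem_support_iff.1 hβ
    obtain ⟨⟨β, hβ, h1⟩, γ, hγ, h2⟩ := hH i α hα'
    exact ⟨⟨β, hsub β hβ, h1⟩, γ, hsub γ hγ, h2⟩
  · rw [div_eq_inv_mul]
    refine mul_le_mul_of_nonneg_left ?_ (inv_pos.2 (P.m_pos j)).le
    have h1 : ∑ i ∈ s, (nrm P C (z i) - ε / (s.card + 1)) ≤ ∑ i ∈ s, t i :=
      sum_le_sum fun i _ => (ht i).le
    rw [sum_sub_distrib, sum_const, nsmul_eq_mul] at h1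
    have h2 : (s.card : ℝ) * (ε / (s.card + 1)) ≤ ε := by
      rw [← mul_div_assoc, div_le_iff₀ (by positivity)]
      nlinarith
    linarith
  · rw [pair_real_smul_left, pair_sum_left]
    push_cast
    congr 1
    refine sum_congr rfl fun i hi => ?_
    rw [pair_sum_right, sum_eq_single_of_mem i hi, e]
    intro k hk hki
    rcases lt_or_gt_of_ne hki with h | h
    · exact ((k_hull_self _).lt (hH i) (hs k hk i hi h)).pair_eq_zero'
    · exact ((hH i).lt (k_hull_self _) (hs i hi k hk h)).pair_eq_zero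

/-- The lower `ℓ₁` estimate. -/
theorem lower_est {κ : Type} [LinearOrder κ] (j : ℕ) (s : Finset κ) (z : κ → I →₀ 𝕜)
    (hd : s.card ≤ P.n j) (hs : ∀ i ∈ s, ∀ i' ∈ s, i < i' → Lt (z i) (z i')) :
    ∑ i ∈ s, nrm P C (z i) ≤ P.m j * nrm P C (∑ i ∈ s, z i) := by
  refine le_of_forall_pos_le_add fun ε hε => ?_
  obtain ⟨φ, hφ, -, t, ht, e⟩ := exists_W (P := P) (C := C) j s z hd hs hε
  have h1 := hφ.pair_le_nrm (∑ i ∈ s, z i)
  rw [e, RCLike.norm_ofReal] at h1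
  have h2 := ht.trans ((le_abs_self t).trans h1)
  rw [div_le_iff₀ (P.m_pos j)] at h2
  linarith

end Crest.Agent.R114
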