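import Crest.Agent.R114.Defs

/-! Row 114 (S0153): Rademacher averages. -/

set_option autoImplicit false

open Finset

namespace Crest.Agent.R114

/-- The sign of a Boolean. -/
def sg (b : Bool) : ℝ := if b then 1 else -1

/-- Second and fourth moments (induction on `q`, `Fin.consEquiv`/`Fin.insertNthEquiv`, or the
recursion `S ± a`: `(S+a)^2 + (S-a)^2 = 2 S^2 + 2 a^2`,
`(S+a)^4 + (S-a)^4 = 2 S^4 + 12 S^2 a^2 + 2 a^4`). -/
theorem rad_moments (q : ℕ) (A : Fin q → ℝ) :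
    ∑ t : Fin q → Bool, (∑ i, sg (t i) * A i) ^ 2 = 2 ^ q * ∑ i, A i ^ 2 ∧
    ∑ t : Fin q → Bool, (∑ i, sg (t i) * A i) ^ 4 ≤ 3 * 2 ^ q * (∑ i, A i ^ 2) ^ 2 := by
  induction q with
  | zero => simp
  | succ q ih =>
    obtain ⟨h2, h4⟩ := ih fun i => A i.succ
    have key : ∀ f : ℝ → ℝ, ∑ t : Fin (q + 1) → Bool, f (∑ i, sg (t i) * A i) =
        ∑ t : Fin q → Bool, (f (A 0 + ∑ i, sg (t i) * A i.succ) +
          f (-A 0 + ∑ i, sg (t i) * A i.succ)) := by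
      intro f
      rw [← (Fin.consEquiv fun _ : Fin (q + 1) => Bool).sum_comp, Fintype.sum_prod_type,
        Fintype.sum_bool, sum_add_distrib]
      simp [Fin.sum_univ_succ, Fin.consEquiv, sg]
    have hc : ∑ _t : Fin q → Bool, (1 : ℝ) = 2 ^ q := by simp
    constructor
    · rw [key fun x => x ^ 2, Fin.sum_univ_succ]
      have : ∀ t : Fin q → Bool, (A 0 + ∑ i, sg (t i) * A i.succ) ^ 2 +
          (-A 0 + ∑ i, sg (t i) * A i.succ) ^ 2 =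
          2 * (∑ i, sg (t i) * A i.succ) ^ 2 + 2 * A 0 ^ 2 * 1 := fun t => by ring
      simp only [this]
      rw [sum_add_distrib, ← mul_sum, ← mul_sum, h2, hc]
      ring
    · rw [key fun x => x ^ 4, Fin.sum_univ_succ]
      have : ∀ t : Fin q → Bool, (A 0 + ∑ i, sg (t i) * A i.succ) ^ 4 +
          (-A 0 + ∑ i, sg (t i) * A i.succ) ^ 4 =
          2 * (∑ i, sg (t i) * A i.succ) ^ 4 + (12 * A 0 ^ 2 * (∑ i, sg (t i) * A i.succ) ^ 2 +
            2 * A 0 ^ 4 * 1) := fun t => by ring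
      simp only [this]
      rw [sum_add_distrib, sum_add_distrib, ← mul_sum, ← mul_sum, ← mul_sum, h2, hc, pow_succ 2 q]
      have h0 : (0 : ℝ) ≤ 2 ^ q * A 0 ^ 4 := by positivity
      nlinarith

/-- Khintchine.  With `σ^2 = ∑ A i ^ 2 > 0` and `y = |S| / σ`: `y^2 ≤ 3 y + y^4 / 9`, so the mean of
`y` is at least `2 / 9`. -/
theorem rad_lower (q : ℕ) (A : Fin q → ℝ) :
    2 / 9 * 2 ^ q * √(∑ i, A i ^ 2) ≤ ∑ t : Fin q → Bool, |∑ i, sg (t i) * A i| := by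
  obtain ⟨h2, h4⟩ := rad_moments q A
  have hs : 0 ≤ ∑ i, A i ^ 2 := sum_nonneg fun i _ => sq_nonneg _
  set σ := √(∑ i, A i ^ 2) with hσ
  have hσ2 : ∑ i, A i ^ 2 = σ ^ 2 := (Real.sq_sqrt hs).symm
  have hσ0 : 0 ≤ σ := Real.sqrt_nonneg _
  rw [hσ2] at h2 h4
  rcases hσ0.eq_or_lt with h0 | h0
  · rw [← h0, mul_zero]
    exact sum_nonneg fun t _ => abs_nonneg _
  have pt : ∀ S : ℝ, σ ^ 2 * S ^ 2 ≤ 3 * σ ^ 3 * |S| + 1 / 9 * S ^ 4 := by
    intro S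
    have hu := abs_nonneg S
    have e2 : S ^ 2 = |S| ^ 2 := (sq_abs S).symm
    have e4 : S ^ 4 = |S| ^ 4 := by
      rw [show S ^ 4 = (S ^ 2) ^ 2 by ring, e2]; ring
    rw [e2, e4]
    generalize |S| = u at hu
    rcases le_total u (3 * σ) with h | h
    · have h1 : σ ^ 2 * u * u ≤ σ ^ 2 * u * (3 * σ) :=
        mul_le_mul_of_nonneg_left h (by positivity)
      have h2 : 0 ≤ u ^ 4 := by positivity
      nlinarith
    · have h1 : (3 * σ) ^ 2 ≤ u ^ 2 := pow_le_pow_left₀ (by positivity) h 2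
      have h2 : (3 * σ) ^ 2 * u ^ 2 ≤ u ^ 2 * u ^ 2 := mul_le_mul_of_nonneg_right h1 (sq_nonneg u)
      have h3 : 0 ≤ σ ^ 3 * u := by positivity
      nlinarith
  have hsum := sum_le_sum fun (t : Fin q → Bool) (_ : t ∈ univ) => pt (∑ i, sg (t i) * A i)
  rw [sum_add_distrib, ← mul_sum, ← mul_sum, ← mul_sum, h2] at hsum
  refine le_of_mul_le_mul_left ?_ (show 0 < 3 * σ ^ 3 by positivity)
  nlinarith

/-- Bessel.  With `A i = ∑ t, sg (t i) * y t`: `∑ A i ^ 2 = ∑ t, y t * S t` with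
`S t = ∑ i, sg (t i) * A i`; Cauchy–Schwarz and the second moment. -/
theorem rad_bessel (q : ℕ) (y : (Fin q → Bool) → ℝ) :
    ∑ i : Fin q, (∑ t, sg (t i) * y t) ^ 2 ≤ 2 ^ q * ∑ t, y t ^ 2 := by
  set A : Fin q → ℝ := fun i => ∑ t, sg (t i) * y t with hA
  have h2 := (rad_moments q A).1
  have h1 : ∑ i, A i ^ 2 = ∑ t, y t * ∑ i, sg (t i) * A i := by
    simp only [mul_sum]
    rw [sum_comm]
    refine sum_congr rfl fun i _ => ?_
    rw [sq]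
    nth_rewrite 1 [hA]
    simp only [sum_mul]
    exact sum_congr rfl fun t _ => by ring
  have h3 := sum_mul_sq_le_sq_mul_sq univ y fun t => ∑ i, sg (t i) * A i
  rw [← h1, h2] at h3
  have hs : 0 ≤ ∑ i, A i ^ 2 := sum_nonneg fun i _ => sq_nonneg _
  change ∑ i, A i ^ 2 ≤ _
  rcases hs.eq_or_lt with h0 | h0
  · rw [← h0]
    exact mul_nonneg (by positivity) (sum_nonneg fun t _ => sq_nonneg _)
  · refine le_of_mul_le_mul_left ?_ h0
    nlinarith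

/-- Placing a finite family of values at distinct positions. -/
noncomputable def khinL {𝕜 : Type} [RCLike 𝕜] {T : Type} [Fintype T] (g : T → ℕ) :
    (T → 𝕜) →ₗ[𝕜] (ℕ →₀ 𝕜) :=
  ∑ t, (Finsupp.lsingle (g t)).comp (LinearMap.proj t)

lemma khinL_eq {𝕜 : Type} [RCLike 𝕜] {T : Type} [Fintype T] (g : T → ℕ) (f : T → 𝕜) :
    khinL g f = ∑ t, Finsupp.single (g t) (f t) := by
  simp [khinL, LinearMap.sum_apply]

lemma khinL_supp {𝕜 : Type} [RCLike 𝕜] {T : Type} [Fintype T] (g : T → ℕ) (f : T → 𝕜) :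
    (khinL g f).support ⊆ univ.image g := by
  intro k hk
  rw [khinL_eq] at hk
  obtain ⟨t, -, ht⟩ := mem_biUnion.mp (Finsupp.support_finsetSum hk)
  exact mem_image.mpr ⟨t, mem_univ _, (mem_singleton.mp (Finsupp.support_single_subset ht)).symm⟩

lemma khinL_apply {𝕜 : Type} [RCLike 𝕜] {T : Type} [Fintype T] {g : T → ℕ}
    (hg : Function.Injective g) (f : T → 𝕜) (t : T) : khinL g f (g t) = f t := by
  rw [khinL_eq, Finsupp.finsetSum_apply, sum_eq_single t]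
  · simp
  · intro t' _ h
    exact Finsupp.single_eq_of_ne fun h' => h (hg h').symm
  · simp

lemma khinL_l1 {𝕜 : Type} [RCLike 𝕜] {T : Type} [Fintype T] {g : T → ℕ}
    (hg : Function.Injective g) (f : T → 𝕜) : l1 (khinL g f) = ∑ t, ‖f t‖ := by
  rw [l1, sum_subset (khinL_supp g f) fun k _ hk => by
    rw [Finsupp.notMem_support_iff.mp hk, norm_zero], sum_image fun a _ b _ h => hg h]
  simp only [khinL_apply hg]

lemma khinL_comb {𝕜 : Type} [RCLike 𝕜] {T : Type} [Fintype T] (g : T → ℕ) (f : T → 𝕜)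
    (y : ℕ → 𝕜) : Finsupp.linearCombination 𝕜 y (khinL g f) = ∑ t, f t * y (g t) := by
  rw [khinL_eq, map_sum]
  simp

lemma khin_normsq {𝕜 : Type} [RCLike 𝕜] (z : 𝕜) :
    ‖z‖ ^ 2 = RCLike.re z ^ 2 + RCLike.im z ^ 2 := by
  rw [RCLike.norm_sq_eq_def]; ring

lemma khin_bessel {𝕜 : Type} [RCLike 𝕜] (q : ℕ) (y : (Fin q → Bool) → 𝕜) :
    ∑ i : Fin q, ‖∑ t, (sg (t i) : 𝕜) * y t‖ ^ 2 ≤ 2 ^ q * ∑ t, ‖y t‖ ^ 2 := by
  have h1 := rad_bessel q fun t => RCLike.re (y t)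
  have h2 := rad_bessel q fun t => RCLike.im (y t)
  simp only [khin_normsq, map_sum, RCLike.re_ofReal_mul, RCLike.im_ofReal_mul, sum_add_distrib]
  linarith

lemma khin_lower {𝕜 : Type} [RCLike 𝕜] (q : ℕ) (A : Fin q → 𝕜) :
    ∑ i, ‖A i‖ ^ 2 ≤ 81 * ((2⁻¹ : ℝ) ^ q * ∑ t : Fin q → Bool, ‖∑ i, (sg (t i) : 𝕜) * A i‖) ^ 2 := by
  set L := ∑ t : Fin q → Bool, ‖∑ i, (sg (t i) : 𝕜) * A i‖
  have key : ∀ a : Fin q → ℝ, ∑ t : Fin q → Bool, |∑ i, sg (t i) * a i| ≤ L →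
      ∑ i, a i ^ 2 ≤ 81 / 4 * ((2⁻¹ : ℝ) ^ q * L) ^ 2 := by
    intro a ha
    have h1 := (rad_lower q a).trans ha
    have hs : 0 ≤ ∑ i, a i ^ 2 := sum_nonneg fun i _ => sq_nonneg _
    have h2 : √(∑ i, a i ^ 2) ≤ 9 / 2 * ((2⁻¹ : ℝ) ^ q * L) := by
      have h3 := mul_le_mul_of_nonneg_left h1 (show (0 : ℝ) ≤ 2⁻¹ ^ q by positivity)
      have h4 : (2⁻¹ : ℝ) ^ q * 2 ^ q = 1 := by rw [← mul_pow]; norm_num
      have h5 : (2⁻¹ : ℝ) ^ q * (2 / 9 * 2 ^ q * √(∑ i, a i ^ 2)) = 2 / 9 * √(∑ i, a i ^ 2) := by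
        linear_combination 2 / 9 * √(∑ i, a i ^ 2) * h4
      linarith
    have h3 := pow_le_pow_left₀ (Real.sqrt_nonneg _) h2 2
    rw [Real.sq_sqrt hs] at h3
    linarith
  have h1 := key (fun i => RCLike.re (A i)) (sum_le_sum fun t _ => by
    refine le_trans (le_of_eq ?_) (RCLike.abs_re_le_norm _)
    simp only [map_sum, RCLike.re_ofReal_mul])
  have h2 := key (fun i => RCLike.im (A i)) (sum_le_sum fun t _ => by
    refine le_trans (le_of_eq ?_) (RCLike.abs_im_le_norm _)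
    simp only [map_sum, RCLike.im_ofReal_mul])
  simp only [khin_normsq, sum_add_distrib]
  have := sq_nonneg ((2⁻¹ : ℝ) ^ q * L)
  linarith

/-- Plan.  `e q : (Fin q → Bool) ≃ Fin (2 ^ q)`;
`R q i = ∑ t, Finsupp.single (2^q + e q t) (2⁻¹^q * sg (t i))` for `i < q`, and `0` otherwise.
Use `rad_bessel` and `rad_lower` for real and imaginary parts (`‖z‖^2 = re^2 + im^2`; one of
`∑ re^2`, `∑ im^2` is at least half of the total, and `2 * (9/2)^2 ≤ 81`). -/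
theorem exists_rademacher (𝕜 : Type) [RCLike 𝕜] :
    ∃ R : ℕ → ℕ → ℕ →₀ 𝕜, (∀ q i, ∀ k ∈ (R q i).support, 2 ^ q ≤ k ∧ k < 2 ^ (q + 1)) ∧
      (∀ q (y : ℕ → 𝕜) (B : ℝ), (∀ k, ‖y k‖ ≤ B) → ∀ s : Finset ℕ,
        ∑ i ∈ s, ‖Finsupp.linearCombination 𝕜 y (R q i)‖ ^ 2 ≤ B ^ 2) ∧
      ∀ q (s : Finset ℕ) (A : ℕ → 𝕜), (∀ i ∈ s, i < q) →
        ∑ i ∈ s, ‖A i‖ ^ 2 ≤ 81 * l1 (∑ i ∈ s, A i • R q i) ^ 2 := by
  have e : ∀ q : ℕ, (Fin q → Bool) ≃ Fin (2 ^ q) := fun q =>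
    Fintype.equivFinOfCardEq (by simp)
  let g : ∀ q : ℕ, (Fin q → Bool) → ℕ := fun q t => 2 ^ q + (e q t : ℕ)
  have hg : ∀ q, Function.Injective (g q) := fun q t t' h =>
    (e q).injective (Fin.ext (Nat.add_left_cancel h))
  let f : ∀ q : ℕ, ℕ → (Fin q → Bool) → 𝕜 := fun q i t =>
    if h : i < q then (((2⁻¹ : ℝ) ^ q : ℝ) : 𝕜) * (sg (t ⟨i, h⟩) : 𝕜) else 0
  refine ⟨fun q i => khinL (g q) (f q i), fun q i k hk => ?_, fun q y B hy s => ?_,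
    fun q s A hs => ?_⟩
  · obtain ⟨t, -, rfl⟩ := mem_image.mp (khinL_supp _ _ hk)
    have := (e q t).2
    simp only [g, pow_succ]
    omega
  · simp only [khinL_comb]
    have h1 : ∑ i ∈ s, ‖∑ t, f q i t * y (g q t)‖ ^ 2 ≤
        ∑ i ∈ range q, ‖∑ t, f q i t * y (g q t)‖ ^ 2 := by
      rw [← sum_filter_ne_zero s]
      refine sum_le_sum_of_subset_of_nonneg (fun i hi => mem_range.mpr ?_) fun _ _ _ => sq_nonneg _
      have hi' := (mem_filter.mp hi).2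
      by_contra h
      simp [f, h] at hi'
    refine h1.trans ?_
    rw [← Fin.sum_univ_eq_sum_range (fun i => ‖∑ t, f q i t * y (g q t)‖ ^ 2) q]
    have h2 := khin_bessel q fun t => (((2⁻¹ : ℝ) ^ q : ℝ) : 𝕜) * y (g q t)
    have h3 : ∀ i : Fin q, ∑ t, f q i t * y (g q t) =
        ∑ t : Fin q → Bool, (sg (t i) : 𝕜) * ((((2⁻¹ : ℝ) ^ q : ℝ) : 𝕜) * y (g q t)) := fun i =>
      sum_congr rfl fun t _ => by simp only [f, dif_pos i.2]; ring
    simp only [h3]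
    refine h2.trans ?_
    have h4 : ∀ t : Fin q → Bool, ‖(((2⁻¹ : ℝ) ^ q : ℝ) : 𝕜) * y (g q t)‖ ^ 2 ≤
        ((2⁻¹ : ℝ) ^ q * B) ^ 2 := fun t => by
      refine pow_le_pow_left₀ (norm_nonneg _) ?_ 2
      rw [norm_mul, RCLike.norm_ofReal, abs_of_nonneg (by positivity)]
      exact mul_le_mul_of_nonneg_left (hy _) (by positivity)
    have h5 := sum_le_sum fun (t : Fin q → Bool) (_ : t ∈ univ) => h4 t
    have h6 : ∑ _t : Fin q → Bool, ((2⁻¹ : ℝ) ^ q * B) ^ 2 = 2 ^ q * ((2⁻¹ : ℝ) ^ q * B) ^ 2 := by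
      simp
    have h7 : (2 : ℝ) ^ q * 2⁻¹ ^ q = 1 := by rw [← mul_pow]; norm_num
    rw [h6] at h5
    calc _ ≤ (2 : ℝ) ^ q * (2 ^ q * ((2⁻¹ : ℝ) ^ q * B) ^ 2) :=
          mul_le_mul_of_nonneg_left h5 (by positivity)
      _ = (2 ^ q * 2⁻¹ ^ q) ^ 2 * B ^ 2 := by ring
      _ = B ^ 2 := by rw [h7]; ring
  · simp only [← map_smul, ← map_sum]
    rw [khinL_l1 (hg q)]
    let A' : ℕ → 𝕜 := fun i => if i ∈ s then A i else 0
    have hsub : s ⊆ range q := fun i hi => mem_range.mpr (hs i hi)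
    have h1 := khin_lower q fun i : Fin q => A' i
    have h2 : ∑ i : Fin q, ‖A' i‖ ^ 2 = ∑ i ∈ s, ‖A i‖ ^ 2 := by
      rw [Fin.sum_univ_eq_sum_range (fun i => ‖A' i‖ ^ 2) q,
        ← sum_subset hsub fun i _ hi => by simp [A', hi]]
      exact sum_congr rfl fun i hi => by simp [A', hi]
    have h3 : ∀ t : Fin q → Bool, ‖(∑ i ∈ s, A i • f q i) t‖ =
        (2⁻¹ : ℝ) ^ q * ‖∑ i : Fin q, (sg (t i) : 𝕜) * A' i‖ := fun t => by
      have h4 : (∑ i ∈ s, A i • f q i) t =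
          (((2⁻¹ : ℝ) ^ q : ℝ) : 𝕜) * ∑ i : Fin q, (sg (t i) : 𝕜) * A' i := by
        rw [Finset.sum_apply, mul_sum]
        have h5 : ∀ i : Fin q, (((2⁻¹ : ℝ) ^ q : ℝ) : 𝕜) * ((sg (t i) : 𝕜) * A' i) =
            A' i * f q i t := fun i => by simp only [f, dif_pos i.2]; ring
        simp only [h5]
        rw [Fin.sum_univ_eq_sum_range (fun i => A' i * f q i t) q,
          ← sum_subset hsub fun i _ hi => by simp [A', hi]]
        exact sum_congr rfl fun i hi => by simp [A', hi]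
      rw [h4, norm_mul, RCLike.norm_ofReal, abs_of_nonneg (by positivity)]
    simp only [h3]
    rw [← mul_sum, ← h2]
    exact h1

end Crest.Agent.R114
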