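import Crest.Agent.R114.SQ
import Crest.Agent.R114.L1
import Crest.Agent.R114.Khin

/-! Row 114 (S0153): the `ℓ₁` case without null blocks gives a quotient `ℓ₂`. -/

set_option autoImplicit false

open Finset Filter Topology

namespace Crest.Agent.R114

variable {𝕜 : Type} [RCLike 𝕜] {X : Type*} [NormedAddCommGroup X] [NormedSpace 𝕜 X]

/-- Diagonal argument. -/
theorem l2_diag (Q : ℕ → Set ℕ → Prop)
    (h : ∀ n (L : Set ℕ), L.Infinite → ∃ L' : Set ℕ, L' ⊆ L ∧ L'.Infinite ∧ Q n L') :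
    ∃ q : ℕ → ℕ, ∀ n, ∃ L', Q n L' ∧ ∀ m, n < m → q m ∈ L' := by
  choose f hf1 hf2 hf3 using h
  let L : ℕ → {L : Set ℕ // L.Infinite} := fun n =>
    Nat.rec ⟨Set.univ, Set.infinite_univ⟩ (fun n L => ⟨f n L.1 L.2, hf2 n L.1 L.2⟩) n
  have hanti : Antitone fun n => (L n).1 :=
    antitone_nat_of_succ_le fun n => hf1 n (L n).1 (L n).2
  refine ⟨fun n => (L n).2.nonempty.some, fun n => ⟨(L (n + 1)).1, hf3 n (L n).1 (L n).2, ?_⟩⟩
  intro m hm
  exact hanti (Nat.succ_le_of_lt hm) (L m).2.nonempty.some_mem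

/-- Pointwise limits along an ultrafilter. -/
theorem l2_lim (U : Ultrafilter ℕ) (T : ℕ → StrongDual 𝕜 X) (hT : ∀ m x, ‖T m x‖ ≤ ‖x‖) :
    ∃ G : StrongDual 𝕜 X, ∀ x, Tendsto (fun m => T m x) U (𝓝 (G x)) := by
  have hex : ∀ x, ∃ y, Tendsto (fun m => T m x) U (𝓝 y) := fun x => by
    obtain ⟨y, -, hy⟩ := (isCompact_closedBall (0 : 𝕜) ‖x‖).ultrafilter_le_nhds
      (U.map fun m => T m x) (by
        rw [le_principal_iff]
        exact Filter.mem_map.2 (Eventually.of_forall fun m => by simpa using hT m x))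
    exact ⟨y, hy⟩
  choose g hg using hex
  refine ⟨LinearMap.mkContinuous
    { toFun := g
      map_add' := fun x y => tendsto_nhds_unique (hg (x + y)) (by simpa using (hg x).add (hg y))
      map_smul' := fun a x => tendsto_nhds_unique (hg (a • x))
        (by simpa using (hg x).const_mul a) } 1 fun x => ?_, hg⟩
  rw [one_mul]
  exact le_of_tendsto' (hg x).norm fun m => hT m x

theorem l2_step {c : ℕ → StrongDual 𝕜 X} {δ : ℝ} (hδ : 0 < δ)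
    (h : ∀ d, L1Block d c → ∃ x : X, ‖x‖ ≤ 1 ∧ ∃ᶠ k in atTop, δ ≤ ‖d k x‖)
    {R : ℕ → ℕ → ℕ →₀ 𝕜} (hR1 : ∀ q i, ∀ k ∈ (R q i).support, 2 ^ q ≤ k ∧ k < 2 ^ (q + 1))
    (hR3 : ∀ q (s : Finset ℕ) (A : ℕ → 𝕜), (∀ i ∈ s, i < q) →
      ∑ i ∈ s, ‖A i‖ ^ 2 ≤ 81 * l1 (∑ i ∈ s, A i • R q i) ^ 2)
    (s : Finset ℕ) (A : ℕ → 𝕜) (L : Set ℕ) (hL : L.Infinite) :
    ∃ L' : Set ℕ, L' ⊆ L ∧ L'.Infinite ∧ ∃ x : X, ‖x‖ ≤ 1 ∧ ∀ q ∈ L',
      (δ / 9) ^ 2 * ∑ i ∈ s, ‖A i‖ ^ 2 ≤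
        ‖∑ i ∈ s, A i * Finsupp.linearCombination 𝕜 c (R q i) x‖ ^ 2 := by
  classical
  have h0 : 0 ≤ ∑ i ∈ s, ‖A i‖ ^ 2 := sum_nonneg fun _ _ => sq_nonneg _
  rcases h0.eq_or_lt with h0 | h0
  · exact ⟨L, subset_rfl, hL, 0, by simp, fun q _ => by rw [← h0]; simp⟩
  have hinf : {q | q ∈ L ∧ ∀ i ∈ s, i < q}.Infinite := by
    refine (hL.sdiff (Set.finite_Iic (s.sup id))).mono fun q hq => ⟨hq.1, fun i hi => ?_⟩
    have h1 : i ≤ s.sup id := le_sup (f := id) hi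
    have h2 := hq.2
    simp only [Set.mem_Iic, not_le] at h2
    omega
  set q : ℕ → ℕ := Nat.nth fun q => q ∈ L ∧ ∀ i ∈ s, i < q with hq
  have hqm : StrictMono q := Nat.nth_strictMono hinf
  have hqL : ∀ k, q k ∈ L ∧ ∀ i ∈ s, i < q k := fun k => Nat.nth_mem_of_infinite hinf k
  set r : ℕ → ℕ →₀ 𝕜 := fun k => ∑ i ∈ s, A i • R (q k) i with hr
  have hlow : ∀ k, ∑ i ∈ s, ‖A i‖ ^ 2 ≤ 81 * l1 (r k) ^ 2 := fun k => hR3 _ s A (hqL k).2
  have hpos : ∀ k, 0 < l1 (r k) := fun k => by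
    rcases (l1_nonneg (r k)).eq_or_lt with h1 | h1
    · have := hlow k
      rw [← h1] at this
      linarith
    · exact h1
  have hn : ∀ k, ‖(((l1 (r k))⁻¹ : ℝ) : 𝕜)‖ = (l1 (r k))⁻¹ := fun k => by
    rw [RCLike.norm_ofReal, abs_of_pos (inv_pos.2 (hpos k))]
  obtain ⟨x, hx, hfr⟩ := h
    (fun k => Finsupp.linearCombination 𝕜 c ((((l1 (r k))⁻¹ : ℝ) : 𝕜) • r k))
    ⟨fun k => (((l1 (r k))⁻¹ : ℝ) : 𝕜) • r k, ⟨fun k l hkl => by
      refine Lt.smul (Lt.sum_left fun i _ => Lt.sum_right fun j _ => Lt.smul ?_ _ _) _ _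
      intro α hα β hβ
      have h1 := (hR1 _ _ α hα).2
      have h2 := (hR1 _ _ β hβ).1
      have h3 : 2 ^ (q k + 1) ≤ 2 ^ q l := Nat.pow_le_pow_right (by norm_num) (hqm hkl)
      omega, fun k => rfl⟩, fun k => by rw [l1_smul, hn, inv_mul_cancel₀ (hpos k).ne']⟩
  rw [Nat.frequently_atTop_iff_infinite] at hfr
  refine ⟨q '' _, ?_, hfr.image hqm.injective.injOn, x, hx, ?_⟩
  · rintro _ ⟨k, -, rfl⟩
    exact (hqL k).1
  · rintro _ ⟨k, hk, rfl⟩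
    have e : ∑ i ∈ s, A i * Finsupp.linearCombination 𝕜 c (R (q k) i) x =
        Finsupp.linearCombination 𝕜 c (r k) x := by
      simp [hr, map_sum]
    simp only [Set.mem_ofPred_eq, map_smul, _root_.smul_apply, norm_smul, hn] at hk
    rw [e]
    rw [inv_mul_eq_div, le_div_iff₀ (hpos k)] at hk
    have h1 : (δ * l1 (r k)) ^ 2 ≤ ‖Finsupp.linearCombination 𝕜 c (r k) x‖ ^ 2 :=
      pow_le_pow_left₀ (mul_pos hδ (hpos k)).le hk 2
    have h2 : (δ / 9) ^ 2 * ∑ i ∈ s, ‖A i‖ ^ 2 ≤ (δ / 9) ^ 2 * (81 * l1 (r k) ^ 2) :=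
      mul_le_mul_of_nonneg_left (hlow k) (sq_nonneg _)
    nlinarith

/-- Plan.  `R` from `exists_rademacher`, `D q i = linearCombination c (R q i)`; then
`∑_{i ∈ s} ‖D q i x‖^2 ≤ ‖x‖^2` (so `‖D q i‖ ≤ 1`).
(a) For `s, A` and an infinite `L ⊆ ℕ` there are `x`, `‖x‖ ≤ 1`, and an infinite `L' ⊆ L` with
`δ / 9 * √(∑ ‖A i‖^2) ≤ ‖(∑_{i ∈ s} A i • D q i) x‖` for `q ∈ L'`: trivial if the sum of squares
vanishes; otherwise enumerate the elements of `L` above `s` as `q 0 < q 1 < …` (`Nat.nth`), and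
apply `h` to `d k = λ_k⁻¹ • ∑ A i • D (q k) i`, `λ_k = l1 (∑ A i • R (q k) i) ≥ √… / 9`.
(b) Enumerate the countably many pairs `(s, A)` with `A` taking values in a countable dense set
(e.g. `Finset ℕ × (ℕ →₀ ℕ)` through a dense sequence), get `L 0 ⊇ L 1 ⊇ …` infinite, `q n ∈ L n`,
and `U` = `hyperfilter ℕ` (or any ultrafilter `≤ atTop`).  `G i x = lim_U D (q n) i x`
(bounded sequences in the proper space `𝕜`; `ContinuousLinearMap.ofTendstoOfBoundedRange`).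
Both estimates pass to the limit, the lower one extends to all coefficients by continuity.
`sq_of_l2` with `c = δ / 9`. -/
theorem sq_of_stable [CompleteSpace X] {c : ℕ → StrongDual 𝕜 X} (hc : ∀ i, ‖c i‖ ≤ 1) {δ : ℝ}
    (hδ : 0 < δ) (h : ∀ d, L1Block d c → ∃ x : X, ‖x‖ ≤ 1 ∧ ∃ᶠ k in atTop, δ ≤ ‖d k x‖) :
    SQ 𝕜 X := by
  classical
  obtain ⟨R, hR1, hR2, hR3⟩ := exists_rademacher 𝕜
  have hup : ∀ q (x : X) (s : Finset ℕ),
      ∑ i ∈ s, ‖Finsupp.linearCombination 𝕜 c (R q i) x‖ ^ 2 ≤ ‖x‖ ^ 2 := fun q x s => by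
    have h1 := hR2 q (fun k => c k x) ‖x‖
      (fun k => ((c k).le_opNorm x).trans (mul_le_of_le_one_left (norm_nonneg _) (hc k))) s
    have e : ∀ a : ℕ →₀ 𝕜, Finsupp.linearCombination 𝕜 c a x =
        Finsupp.linearCombination 𝕜 (fun k => c k x) a := fun a => by
      simp [Finsupp.linearCombination_apply, Finsupp.sum]
    simpa only [e] using h1
  obtain ⟨e, he⟩ := exists_surjective_nat (Finset ℕ × ℕ)
  set a : ℕ → ℕ → 𝕜 := TopologicalSpace.denseSeq (ℕ → 𝕜) with ha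
  obtain ⟨q, hq⟩ := l2_diag _ fun n L hL => l2_step hδ h hR1 hR3 (e n).1 (a (e n).2) L hL
  set U : Ultrafilter ℕ := hyperfilter ℕ with hU
  have hG : ∀ i, ∃ G : StrongDual 𝕜 X, ∀ x,
      Tendsto (fun m => Finsupp.linearCombination 𝕜 c (R (q m) i) x) U (𝓝 (G x)) := fun i =>
    l2_lim U (fun m => Finsupp.linearCombination 𝕜 c (R (q m) i)) fun m x => by
      have := hup (q m) x {i}
      rw [sum_singleton] at this
      exact (pow_le_pow_iff_left₀ (norm_nonneg _) (norm_nonneg _) two_ne_zero).1 this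
  choose G hG using hG
  refine sq_of_l2 G (fun x s => ?_) (c := δ / 9) (by positivity) fun s A => ?_
  · exact le_of_tendsto' (tendsto_finsetSum s fun i _ => (hG i x).norm.pow 2)
      fun m => hup (q m) x s
  · refine (TopologicalSpace.denseRange_denseSeq (ℕ → 𝕜)).induction_on A
      (isClosed_le (by fun_prop) (by fun_prop)) fun j => ?_
    obtain ⟨n, hn⟩ := he (s, j)
    obtain ⟨L', ⟨x, hx, hL'⟩, hqL⟩ := hq n
    rw [hn] at hL'
    have hev : ∀ᶠ m in (U : Filter ℕ), n < m :=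
      (eventually_gt_atTop n).filter_mono Nat.hyperfilter_le_atTop
    have h1 : (δ / 9) ^ 2 * ∑ i ∈ s, ‖a j i‖ ^ 2 ≤ ‖∑ i ∈ s, a j i * G i x‖ ^ 2 :=
      ge_of_tendsto ((tendsto_finsetSum s fun i _ => (hG i x).const_mul (a j i)).norm.pow 2)
        (hev.mono fun m hm => hL' _ (hqL m hm))
    refine h1.trans (pow_le_pow_left₀ (norm_nonneg _) ?_ 2)
    have h2 := (∑ i ∈ s, a j i • G i).le_opNorm x
    simp only [_root_.sum_apply, _root_.smul_apply, smul_eq_mul] at h2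
    exact h2.trans (mul_le_of_le_one_right (norm_nonneg _) hx)

end Crest.Agent.R114
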