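import Crest.Agent.R114.SQ

/-! Row 114 (S0153): strongly normal sequences give separable quotients. -/

set_option autoImplicit false

open Finset

namespace Crest.Agent.R114

variable {𝕜 : Type} [RCLike 𝕜] {X : Type*} [NormedAddCommGroup X] [NormedSpace 𝕜 X]

lemma normal_geom (m : ℕ) : ∑ l ∈ range m, (20 : ℝ) ^ l ≤ 20 ^ m / 19 := by
  induction m with
  | zero => simp
  | succ m ih => rw [sum_range_succ, pow_succ]; linarith

lemma normal_col (f : ℕ → StrongDual 𝕜 X) (x : ℕ → X) (hf : ∀ l, ‖f l‖ ≤ 1)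
    (hx : ∀ m, ‖x m‖ ≤ 3)
    (hoff : ∀ m (s : Finset ℕ), (∀ l ∈ s, m < l) → ∑ l ∈ s, (20 : ℝ) ^ l * ‖f l (x m)‖ ≤ 1 / 4)
    (m : ℕ) (s : Finset ℕ) :
    ∑ l ∈ s, (if m = l then 0 else (20 : ℝ) ^ l * ‖f l (x m)‖) ≤ 20 ^ m / 2 := by
  have h1 := hoff m (s.filter fun l => m < l) fun l hl => (mem_filter.1 hl).2
  have h2 : ∑ l ∈ s.filter (fun l => l < m), (20 : ℝ) ^ l * ‖f l (x m)‖ ≤ 3 * (20 ^ m / 19) := by
    calc ∑ l ∈ s.filter (fun l => l < m), (20 : ℝ) ^ l * ‖f l (x m)‖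
        ≤ ∑ l ∈ s.filter (fun l => l < m), 3 * (20 : ℝ) ^ l := by
          refine sum_le_sum fun l _ => ?_
          have := (f l).le_of_opNorm_le_of_le (hf l) (hx m)
          have h0 : (0 : ℝ) ≤ 20 ^ l := by positivity
          nlinarith
      _ ≤ ∑ l ∈ range m, 3 * (20 : ℝ) ^ l :=
          sum_le_sum_of_subset_of_nonneg (fun l hl => mem_range.2 (mem_filter.1 hl).2)
            fun l _ _ => by positivity
      _ ≤ 3 * (20 ^ m / 19) := by
          rw [← mul_sum]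
          exact mul_le_mul_of_nonneg_left (normal_geom m) (by norm_num)
  have h3 : ∑ l ∈ s, (if m = l then 0 else (20 : ℝ) ^ l * ‖f l (x m)‖) =
      ∑ l ∈ s.filter (fun l => m < l), (20 : ℝ) ^ l * ‖f l (x m)‖ +
        ∑ l ∈ s.filter (fun l => l < m), (20 : ℝ) ^ l * ‖f l (x m)‖ := by
    rw [sum_filter, sum_filter, ← sum_add_distrib]
    refine sum_congr rfl fun l _ => ?_
    rcases lt_trichotomy m l with h | h | h
    · simp [h, h.ne, h.not_gt]
    · simp [h]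
    · simp [h, h.ne', h.not_gt]
  have h4 : (1 : ℝ) ≤ 20 ^ m := one_le_pow₀ (by norm_num)
  linarith

lemma normal_step [CompleteSpace X] (f : ℕ → StrongDual 𝕜 X) (x : ℕ → X) (hf : ∀ l, ‖f l‖ ≤ 1)
    (hx : ∀ m, ‖x m‖ ≤ 3) (hd : ∀ m, f m (x m) = 1)
    (hoff : ∀ m (s : Finset ℕ), (∀ l ∈ s, m < l) → ∑ l ∈ s, (20 : ℝ) ^ l * ‖f l (x m)‖ ≤ 1 / 4)
    (N : ℕ) (y : X) (ρ : ℝ)
    (hy : ∀ s : Finset ℕ, (∀ l ∈ s, N ≤ l) → ∑ l ∈ s, (20 : ℝ) ^ l * ‖f l y‖ ≤ ρ) :
    ∃ y₁, ‖y - y₁‖ ≤ 3 * ρ ∧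
      ∀ s : Finset ℕ, (∀ l ∈ s, N ≤ l) → ∑ l ∈ s, (20 : ℝ) ^ l * ‖f l y₁‖ ≤ ρ / 2 := by
  set c : ℕ → 𝕜 := fun m => if N ≤ m then f m y else 0 with hc
  have hcs : ∀ s : Finset ℕ, ∑ m ∈ s, (20 : ℝ) ^ m * ‖c m‖ ≤ ρ := by
    intro s
    refine le_trans (le_of_eq ?_) (hy (s.filter fun m => N ≤ m) fun l hl => (mem_filter.1 hl).2)
    rw [sum_filter]
    refine sum_congr rfl fun m _ => ?_
    by_cases h : N ≤ m <;> simp [hc, h]
  have hb : ∀ m, ‖c m • x m‖ ≤ 3 * ((20 : ℝ) ^ m * ‖c m‖) := by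
    intro m
    rw [norm_smul]
    have h4 : (1 : ℝ) ≤ 20 ^ m := one_le_pow₀ (by norm_num)
    have h5 := mul_le_mul_of_nonneg_right h4 (norm_nonneg (c m))
    have h6 := mul_le_mul_of_nonneg_left (hx m) (norm_nonneg (c m))
    linarith
  have hs : Summable fun m => c m • x m :=
    Summable.of_norm_bounded ((summable_of_sum_le (fun m => by positivity) hcs).mul_left 3) hb
  have ht : Filter.Tendsto (fun t : Finset ℕ => ∑ m ∈ t, c m • x m) Filter.atTop
      (nhds (∑' m, c m • x m)) := by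
    simpa [HasSum] using hs.hasSum
  refine ⟨y - ∑' m, c m • x m, ?_, fun s hsN => ?_⟩
  · rw [sub_sub_cancel]
    refine le_of_tendsto' ht.norm fun t => ?_
    refine (norm_sum_le_of_le t fun m _ => hb m).trans ?_
    rw [← mul_sum]
    exact mul_le_mul_of_nonneg_left (hcs t) (by norm_num)
  · have hcont : Continuous fun z : X => ∑ l ∈ s, (20 : ℝ) ^ l * ‖f l (y - z)‖ := by fun_prop
    refine le_of_tendsto ((hcont.tendsto _).comp ht) ?_
    filter_upwards [Filter.eventually_ge_atTop s] with t hst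
    have h1 : ∀ l ∈ s, (20 : ℝ) ^ l * ‖f l (y - ∑ m ∈ t, c m • x m)‖ ≤
        ∑ m ∈ t, ‖c m‖ * (if m = l then 0 else (20 : ℝ) ^ l * ‖f l (x m)‖) := by
      intro l hl
      have e : f l (y - ∑ m ∈ t, c m • x m) =
          -∑ m ∈ t, (if m = l then 0 else c m * f l (x m)) := by
        rw [map_sub, map_sum, ← add_sum_erase t _ (hst hl), ← add_sum_erase t _ (hst hl),
          map_smul, hd, if_pos rfl]
        have e1 : c l = f l y := if_pos (hsN l hl)
        have e2 : ∑ m ∈ t.erase l, f l (c m • x m) =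
            ∑ m ∈ t.erase l, (if m = l then 0 else c m * f l (x m)) :=
          sum_congr rfl fun m hm => by
            rw [if_neg (ne_of_mem_erase hm), map_smul, smul_eq_mul]
        rw [e1, e2, smul_eq_mul]
        ring
      rw [e, norm_neg]
      refine (mul_le_mul_of_nonneg_left (norm_sum_le _ _) (by positivity)).trans ?_
      rw [mul_sum]
      refine sum_le_sum fun m _ => ?_
      by_cases h : m = l
      · simp [h]
      · rw [if_neg h, if_neg h, norm_mul]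
        exact le_of_eq (by ring)
    refine (sum_le_sum h1).trans ?_
    rw [sum_comm]
    calc ∑ m ∈ t, ∑ l ∈ s, ‖c m‖ * (if m = l then 0 else (20 : ℝ) ^ l * ‖f l (x m)‖)
        ≤ ∑ m ∈ t, (20 : ℝ) ^ m * ‖c m‖ / 2 := by
          refine sum_le_sum fun m _ => ?_
          rw [← mul_sum]
          refine (mul_le_mul_of_nonneg_left (normal_col f x hf hx hoff m s)
            (norm_nonneg _)).trans (le_of_eq (by ring))
      _ ≤ ρ / 2 := by
          rw [← sum_div]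
          linarith [hcs t]

/-- Iterative solution of an infinite system.  Plan: `ρ y = ∑' l, 20^l ‖f l y‖` restricted to
`l ≥ N` (e.g. reindex `l = N + i`).  One step: `y₁ = y - ∑'_{m ≥ N} f m y • x m` has
`‖y - y₁‖ ≤ 3 ρ y`, and for `l ≥ N`, `f l y₁ = -∑'_{m ≥ N, m ≠ l} f m y * f l (x m)`, so the series
for `y₁` is summable with `ρ y₁ ≤ ρ y / 2`, as for each `m`
`∑_{l ≠ m} 20^l ‖f l (x m)‖ ≤ 3 * 20^m / 19 + 1 / 4 ≤ 20^m / 2` (work in `ℝ≥0∞` and swap the sums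
with `ENNReal.tsum_comm`, or bound finite partial sums).  Iterate; the limit `y'` has
`‖y - y'‖ ≤ 6 ρ y` and `f l y' = 0` for `l ≥ N`. -/
theorem normal_solve [CompleteSpace X] (f : ℕ → StrongDual 𝕜 X) (x : ℕ → X) (hf : ∀ l, ‖f l‖ ≤ 1)
    (hx : ∀ m, ‖x m‖ ≤ 3) (hd : ∀ m, f m (x m) = 1)
    (hoff : ∀ m (s : Finset ℕ), (∀ l ∈ s, m < l) → ∑ l ∈ s, (20 : ℝ) ^ l * ‖f l (x m)‖ ≤ 1 / 4)
    (N : ℕ) (y : X) {ρ : ℝ}
    (hy : ∀ s : Finset ℕ, (∀ l ∈ s, N ≤ l) → ∑ l ∈ s, (20 : ℝ) ^ l * ‖f l y‖ ≤ ρ) :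
    ∃ y', ‖y - y'‖ ≤ 6 * ρ ∧ ∀ l, N ≤ l → f l y' = 0 := by
  choose! F hF using normal_step f x hf hx hd hoff N
  let u : ℕ → X := fun k => Nat.rec y (fun k z => F z (ρ / 2 ^ k)) k
  have hu : ∀ k, u (k + 1) = F (u k) (ρ / 2 ^ k) := fun k => rfl
  have hP : ∀ k, ∀ s : Finset ℕ, (∀ l ∈ s, N ≤ l) →
      ∑ l ∈ s, (20 : ℝ) ^ l * ‖f l (u k)‖ ≤ ρ / 2 ^ k := by
    intro k
    induction k with
    | zero => rw [pow_zero, div_one]; exact hy
    | succ k ih =>
      intro s hs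
      rw [hu, pow_succ, ← div_div]
      exact (hF _ _ ih).2 s hs
  have hdist : ∀ k, dist (u k) (u (k + 1)) ≤ 6 * ρ / 2 / 2 ^ k := by
    intro k
    rw [dist_eq_norm, hu]
    exact (hF _ _ (hP k)).1.trans (le_of_eq (by ring))
  obtain ⟨y', hy'⟩ := cauchySeq_tendsto_of_complete (cauchySeq_of_le_geometric_two hdist)
  refine ⟨y', ?_, fun l hl => ?_⟩
  · have := dist_le_of_le_geometric_two_of_tendsto₀ hdist hy'
    rwa [dist_eq_norm] at this
  · have h1 : Filter.Tendsto (fun k => ‖f l (u k)‖) Filter.atTop (nhds ‖f l y'‖) :=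
      (((f l).continuous.tendsto _).comp hy').norm
    have h2 : Filter.Tendsto (fun k : ℕ => ρ / 2 ^ k) Filter.atTop (nhds 0) :=
      tendsto_const_nhds.div_atTop (tendsto_pow_atTop_atTop_of_one_lt (by norm_num))
    refine norm_le_zero_iff.1 (le_of_tendsto_of_tendsto' h1 h2 fun k => ?_)
    have h3 := hP k {l} (by simpa using hl)
    rw [sum_singleton] at h3
    have h4 : (1 : ℝ) ≤ 20 ^ l := one_le_pow₀ (by norm_num)
    exact (le_mul_of_one_le_left (norm_nonneg _) h4).trans h3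

lemma normal_tail {a : ℕ → ℝ} (ha : Summable a) {ε : ℝ} (hε : 0 < ε) :
    ∃ T, ∀ s : Finset ℕ, (∀ l ∈ s, T ≤ l) → ∑ l ∈ s, a l ≤ ε := by
  obtain ⟨s₀, hs₀⟩ := summable_iff_vanishing_norm.1 ha ε hε
  refine ⟨s₀.sup id + 1, fun s hs => ?_⟩
  refine (le_abs_self _).trans (hs₀ s (disjoint_left.2 fun l hl hl' => ?_)).le
  have h1 := hs l hl
  have h2 : l ≤ s₀.sup id := le_sup (f := id) hl'
  omega

/-- Plan.  `Y` = the dense set (a subspace).  For each `k` there is `x' k ∈ Y` with `‖x' k‖ ≤ 3`,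
`g k (x' k) = 1` (as `‖g k‖ ≥ 1/2`, density, rescale).  Choose `k 0 < k 1 < …` with
`∑_{k ≥ k (m+1)} 20^k ‖g k (x' (k m))‖ ≤ 1/4` (tails of a summable series); `f m = g (k m)`,
`x m = x' (k m)`, and `20^l ≤ 20^(k l)`.  `M N = ⋂_{l ≥ N} ker (f l)` is an increasing chain of
proper closed subspaces, with dense union by `normal_solve` (for `y ∈ Y` the tails tend to zero).
`sq_of_chain`. -/
theorem sq_of_normal [CompleteSpace X] (g : ℕ → StrongDual 𝕜 X) (h1 : ∀ k, 1 / 2 ≤ ‖g k‖)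
    (h2 : ∀ k, ‖g k‖ ≤ 1) (hd : Dense {x : X | Summable fun k => (20 : ℝ) ^ k * ‖g k x‖}) :
    SQ 𝕜 X := by
  have hx' : ∀ k, ∃ z : X, (Summable fun l => (20 : ℝ) ^ l * ‖g l z‖) ∧ ‖z‖ ≤ 3 ∧ g k z = 1 := by
    intro k
    have ho : IsOpen {z : X | ‖z‖ < 1 ∧ 1 / 3 < ‖g k z‖} :=
      (isOpen_lt continuous_norm continuous_const).inter
        (isOpen_lt continuous_const (g k).continuous.norm)
    obtain ⟨z, hz, hz1, hz2⟩ := hd.exists_mem_open ho
      ((g k).exists_lt_apply_of_lt_opNorm (r := 1 / 3) (by linarith [h1 k]))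
    have hp : 0 < ‖g k z‖ := by linarith
    refine ⟨(g k z)⁻¹ • z, ?_, ?_, ?_⟩
    · refine (Summable.mul_left ‖(g k z)⁻¹‖ hz).congr fun l => ?_
      rw [map_smul, norm_smul]
      ring
    · rw [norm_smul, norm_inv, inv_mul_le_iff₀ hp]
      linarith
    · rw [map_smul, smul_eq_mul, inv_mul_cancel₀ (norm_pos_iff.1 hp)]
  choose x' hs hn h1' using hx'
  choose T hT using fun j => normal_tail (hs j) (show (0 : ℝ) < 1 / 4 by norm_num)
  let k : ℕ → ℕ := fun m => Nat.rec 0 (fun _ j => max (T j) (j + 1)) m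
  have hk : ∀ m, k (m + 1) = max (T (k m)) (k m + 1) := fun m => rfl
  have hmono : StrictMono k := strictMono_nat_of_lt_succ fun m => by rw [hk]; omega
  have htr : ∀ (y : X) (T' : ℕ) (ε : ℝ),
      (∀ s : Finset ℕ, (∀ l ∈ s, T' ≤ l) → ∑ l ∈ s, (20 : ℝ) ^ l * ‖g l y‖ ≤ ε) →
      ∀ s : Finset ℕ, (∀ l ∈ s, T' ≤ k l) → ∑ l ∈ s, (20 : ℝ) ^ l * ‖g (k l) y‖ ≤ ε := by
    intro y T' ε h s hs
    have h3 := h (s.image k) fun l hl => by
      obtain ⟨l', hl', rfl⟩ := mem_image.1 hl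
      exact hs l' hl'
    rw [sum_image hmono.injective.injOn] at h3
    refine le_trans (sum_le_sum fun l _ => ?_) h3
    exact mul_le_mul_of_nonneg_right (pow_le_pow_right₀ (by norm_num) (hmono.id_le l))
      (norm_nonneg _)
  have hoff : ∀ m (s : Finset ℕ), (∀ l ∈ s, m < l) →
      ∑ l ∈ s, (20 : ℝ) ^ l * ‖g (k l) (x' (k m))‖ ≤ 1 / 4 := by
    intro m s hs
    refine htr _ _ _ (hT (k m)) s fun l hl => ?_
    have h3 : k (m + 1) ≤ k l := hmono.monotone (hs l hl)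
    rw [hk] at h3
    omega
  let M : ℕ → Submodule 𝕜 X := fun N =>
    { carrier := {z | ∀ l, N ≤ l → g (k l) z = 0}
      add_mem' := fun ha hb l hl => by rw [map_add, ha l hl, hb l hl, add_zero]
      zero_mem' := fun l _ => map_zero _
      smul_mem' := fun c z hz l hl => by rw [map_smul, hz l hl, smul_zero] }
  refine sq_of_chain M (fun N => ?_) (fun N N' h z hz l hl => hz l (h.trans hl)) (fun N h => ?_) ?_
  · have : (M N : Set X) = ⋂ l, ⋂ _ : N ≤ l, {z | g (k l) z = 0} := by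
      ext z
      simp [M]
    rw [this]
    exact isClosed_iInter fun l => isClosed_iInter fun _ =>
      isClosed_eq (g (k l)).continuous continuous_const
  · have h3 : x' (k N) ∈ M N := h ▸ Submodule.mem_top
    exact one_ne_zero ((h1' (k N)).symm.trans (h3 N le_rfl))
  · refine dense_closure.1 (hd.mono fun y hy => ?_)
    rw [Metric.mem_closure_iff]
    intro ε hε
    obtain ⟨N, hN⟩ := normal_tail hy (show 0 < ε / 12 by positivity)
    obtain ⟨y', h3, h4⟩ := normal_solve (fun m => g (k m)) (fun m => x' (k m)) (fun l => h2 _)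
      (fun m => hn _) (fun m => h1' _) hoff N y
      fun s hs => htr y N _ hN s fun l hl => (hs l hl).trans (hmono.id_le l)
    refine ⟨y', Set.mem_iUnion.2 ⟨N, h4⟩, ?_⟩
    rw [dist_eq_norm]
    linarith

end Crest.Agent.R114
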