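import Crest.Agent.R114.Defs

/-! Row 114: existence of the numerical parameters. -/

set_option autoImplicit false

open Finset

namespace Crest.Agent.R114

open Filter in
theorem par_sign (k : ℕ) (K c : ℝ) (hK : 0 ≤ K) (hc : 0 < c) :
    ∀ᶠ N : ℕ in atTop, 4 * (N : ℝ) ^ k * K * ((N : ℝ) ^ k + 1) ^ 2 ≤ Real.exp (N / c) := by
  have h1 : Tendsto (fun N : ℕ => (N : ℝ) / c) atTop atTop :=
    tendsto_natCast_atTop_atTop.atTop_div_const hc
  have h2 := (Real.tendsto_exp_div_pow_atTop (3 * k)).comp h1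
  filter_upwards [h2.eventually_ge_atTop (16 * K * c ^ (3 * k)), eventually_ge_atTop 1]
    with N hN hN1
  have hN1' : (1 : ℝ) ≤ N := by exact_mod_cast hN1
  have h3 : (1 : ℝ) ≤ (N : ℝ) ^ k := one_le_pow₀ hN1'
  simp only [Function.comp] at hN
  rw [le_div_iff₀ (by positivity), div_pow] at hN
  have h4 : 16 * K * c ^ (3 * k) * ((N : ℝ) ^ (3 * k) / c ^ (3 * k))
      = 16 * K * ((N : ℝ) ^ k) ^ 3 := by
    rw [← pow_mul, mul_comm k 3]
    field_simp
  rw [h4] at hN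
  refine le_trans ?_ hN
  set x := (N : ℝ) ^ k
  have h5 : (x + 1) ^ 2 ≤ 4 * x ^ 2 := by nlinarith
  have h6 : 0 ≤ 4 * x * K := by positivity
  have := mul_le_mul_of_nonneg_left h5 h6
  nlinarith

open Filter in
theorem par_step (m : ℕ → ℝ) (hm : ∀ j, 0 < m j) (s : ℕ → ℕ) (j : ℕ) (Q : ℝ) (b : ℕ) :
    ∃ N : ℕ, b ≤ N ∧ (j : ℝ) * m j ≤ N ∧ m j * (5 * (Q + 1) ^ s j) ≤ N ∧
      3 * (((j : ℝ) + 2) * m (j + 1)) ≤ N ∧
      4 * (N : ℝ) ^ s (j + 1) * (⌈((j : ℝ) + 2) * m (j + 1)⌉₊ : ℝ) *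
        ((N : ℝ) ^ s (j + 1) + 1) ^ 2 ≤ Real.exp (N / (8 * (((j : ℝ) + 2) * m (j + 1)) ^ 2)) := by
  have h0 : ∀ r : ℝ, ∀ᶠ N : ℕ in atTop, r ≤ N := fun r =>
    tendsto_natCast_atTop_atTop.eventually_ge_atTop r
  have hc : 0 < 8 * (((j : ℝ) + 2) * m (j + 1)) ^ 2 := by
    have := hm (j + 1)
    positivity
  exact ((eventually_ge_atTop b).and ((h0 _).and ((h0 _).and ((h0 _).and
    (par_sign _ _ _ (Nat.cast_nonneg _) hc))))).exists

/-- Plan.  `m j = 4 * (j + 1)!` (then `m (j+1) = (j+2) * m j`), `s j` any number with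
`m j < 2 ^ s j` (`pow_unbounded_of_one_lt`).  For `n`: for fixed `j` and fixed real `Q ≥ 0` and
natural `b` all sufficiently large `N : ℕ` satisfy `b ≤ N`, `j * m j ≤ N`,
`m j * (5 * (Q + 1) ^ s j) ≤ N`, `3 * ((j+2) * m (j+1)) ≤ N` and the `n_sign` inequality (a
polynomial in `N` is eventually below `exp (N / c)`; e.g. bound the left side by
`K * N ^ (3 * s) ` for `N ≥ 1` and use `Real.tendsto_exp_div_pow_atTop` or
`Real.pow_div_factorial_le_exp`).  Choose `g j Q b` such an `N` and define by recursion the pair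
`(n j, ∑_{l < j} n l)`: `n 0 = g 0 0 0`,
`n (j+1) = g (j+1) (∑_{l ≤ j} n l) (max (n j) (n j ^ s (j+1)))`. -/
theorem exists_par : Nonempty Par := by
  let m : ℕ → ℝ := fun j => 4 * ((j + 1).factorial : ℝ)
  have hm : ∀ j, 0 < m j := fun j => by
    have : (0 : ℝ) < ((j + 1).factorial : ℝ) := by exact_mod_cast Nat.factorial_pos _
    simp only [m]
    positivity
  choose s hs using fun j => pow_unbounded_of_one_lt (m j) (one_lt_two (α := ℝ))
  choose g hg using par_step m hm s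
  let f : ℕ → ℕ × ℝ := fun j => Nat.rec (g 0 0 0, 0)
    (fun j p => (g (j + 1) (p.2 + p.1) (max p.1 (p.1 ^ s (j + 1))), p.2 + p.1)) j
  have f0 : f 0 = (g 0 0 0, 0) := rfl
  have fs : ∀ j, f (j + 1) = (g (j + 1) ((f j).2 + (f j).1) (max (f j).1 ((f j).1 ^ s (j + 1))),
      (f j).2 + (f j).1) := fun j => rfl
  have hQ : ∀ j, (f j).2 = ∑ l ∈ range j, ((f l).1 : ℝ) := by
    intro j
    induction j with
    | zero => simp [f0]
    | succ j ih => rw [sum_range_succ, ← ih, fs]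
  have hn : ∀ j, ∃ b, (f j).1 = g j (f j).2 b := by
    intro j
    cases j with
    | zero => exact ⟨0, rfl⟩
    | succ j => exact ⟨_, rfl⟩
  have hb : ∀ j, max (f j).1 ((f j).1 ^ s (j + 1)) ≤ (f (j + 1)).1 := fun j => (hg _ _ _).1
  refine ⟨⟨m, fun j => (f j).1, s, ?_, ?_, hs, ?_, ?_, ?_, ?_, ?_, ?_⟩⟩
  · simp [m]
  · intro j
    simp only [m]
    rw [Nat.factorial_succ (j + 1)]
    push_cast
    exact le_of_eq (by ring)
  · exact monotone_nat_of_le_succ fun j => (le_max_left _ _).trans (hb j)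
  · intro j
    obtain ⟨b, h⟩ := hn j
    rw [h]; exact (hg _ _ _).2.1
  · exact fun j => (le_max_right _ _).trans (hb j)
  · intro j
    obtain ⟨b, h⟩ := hn j
    rw [← hQ, h]; exact (hg _ _ _).2.2.1
  · intro j
    obtain ⟨b, h⟩ := hn j
    rw [h]; exact (hg _ _ _).2.2.2.1
  · intro j
    obtain ⟨b, h⟩ := hn j
    rw [h]; exact (hg _ _ _).2.2.2.2

end Crest.Agent.R114
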