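import Crest.Prelude.Def_ContinuumRVM
import Crest.Agent.R254.DR

/-! Row 114 (S0153): a total atomless probability measure and random functionals. -/

set_option autoImplicit false

open Finset MeasureTheory

namespace Crest.Agent.R114

/-- A total atomless probability measure admits finite partitions into small pieces. -/
lemma rand_part {Ω : Type} [MeasurableSpace Ω] [DiscreteMeasurableSpace Ω] (μ : Measure Ω)
    [IsProbabilityMeasure μ] (f : Ω → ℝ) (hf : ∀ a, μ (f ⁻¹' {a}) = 0) (δ : ℝ) (hδ : 0 < δ) :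
    ∃ (N : ℕ) (c : Ω → Fin N), ∀ i, μ.real (c ⁻¹' {i}) ≤ δ := by
  classical
  have small : ∀ s : ℕ → Set Ω, Antitone s → μ (⋂ n, s n) = 0 → ∃ n, μ.real (s n) ≤ δ := by
    intro s hs h0
    have h := tendsto_measure_iInter_atTop (μ := μ) (s := s)
      (fun _ => MeasurableSet.of_discrete.nullMeasurableSet) hs ⟨0, measure_ne_top _ _⟩
    rw [h0] at h
    obtain ⟨n, hn⟩ := (h.eventually (ge_mem_nhds (ENNReal.ofReal_pos.mpr hδ))).exists
    exact ⟨n, ENNReal.toReal_le_of_le_ofReal hδ.le hn⟩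
  obtain ⟨n, hn⟩ := small (fun n => {ω | (n : ℝ) < |f ω|})
    (fun a b hab ω hω => lt_of_le_of_lt (Nat.cast_le.mpr hab : (a : ℝ) ≤ b) hω) (by
      have e : (⋂ n : ℕ, {ω | (n : ℝ) < |f ω|}) = ∅ := by
        refine Set.eq_empty_of_forall_notMem fun ω hω => ?_
        obtain ⟨n, hn⟩ := exists_nat_ge |f ω|
        exact absurd (Set.mem_iInter.mp hω n) (not_lt.mpr hn)
      rw [e, measure_empty])
  have hloc : ∀ a : ℝ, ∃ r : ℝ, 0 < r ∧ μ.real (f ⁻¹' Metric.ball a r) ≤ δ := by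
    intro a
    obtain ⟨k, hk⟩ := small (fun k => f ⁻¹' Metric.ball a (1 / ((k : ℝ) + 1)))
      (fun k l hkl => Set.preimage_mono (Metric.ball_subset_ball (Nat.one_div_le_one_div hkl))) (by
        refine measure_mono_null (fun ω hω => ?_) (hf a)
        have h : dist (f ω) a ≤ 0 := by
          refine le_of_forall_pos_le_add fun ε hε => ?_
          obtain ⟨k, hk⟩ := exists_nat_one_div_lt hε
          have h1 : dist (f ω) a < 1 / ((k : ℝ) + 1) := Set.mem_iInter.mp hω k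
          linarith
        exact dist_le_zero.mp h)
    exact ⟨_, by positivity, hk⟩
  choose r hr0 hr using hloc
  obtain ⟨t, ht⟩ := (isCompact_Icc (a := -(n : ℝ)) (b := n)).elim_finite_subcover
    (fun a => Metric.ball a (r a)) (fun _ => Metric.isOpen_ball)
    fun a _ => Set.mem_iUnion.mpr ⟨a, Metric.mem_ball_self (hr0 a)⟩
  let U : Option t → Set Ω := fun o =>
    o.elim {ω | (n : ℝ) < |f ω|} fun a => f ⁻¹' Metric.ball a.1 (r a.1)
  have hU : ∀ o, μ.real (U o) ≤ δ := by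
    rintro (_ | a)
    · exact hn
    · exact hr a.1
  have hcov : ∀ ω, ∃ o, ω ∈ U o := by
    intro ω
    by_cases h : (n : ℝ) < |f ω|
    · exact ⟨none, h⟩
    · obtain ⟨a, ha, h'⟩ := Set.mem_iUnion₂.mp (ht (abs_le.mp (not_lt.mp h)))
      exact ⟨some ⟨a, ha⟩, h'⟩
  choose c hc using hcov
  let e := Fintype.equivFin (Option t)
  refine ⟨_, fun ω => e (c ω), fun i => le_trans (measureReal_mono fun ω hω => ?_) (hU (e.symm i))⟩
  have h : e (c ω) = i := hω
  rw [← h, e.symm_apply_apply]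
  exact hc ω

/-- Plan.  `Ω` a one-field structure wrapping `ℝ` with the `σ`-algebra `⊤`; `μ` by
`Measure.ofMeasurable` (`m ∅ = 0` from additivity over the empty index type; `#ℕ < 𝔠`).  Partition:
the sets `{ω | n < |ω|}` decrease to `∅` and the sets `{ω | |ω - a| < 1 / (n+1)}` decrease to a
singleton, so (`tendsto_measure_iInter_atTop`) they eventually have measure `≤ δ`; compactness of
`[-n, n]` gives a finite cover of `Ω` by sets `U i` of measure `≤ δ`; choose `c ω` with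
`ω ∈ U (c ω)`. -/
theorem exists_total (hc : Crest.AnalysisR.ContinuumRVM) :
    ∃ (Ω : Type) (_ : MeasurableSpace Ω) (_ : DiscreteMeasurableSpace Ω) (μ : Measure Ω),
      IsProbabilityMeasure μ ∧
      ∀ δ : ℝ, 0 < δ → ∃ (N : ℕ) (c : Ω → Fin N), ∀ i, μ.real (c ⁻¹' {i}) ≤ δ := by
  obtain ⟨m, hm1, hm0, hadd⟩ := hc
  have hempty : m ∅ = 0 := by
    have h := hadd Empty (fun _ => ∅)
      (lt_trans (Cardinal.lt_aleph0_of_finite _) Cardinal.aleph0_lt_continuum)
      (fun i => i.elim)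
    simpa using h
  let mΩ : MeasurableSpace ℝ := ⊤
  have dΩ : DiscreteMeasurableSpace ℝ := ⟨fun _ => trivial⟩
  let μ : Measure ℝ := Measure.ofMeasurable (fun s _ => m s) hempty fun f _ hd =>
    hadd ℕ f (by rw [Cardinal.mk_nat]; exact Cardinal.aleph0_lt_continuum) hd
  have hμ : ∀ s, μ s = m s := fun s => Measure.ofMeasurable_apply s trivial
  have hp : IsProbabilityMeasure μ := ⟨by rw [hμ, hm1]⟩
  refine ⟨ℝ, mΩ, dΩ, μ, hp, fun δ hδ => rand_part μ id (fun a => ?_) δ hδ⟩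
  rw [hμ]
  simpa using hm0 a

variable {𝕜 : Type} [RCLike 𝕜] {X : Type*} [NormedAddCommGroup X] [NormedSpace 𝕜 X]

/-- Plan.  `R254.dvoretzky_rogers` for the real normed space `B = StrongDual 𝕜 X`
(infinite-dimensional over `ℝ`, else over `𝕜`, else `X` embeds in a finite-dimensional bidual);
`g i = T (EuclideanSpace.single i 1)`.  For `x`, with `a i = re (g i x)`:
`∑ a i ^ 2 = re (T a x) ≤ ‖a‖ ‖x‖`, so `∑ a i ^ 2 ≤ ‖x‖ ^ 2`; the same for `im`. -/
theorem exists_family (hX : ¬ FiniteDimensional 𝕜 X) (N : ℕ) :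
    ∃ g : Fin N → StrongDual 𝕜 X, (∀ i, 1 / 2 ≤ ‖g i‖ ∧ ‖g i‖ ≤ 1) ∧
      ∀ x, ∑ i, ‖g i x‖ ^ 2 ≤ 2 * ‖x‖ ^ 2 := by
  have hB : ¬ FiniteDimensional ℝ (StrongDual 𝕜 X) := by
    intro h
    have : FiniteDimensional 𝕜 (StrongDual 𝕜 X) :=
      Module.Finite.of_restrictScalars_finite ℝ 𝕜 (StrongDual 𝕜 X)
    have : FiniteDimensional 𝕜 (StrongDual 𝕜 (StrongDual 𝕜 X)) := by
      infer_instance
    refine hX (FiniteDimensional.of_injective (V₂ := StrongDual 𝕜 (StrongDual 𝕜 X))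
      (NormedSpace.inclusionInDoubleDual 𝕜 X : X →ₗ[𝕜] StrongDual 𝕜 (StrongDual 𝕜 X)) ?_)
    exact (NormedSpace.inclusionInDoubleDualLi (E := X) 𝕜).injective
  obtain ⟨T, hT1, hT2⟩ := R254.dvoretzky_rogers (StrongDual 𝕜 X) hB (Fin N)
  refine ⟨fun i => T (EuclideanSpace.single i 1), fun i => ⟨?_, ?_⟩, fun x => ?_⟩
  · have h := hT2 (EuclideanSpace.single i 1) i
    simp only [PiLp.single_apply, if_true, abs_one] at h
    linarith
  · simpa using hT1 (EuclideanSpace.single i 1)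
  · have key : ∀ φ : 𝕜 →L[ℝ] ℝ, (∀ z, φ z ≤ ‖z‖) →
        ∑ i, (φ (T (EuclideanSpace.single i 1) x)) ^ 2 ≤ ‖x‖ ^ 2 := by
      intro φ hφ
      set a : EuclideanSpace ℝ (Fin N) :=
        WithLp.toLp 2 fun i => φ (T (EuclideanSpace.single i 1) x) with ha
      have h1 : a = ∑ i, a i • EuclideanSpace.single i (1 : ℝ) := by
        ext j
        simp [Finset.sum_apply, Pi.single_apply]
      have h2 : φ (T a x) = ∑ i, (φ (T (EuclideanSpace.single i 1) x)) ^ 2 := by
        conv_lhs => rw [h1]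
        simp only [map_sum, map_smul, _root_.sum_apply,
          _root_.smul_apply, smul_eq_mul]
        refine Finset.sum_congr rfl fun i _ => ?_
        rw [sq]
      have h3 : ‖a‖ ^ 2 = ∑ i, (φ (T (EuclideanSpace.single i 1) x)) ^ 2 := by
        rw [EuclideanSpace.norm_sq_eq]
        simp [ha]
      have h4 : φ (T a x) ≤ ‖a‖ * ‖x‖ :=
        (hφ _).trans (((T a).le_opNorm x).trans
          (mul_le_mul_of_nonneg_right (hT1 a) (norm_nonneg _)))
      rw [← h3]
      rw [h2, ← h3] at h4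
      nlinarith [sq_nonneg (‖a‖ - ‖x‖)]
    have h1 := key RCLike.reCLM fun z => RCLike.re_le_norm z
    have h2 := key RCLike.imCLM fun z => RCLike.im_le_norm z
    have h3 : ∑ i, ‖T (EuclideanSpace.single i 1) x‖ ^ 2 =
        ∑ i, (RCLike.reCLM (T (EuclideanSpace.single i 1) x)) ^ 2 +
        ∑ i, (RCLike.imCLM (T (EuclideanSpace.single i 1) x)) ^ 2 := by
      rw [← Finset.sum_add_distrib]
      refine Finset.sum_congr rfl fun i _ => ?_
      rw [RCLike.norm_sq_eq_def, RCLike.reCLM_apply, RCLike.imCLM_apply]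
      ring
    simp only
    linarith

/-- Markov's inequality for a function of the piece of a partition into small pieces. -/
lemma rand_count {Ω : Type} [MeasurableSpace Ω] (μ : Measure Ω) [IsProbabilityMeasure μ] {N : ℕ}
    (c : Ω → Fin N) {δ : ℝ} (hc : ∀ i, μ.real (c ⁻¹' {i}) ≤ δ) (a : Fin N → ℝ) {t B : ℝ}
    (ht : 0 < t) (hB : ∑ i, a i ^ 2 ≤ B) : μ.real {ω | t < a (c ω)} ≤ δ * (B / t ^ 2) := by
  classical
  set s : Finset (Fin N) := univ.filter fun i => t < a i with hs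
  have e : {ω | t < a (c ω)} = ⋃ i ∈ s, c ⁻¹' {i} := by
    ext ω
    simp [hs]
  have h1 : μ.real {ω | t < a (c ω)} ≤ s.card * δ := by
    rw [e]
    refine (measureReal_biUnion_finset_le s _).trans ?_
    simpa using Finset.sum_le_card_nsmul s _ δ fun i _ => hc i
  have h2 : (s.card : ℝ) * t ^ 2 ≤ B := by
    have h3 : s.card • t ^ 2 ≤ ∑ i ∈ s, a i ^ 2 :=
      Finset.card_nsmul_le_sum s _ _ fun i hi =>
        pow_le_pow_left₀ ht.le (Finset.mem_filter.mp hi).2.le 2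
    have h4 : ∑ i ∈ s, a i ^ 2 ≤ ∑ i, a i ^ 2 :=
      Finset.sum_le_sum_of_subset_of_nonneg (Finset.subset_univ _) fun i _ _ => sq_nonneg _
    rw [nsmul_eq_mul] at h3
    linarith
  have h5 : (s.card : ℝ) ≤ B / t ^ 2 := by rwa [le_div_iff₀ (by positivity)]
  rcases isEmpty_or_nonempty (Fin N) with hN | ⟨⟨i⟩⟩
  · have : IsEmpty Ω := ⟨fun ω => hN.elim (c ω)⟩
    exact absurd (measure_univ (μ := μ)) (by simp [Set.eq_empty_of_isEmpty (Set.univ : Set Ω)])
  · have hδ : 0 ≤ δ := measureReal_nonneg.trans (hc i)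
    rw [mul_comm δ]
    exact h1.trans (mul_le_mul_of_nonneg_right h5 hδ)

/-- Plan.  For each `k` take `N k, c k` for `δ = (1 / 1600) ^ k` and `G k` from `exists_family`;
`g ω k = G k (c k ω)`.  For fixed `x`: `∫ ‖g ω k x‖^2 ≤ δ * 2 ‖x‖^2`, so by Markov
`μ {ω | 2⁻¹^k' < …}` is summable: e.g. `μ {ω | (1/30)^k < ‖g ω k x‖} ≤ 2 ‖x‖^2 (900/1600)^k`
(count: this set is the union of the pieces `c k ⁻¹' {i}` over at most `2 ‖x‖^2 900^k` indices `i`);
Borel–Cantelli (`ae_eventually_notMem`) gives summability for almost all `ω`.  The set of pairs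
`(γ, ω)` with summable series is measurable in the product `σ`-algebra: each
`(γ, ω) ↦ ‖G k (c k ω) (x γ)‖` factors through `Γ × Fin (N k)` (`measurable_from_prod_countable_left`
or `_right`), and summability of a nonnegative series means `∑' ofReal … ≠ ⊤`
(`Measurable.ennreal_tsum`).  Swap with `Measure.ae_ae_comm`. -/
theorem exists_random (hX : ¬ FiniteDimensional 𝕜 X) {Ω : Type} [MeasurableSpace Ω]
    [DiscreteMeasurableSpace Ω] (μ : Measure Ω) [IsProbabilityMeasure μ]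
    (hμ : ∀ δ : ℝ, 0 < δ → ∃ (N : ℕ) (c : Ω → Fin N), ∀ i, μ.real (c ⁻¹' {i}) ≤ δ) :
    ∃ g : Ω → ℕ → StrongDual 𝕜 X, (∀ ω k, 1 / 2 ≤ ‖g ω k‖ ∧ ‖g ω k‖ ≤ 1) ∧
      ∀ (Γ : Type) [MeasurableSpace Γ] [DiscreteMeasurableSpace Γ] (ν : Measure Γ)
        [IsProbabilityMeasure ν] (x : Γ → X),
        ∀ᵐ ω ∂μ, ∀ᵐ γ ∂ν, Summable fun k => (20 : ℝ) ^ k * ‖g ω k (x γ)‖ := by
  classical
  choose N c hc using fun k : ℕ => hμ ((1 / 1600) ^ k) (by positivity)
  choose G hG1 hG2 using fun k : ℕ => exists_family hX (N k)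
  refine ⟨fun ω k => G k (c k ω), fun ω k => hG1 k _, fun Γ _ _ ν _ x => ?_⟩
  have hfix : ∀ y : X, ∀ᵐ ω ∂μ, ∀ᶠ k in Filter.atTop, ‖G k (c k ω) y‖ ≤ (1 / 30) ^ k := by
    intro y
    have hb : ∀ k, μ {ω | (1 / 30 : ℝ) ^ k < ‖G k (c k ω) y‖} ≤
        ENNReal.ofReal (2 * ‖y‖ ^ 2 * (9 / 16) ^ k) := by
      intro k
      have h := rand_count μ (c k) (hc k) (fun i => ‖G k i y‖) (by positivity : (0 : ℝ) < (1 / 30) ^ k)
        (hG2 k y)
      rw [← ofReal_measureReal]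
      refine ENNReal.ofReal_le_ofReal (h.trans (le_of_eq ?_))
      rw [← pow_mul, mul_comm k 2, pow_mul, mul_div_assoc', mul_comm ((1 / 1600 : ℝ) ^ k),
        mul_div_assoc, ← div_pow]
      norm_num
    have hs : ∑' k, μ {ω | (1 / 30 : ℝ) ^ k < ‖G k (c k ω) y‖} ≠ ⊤ := by
      refine ne_top_of_le_ne_top ?_ (ENNReal.tsum_le_tsum hb)
      rw [← ENNReal.ofReal_tsum_of_nonneg (fun k => by positivity)
        ((summable_geometric_of_lt_one (by norm_num) (by norm_num)).mul_left _)]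
      exact ENNReal.ofReal_ne_top
    filter_upwards [ae_eventually_notMem hs] with ω hω
    filter_upwards [hω] with k hk
    exact not_lt.mp hk
  have hmeas : MeasurableSet {p : Ω × Γ |
      ∀ᶠ k in Filter.atTop, ‖G k (c k p.1) (x p.2)‖ ≤ (1 / 30) ^ k} := by
    have e : {p : Ω × Γ | ∀ᶠ k in Filter.atTop, ‖G k (c k p.1) (x p.2)‖ ≤ (1 / 30) ^ k} =
        ⋃ n : ℕ, ⋂ k : ℕ, ⋂ _ : n ≤ k, ⋃ i : Fin (N k),
          (c k ⁻¹' {i}) ×ˢ {γ | ‖G k i (x γ)‖ ≤ (1 / 30) ^ k} := by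
      ext p
      simp [Filter.eventually_atTop]
    rw [e]
    exact MeasurableSet.iUnion fun n => MeasurableSet.iInter fun k => MeasurableSet.iInter fun _ =>
      MeasurableSet.iUnion fun i => MeasurableSet.of_discrete.prod MeasurableSet.of_discrete
  have hswap := (Measure.ae_ae_comm (μ := μ) (ν := ν)
    (p := fun ω γ => ∀ᶠ k in Filter.atTop, ‖G k (c k ω) (x γ)‖ ≤ (1 / 30) ^ k) hmeas).mpr
    (Filter.Eventually.of_forall fun γ => hfix (x γ))
  filter_upwards [hswap] with ω hω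
  filter_upwards [hω] with γ hγ
  refine Summable.of_norm_bounded_eventually_nat
    (summable_geometric_of_lt_one (r := 2 / 3) (by norm_num) (by norm_num)) ?_
  filter_upwards [hγ] with k hk
  rw [Real.norm_of_nonneg (by positivity)]
  calc (20 : ℝ) ^ k * ‖G k (c k ω) (x γ)‖ ≤ 20 ^ k * (1 / 30) ^ k := by gcongr
    _ = (2 / 3) ^ k := by rw [← mul_pow]; norm_num

end Crest.Agent.R114
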