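import Crest.Agent.R114.Defs

/-! Row 114 (S0153): classical criteria for separable quotients. -/

set_option autoImplicit false

open Finset

namespace Crest.Agent.R114

variable {𝕜 : Type} [RCLike 𝕜] {X : Type*} [NormedAddCommGroup X] [NormedSpace 𝕜 X]

/-- Saxon–Wilansky.  Plan: for each `n` there are (Hahn–Banach, density of the union) `f ∈ X*`
vanishing on `M n`, `n' > n` and `x ∈ M n'` with `f x = 1`.  Iterate: `n 0 < n 1 < …`, `f i = 0` on
`M (n i)`, `x i ∈ M (n (i+1))`, `f i (x i) = 1`, so `f i (x l) = 0` for `l < i`.  Let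
`N = ⋂ ker (f i)`.  Every `y ∈ M (n i)` lies in `span {x l} + N` (induction on `i`, for all `y` with
`f l y = 0` for `l ≥ i`: subtract `f (i-1) y • x (i-1)`), so the classes of the `x l` have dense
span in `X ⧸ N` (separable: `TopologicalSpace.IsSeparable.span`); they are linearly independent
(apply `f i`, `i` the largest index with nonzero coefficient). -/
theorem sq_of_chain (M : ℕ → Submodule 𝕜 X) (hc : ∀ n, IsClosed (M n : Set X)) (hm : Monotone M)
    (hp : ∀ n, M n ≠ ⊤) (hd : Dense (⋃ n, (M n : Set X))) : SQ 𝕜 X := by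
  have step : ∀ n, ∃ f : StrongDual 𝕜 X, (∀ y ∈ M n, f y = 0) ∧
      ∃ n', n < n' ∧ ∃ x ∈ M n', f x = 1 := by
    intro n
    have := hc n
    obtain ⟨z, hz⟩ : ∃ z, z ∉ M n := by
      by_contra h
      exact hp n (Submodule.eq_top_iff'.2 fun z => not_not.1 fun h' => h ⟨z, h'⟩)
    have hz' : (M n).mkQ z ≠ 0 := fun h => hz ((Submodule.Quotient.mk_eq_zero _).1 h)
    obtain ⟨g, hg⟩ := SeparatingDual.exists_ne_zero (R := 𝕜) hz'
    obtain ⟨f, hf⟩ : ∃ f : StrongDual 𝕜 X, ∀ y, f y = g ((M n).mkQ y) :=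
      ⟨g.comp (M n).mkQL, fun _ => rfl⟩
    have ho : IsOpen {x | f x ≠ 0} := isOpen_ne_fun f.continuous continuous_const
    obtain ⟨x, hx1, hx2⟩ := hd.inter_open_nonempty _ ho ⟨z, by simpa [hf] using hg⟩
    obtain ⟨k, hk⟩ := Set.mem_iUnion.1 hx2
    have hx1' : f x ≠ 0 := hx1
    refine ⟨(f x)⁻¹ • f, fun y hy => ?_, max k n + 1, by omega, x, hm (by omega) hk, ?_⟩
    · have h1 : (M n).mkQ y = 0 := (Submodule.Quotient.mk_eq_zero _).2 hy
      have h2 : f y = 0 := by rw [hf, h1, map_zero]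
      simp [h2]
    · simp [hx1']
  choose f hf nx hnx x hx hfx using step
  obtain ⟨n, hn⟩ : ∃ n : ℕ → ℕ, ∀ i, n (i + 1) = nx (n i) :=
    ⟨fun i => nx^[i] 0, fun i => Function.iterate_succ_apply' _ _ _⟩
  have hmono : StrictMono n := strictMono_nat_of_lt_succ fun i => by rw [hn]; exact hnx _
  have hlt : ∀ i l, l < i → f (n i) (x (n l)) = 0 := fun i l h =>
    hf _ _ (hm (by rw [← hn]; exact hmono.monotone h) (hx (n l)))
  obtain ⟨N, hN⟩ : ∃ N : Submodule 𝕜 X, ∀ z, z ∈ N ↔ ∀ i, f (n i) z = 0 :=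
    ⟨⨅ i, (f (n i)).ker, fun z => by simp⟩
  have hNc : IsClosed (N : Set X) := by
    have : (N : Set X) = ⋂ i, {z | f (n i) z = 0} := by
      ext z
      simp [hN]
    rw [this]
    exact isClosed_iInter fun i => isClosed_eq (f (n i)).continuous continuous_const
  have hspan : ∀ i z, (∀ l, i ≤ l → f (n l) z = 0) →
      N.mkQ z ∈ Submodule.span 𝕜 (Set.range fun l => N.mkQ (x (n l))) := by
    intro i
    induction i with
    | zero =>
      intro z hz
      have : N.mkQ z = 0 := (Submodule.Quotient.mk_eq_zero _).2 ((hN z).2 fun l => hz l zero_le)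
      rw [this]
      exact zero_mem _
    | succ i ih =>
      intro z hz
      have h1 := ih (z - f (n i) z • x (n i)) fun l hl => by
        rcases hl.eq_or_lt with rfl | h
        · simp [hfx]
        · simp [hz l h, hlt l i h]
      have h2 : N.mkQ z = N.mkQ (z - f (n i) z • x (n i)) + f (n i) z • N.mkQ (x (n i)) := by
        rw [map_sub, map_smul, sub_add_cancel]
      rw [h2]
      exact add_mem h1 (Submodule.smul_mem _ _ (Submodule.subset_span ⟨i, rfl⟩))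
  refine ⟨N, hNc, ?_, fun hfd => ?_⟩
  · have h1 : Dense (N.mkQ '' ⋃ n, (M n : Set X)) :=
      N.mkQ_surjective.denseRange.dense_image N.mkQL.continuous hd
    have h2 : Dense (Submodule.span 𝕜 (Set.range fun l => N.mkQ (x (n l))) : Set (X ⧸ N)) := by
      refine h1.mono ?_
      rintro _ ⟨z, hz, rfl⟩
      obtain ⟨k, hk⟩ := Set.mem_iUnion.1 hz
      exact hspan k z fun l hl => hf _ _ (hm (hl.trans (hmono.id_le l)) hk)
    have h3 := ((Set.countable_range fun l => N.mkQ (x (n l))).isSeparable.span (R := 𝕜)).closure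
    rw [h2.closure_eq] at h3
    exact TopologicalSpace.isSeparable_univ_iff.1 h3
  · refine Module.Finite.not_linearIndependent_of_infinite (R := 𝕜)
      (fun l => N.mkQ (x (n l))) (linearIndependent_iff'.2 fun s g hg => ?_)
    have h1 : ∑ l ∈ s, g l • x (n l) ∈ N := by
      refine (Submodule.Quotient.mk_eq_zero _).1 ?_
      rw [← hg, ← Submodule.mkQ_apply, map_sum]
      simp only [map_smul]
    by_contra hcon
    push Not at hcon
    classical
    have hne : (s.filter fun l => g l ≠ 0).Nonempty := by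
      obtain ⟨i, hi, hi'⟩ := hcon
      exact ⟨i, mem_filter.2 ⟨hi, hi'⟩⟩
    obtain ⟨i, hi, hmax⟩ := exists_max_image _ id hne
    obtain ⟨hi1, hi2⟩ := mem_filter.1 hi
    have h2 := (hN _).1 h1 i
    rw [map_sum, sum_eq_single_of_mem i hi1 fun l hl hli => ?_] at h2
    · exact hi2 (by simpa [hfx] using h2)
    · rcases lt_or_gt_of_ne hli with h | h
      · simp [hlt i l h]
      · have h3 : g l = 0 := by
          by_contra h4
          exact absurd (hmax l (mem_filter.2 ⟨hl, h4⟩)) (not_le.2 h)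
        simp [h3]

theorem sq_ball {W : Type*} [NormedAddCommGroup W] [NormedSpace 𝕜 W]
    (T : X →L[𝕜] W) {c : ℝ} (hc : 0 < c) (h : ∀ ψ : StrongDual 𝕜 W, ‖ψ‖ ≤ c * ‖ψ.comp T‖)
    {y : W} (hy : ‖y‖ ≤ 1) : y ∈ closure (T '' Metric.closedBall 0 c) := by
  let _ : NormedSpace ℝ W := NormedSpace.restrictScalars ℝ 𝕜 W
  let _ : NormedSpace ℝ X := NormedSpace.restrictScalars ℝ 𝕜 X
  have : IsScalarTower ℝ 𝕜 W := IsScalarTower.restrictScalars ℝ 𝕜 W
  have : IsScalarTower ℝ 𝕜 X := IsScalarTower.restrictScalars ℝ 𝕜 X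
  by_contra hcon
  have hconv : Convex ℝ (closure (T '' Metric.closedBall 0 c)) :=
    ((convex_closedBall (0 : X) c).linear_image (T.restrictScalars ℝ).toLinearMap).closure
  obtain ⟨ψ, u, h1, h2⟩ := RCLike.geometric_hahn_banach_closed_point (𝕜 := 𝕜) hconv
    isClosed_closure hcon
  have h3 : ∀ x : X, ‖x‖ ≤ c → ‖ψ (T x)‖ < u := fun x hx => by
    obtain ⟨a, ha, ha'⟩ := RCLike.exists_norm_eq_mul_self (ψ (T x))
    have h4 := h1 (T (a • x)) (subset_closure ⟨a • x, by simpa [norm_smul, ha] using hx, rfl⟩)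
    rwa [map_smul, map_smul, smul_eq_mul, ← ha', RCLike.ofReal_re] at h4
  have hu : 0 ≤ u := (norm_nonneg _).trans (h3 0 (by simpa using hc.le)).le
  have h5 : ‖ψ.comp T‖ ≤ u / c := by
    refine ContinuousLinearMap.opNorm_le_bound' _ (by positivity) fun x hx => ?_
    have hx0 : 0 < ‖x‖ := (norm_nonneg _).lt_of_ne' hx
    have h6 : ‖((c / ‖x‖ : ℝ) : 𝕜)‖ = c / ‖x‖ := by
      rw [RCLike.norm_ofReal, abs_of_pos (by positivity)]
    have h7 := h3 (((c / ‖x‖ : ℝ) : 𝕜) • x) (by rw [norm_smul, h6, div_mul_cancel₀ _ hx])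
    rw [map_smul, map_smul, norm_smul, h6, div_mul_eq_mul_div, div_lt_iff₀ hx0] at h7
    rw [div_mul_eq_mul_div, le_div_iff₀ hc, mul_comm]
    exact h7.le
  have h8 : c * ‖ψ.comp T‖ ≤ u := by rwa [le_div_iff₀ hc, mul_comm] at h5
  have h9 : RCLike.re (ψ y) ≤ ‖ψ‖ :=
    (RCLike.re_le_norm _).trans ((ψ.le_opNorm y).trans (mul_le_of_le_one_right (norm_nonneg _) hy))
  linarith [h ψ]

theorem sq_approx {W : Type*} [NormedAddCommGroup W] [NormedSpace 𝕜 W]
    (T : X →L[𝕜] W) {c : ℝ} (hc : 0 < c) (h : ∀ ψ : StrongDual 𝕜 W, ‖ψ‖ ≤ c * ‖ψ.comp T‖)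
    (y : W) : ∃ x, ‖y - T x‖ ≤ 1 / 2 * ‖y‖ ∧ ‖x‖ ≤ c * ‖y‖ := by
  rcases eq_or_ne y 0 with rfl | hy
  · exact ⟨0, by simp, by simp⟩
  have hy0 : 0 < ‖y‖ := norm_pos_iff.2 hy
  have hy1 : ((‖y‖ : ℝ) : 𝕜) ≠ 0 := by exact_mod_cast hy0.ne'
  have h1 : ‖((‖y‖ : ℝ) : 𝕜)⁻¹ • y‖ ≤ 1 := by
    rw [norm_smul, norm_inv, RCLike.norm_ofReal, abs_norm, inv_mul_cancel₀ hy0.ne']
  obtain ⟨_, ⟨x, hx, rfl⟩, h2⟩ := Metric.mem_closure_iff.1 (sq_ball T hc h h1) (1 / 2) (by norm_num)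
  rw [mem_closedBall_zero_iff] at hx
  rw [dist_eq_norm] at h2
  refine ⟨((‖y‖ : ℝ) : 𝕜) • x, ?_, ?_⟩
  · have h3 : y - T (((‖y‖ : ℝ) : 𝕜) • x) = ((‖y‖ : ℝ) : 𝕜) • (((‖y‖ : ℝ) : 𝕜)⁻¹ • y - T x) := by
      rw [smul_sub, smul_inv_smul₀ hy1, map_smul]
    rw [h3, norm_smul, RCLike.norm_ofReal, abs_norm, mul_comm]
    exact mul_le_mul_of_nonneg_right h2.le hy0.le
  · rw [norm_smul, RCLike.norm_ofReal, abs_norm, mul_comm]
    exact mul_le_mul_of_nonneg_right hx hy0.le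

theorem sq_surj_of_approx [CompleteSpace X] {W : Type*} [NormedAddCommGroup W] [NormedSpace 𝕜 W]
    (f : X →L[𝕜] W) {C : ℝ} (C0 : 0 ≤ C)
    (hC : ∀ y, ∃ x, ‖y - f x‖ ≤ 1 / 2 * ‖y‖ ∧ ‖x‖ ≤ C * ‖y‖) : Function.Surjective f := by
  choose g hg using hC
  let h y := y - f (g y)
  have hle : ∀ y, ‖h y‖ ≤ 1 / 2 * ‖y‖ := fun y => (hg y).1
  intro y
  have hnle : ∀ n : ℕ, ‖h^[n] y‖ ≤ (1 / 2) ^ n * ‖y‖ := by
    intro n
    induction n with
    | zero => simp
    | succ n IH =>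
      rw [Function.iterate_succ']
      apply le_trans (hle _) _
      rw [pow_succ', mul_assoc]
      gcongr
  let u n := g (h^[n] y)
  have ule : ∀ n, ‖u n‖ ≤ (1 / 2) ^ n * (C * ‖y‖) := fun n => by
    apply le_trans (hg _).2
    calc
      C * ‖h^[n] y‖ ≤ C * ((1 / 2) ^ n * ‖y‖) := by gcongr; exact hnle n
      _ = (1 / 2) ^ n * (C * ‖y‖) := by ring
  have sNu : Summable fun n => ‖u n‖ := by
    refine .of_nonneg_of_le (fun n => norm_nonneg _) ule ?_
    exact Summable.mul_right _ (summable_geometric_of_lt_one (by simp) (by norm_num))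
  have su : Summable u := sNu.of_norm
  have fsumeq : ∀ n : ℕ, f (∑ i ∈ Finset.range n, u i) = y - h^[n] y := by
    intro n
    induction n with
    | zero => simp
    | succ n IH => rw [sum_range_succ, f.map_add, IH, Function.iterate_succ_apply', sub_add]
  have L₁ : Filter.Tendsto (fun n => f (∑ i ∈ Finset.range n, u i)) Filter.atTop
      (nhds (f (tsum u))) := (f.continuous.tendsto _).comp su.hasSum.tendsto_sum_nat
  simp only [fsumeq] at L₁
  have L₂ : Filter.Tendsto (fun n => y - h^[n] y) Filter.atTop (nhds (y - 0)) := by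
    refine tendsto_const_nhds.sub ?_
    rw [tendsto_iff_norm_sub_tendsto_zero]
    simp only [sub_zero]
    refine squeeze_zero (fun _ => norm_nonneg _) hnle ?_
    rw [← zero_mul ‖y‖]
    refine (tendsto_pow_atTop_nhds_zero_of_lt_one ?_ ?_).mul tendsto_const_nhds <;> norm_num
  exact ⟨tsum u, by simpa using tendsto_nhds_unique L₁ L₂⟩

/-- Plan.  With `c = max C 1`, `K = closure (T '' closedBall 0 c)` is closed and convex and
contains the closed unit ball: otherwise `RCLike.geometric_hahn_banach_closed_point` gives `ψ, u`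
with `re (ψ a) < u < re (ψ y)` on `K`, so `c * ‖ψ ∘ T‖ ≤ u < ‖ψ‖ ≤ C * ‖ψ ∘ T‖` (rotate by unimodular
scalars).  Hence for each `y` there is `x` with `‖x‖ ≤ c ‖y‖`, `‖y - T x‖ ≤ ‖y‖ / 2`; iterate and
sum the geometric series (as in `ContinuousLinearMap.exists_preimage_norm_le`). -/
theorem surj_of_dual_bound [CompleteSpace X] {W : Type*} [NormedAddCommGroup W] [NormedSpace 𝕜 W]
    (T : X →L[𝕜] W) (C : ℝ) (h : ∀ ψ : StrongDual 𝕜 W, ‖ψ‖ ≤ C * ‖ψ.comp T‖) :
    Function.Surjective T := by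
  obtain ⟨c, hc⟩ : ∃ c : ℝ, c = max C 1 := ⟨_, rfl⟩
  have hc0 : 0 < c := by rw [hc]; exact lt_max_of_lt_right one_pos
  have h' : ∀ ψ : StrongDual 𝕜 W, ‖ψ‖ ≤ c * ‖ψ.comp T‖ := fun ψ =>
    (h ψ).trans (mul_le_mul_of_nonneg_right (by rw [hc]; exact le_max_left _ _) (norm_nonneg _))
  exact sq_surj_of_approx T hc0.le (sq_approx T hc0 h')

/-- The quotient by the kernel is isomorphic to `W` (open mapping theorem). -/
theorem sq_of_surj [CompleteSpace X] {W : Type*} [NormedAddCommGroup W] [NormedSpace 𝕜 W]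
    [CompleteSpace W] [TopologicalSpace.SeparableSpace W] (hW : ¬ FiniteDimensional 𝕜 W)
    (T : X →L[𝕜] W) (hT : Function.Surjective T) : SQ 𝕜 X := by
  have hcl : IsClosed (T.ker : Set X) := T.isClosed_ker
  let L : (X ⧸ T.ker) →L[𝕜] W := T.ker.liftQL T le_rfl
  have h1 : L.ker = ⊥ := Submodule.ker_liftQ_eq_bot _ _ _ le_rfl
  have h2 : L.range = ⊤ := by
    rw [LinearMap.range_eq_top]
    intro w
    obtain ⟨x, rfl⟩ := hT w
    exact ⟨T.ker.mkQ x, rfl⟩
  let e := ContinuousLinearEquiv.ofBijective L h1 h2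
  exact ⟨T.ker, hcl, e.symm.surjective.denseRange.separableSpace e.symm.continuous,
    fun hfd => hW e.toLinearEquiv.finiteDimensional⟩

/-- Plan.  `W` = closed span of the `e k` (complete, separable, infinite-dimensional), `T'` the
corestriction.  For `ψ ∈ W*` take a Hahn–Banach extension `Ψ ∈ V*`; `Ψ ∘ T = ψ ∘ T'`, so by density
`‖ψ‖ ≤ |C| * ‖ψ ∘ T'‖`; `surj_of_dual_bound`, `sq_of_surj`. -/
theorem sq_of_span [CompleteSpace X] {V : Type*} [NormedAddCommGroup V] [NormedSpace 𝕜 V]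
    [CompleteSpace V] (T : X →L[𝕜] V) (e : ℕ → V) (he : LinearIndependent 𝕜 e)
    (hT : ∀ x, T x ∈ (Submodule.span 𝕜 (Set.range e)).topologicalClosure) (C : ℝ)
    (h : ∀ Ψ : StrongDual 𝕜 V, ∀ v ∈ Submodule.span 𝕜 (Set.range e),
      ‖Ψ v‖ ≤ C * ‖Ψ.comp T‖ * ‖v‖) : SQ 𝕜 X := by
  obtain ⟨W, hW⟩ : ∃ W, W = (Submodule.span 𝕜 (Set.range e)).topologicalClosure := ⟨_, rfl⟩
  have hWc : (W : Set V) = closure (Submodule.span 𝕜 (Set.range e) : Set V) := by
    rw [hW]; rfl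
  have : CompleteSpace W := by rw [hW]; infer_instance
  have : TopologicalSpace.SeparableSpace W := by
    have h1 := ((Set.countable_range e).isSeparable.span (R := 𝕜)).closure
    rw [← hWc] at h1
    exact h1.separableSpace
  have heW : ∀ k, e k ∈ W := fun k => by
    rw [hW]
    exact Submodule.le_topologicalClosure _ (Submodule.subset_span ⟨k, rfl⟩)
  have hfd : ¬ FiniteDimensional 𝕜 W := fun hfd =>
    Module.Finite.not_linearIndependent_of_infinite (R := 𝕜) (fun k => (⟨e k, heW k⟩ : W))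
      (LinearIndependent.of_comp W.subtype he)
  rw [← hW] at hT
  refine sq_of_surj hfd (T.codRestrict W hT) (surj_of_dual_bound _ |C| fun ψ => ?_)
  obtain ⟨Ψ, hΨ, -⟩ := exists_extension_norm_eq W ψ
  have h1 : ψ.comp (T.codRestrict W hT) = Ψ.comp T := by
    ext x
    exact (hΨ _).symm
  rw [h1]
  refine ψ.opNorm_le_bound (by positivity) fun w => ?_
  have h2 : IsClosed {v : V | ‖Ψ v‖ ≤ |C| * ‖Ψ.comp T‖ * ‖v‖} :=
    isClosed_le (by fun_prop) (by fun_prop)
  have h3 : (W : Set V) ⊆ {v : V | ‖Ψ v‖ ≤ |C| * ‖Ψ.comp T‖ * ‖v‖} := by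
    rw [hWc]
    refine closure_minimal (fun v hv => (h Ψ v hv).trans ?_) h2
    gcongr
    exact le_abs_self C
  rw [← hΨ]
  exact h3 w.2

/-- A sequence of functionals equivalent to the basis of `ℓ₂`.  Plan: `T x = (G i x)_i` in
`W = lp (fun _ : ℕ => 𝕜) 2`, `‖T x‖ ≤ ‖x‖`.  For `ψ ∈ W*` let `A i = ψ (lp.single 2 i 1)`
(`InnerProductSpace.toDual`: `ψ = ⟪y, ·⟫`, `A i = conj (y i)`, `‖ψ‖ = ‖y‖`).  By Cauchy–Schwarz and
`hup`, `‖ψ ∘ T - ∑_{i<n} A i • G i‖ ≤ (∑_{i ≥ n} ‖A i‖^2)^(1/2) → 0`, and `hlow` gives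
`c ‖y‖ ≤ ‖ψ ∘ T‖` in the limit.  `surj_of_dual_bound`, `sq_of_surj`. -/
theorem sq_of_l2 [CompleteSpace X] (G : ℕ → StrongDual 𝕜 X)
    (hup : ∀ (x : X) (s : Finset ℕ), ∑ i ∈ s, ‖G i x‖ ^ 2 ≤ ‖x‖ ^ 2) {c : ℝ} (hc : 0 < c)
    (hlow : ∀ (s : Finset ℕ) (A : ℕ → 𝕜), c ^ 2 * ∑ i ∈ s, ‖A i‖ ^ 2 ≤ ‖∑ i ∈ s, A i • G i‖ ^ 2) :
    SQ 𝕜 X := by
  have h2 : (2 : ENNReal).toReal = ((2 : ℕ) : ℝ) := by simp
  have h2' : 0 < (2 : ENNReal).toReal := by simp
  have hup' : ∀ (x : X) (s : Finset ℕ),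
      ∑ i ∈ s, ‖G i x‖ ^ (2 : ENNReal).toReal ≤ ‖x‖ ^ (2 : ENNReal).toReal := fun x s => by
    simp only [h2, Real.rpow_natCast]
    exact hup x s
  obtain ⟨T, hT⟩ : ∃ T : X →L[𝕜] lp (fun _ : ℕ => 𝕜) 2, ∀ x i, T x i = G i x :=
    ⟨LinearMap.mkContinuous
      { toFun := fun x => ⟨fun i => G i x, memℓp_gen' (hup' x)⟩
        map_add' := fun x y => by ext i; exact (G i).map_add x y
        map_smul' := fun a x => by ext i; simp } 1 fun x => by
        rw [one_mul]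
        exact lp.norm_le_of_forall_sum_le h2' (norm_nonneg _) (hup' x), fun _ _ => rfl⟩
  have hkey : ∀ y : lp (fun _ : ℕ => 𝕜) 2, c * ‖y‖ ≤ ‖(innerSL 𝕜 y).comp T‖ := by
    intro y
    have hcl : IsClosed {y : lp (fun _ : ℕ => 𝕜) 2 | c * ‖y‖ ≤ ‖(innerSL 𝕜 y).comp T‖} :=
      isClosed_le (by fun_prop) (((innerSL 𝕜).continuous.clm_comp continuous_const).norm)
    refine hcl.mem_of_tendsto (lp.hasSum_single (by simp) y)
      (Filter.Eventually.of_forall fun s => ?_)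
    have h3 := lp.norm_sum_single h2' (fun i => y i) s
    simp only [h2, Real.rpow_natCast] at h3
    have h4 : (innerSL 𝕜 (∑ i ∈ s, lp.single 2 i (y i) : lp (fun _ : ℕ => 𝕜) 2)).comp T
        = ∑ i ∈ s, (starRingEnd 𝕜) (y i) • G i := by
      ext x
      simp [lp.inner_single_left, hT, mul_comm]
    have h5 := hlow s fun i => (starRingEnd 𝕜) (y i)
    simp only [RCLike.norm_conj] at h5
    rw [← h3, ← h4, ← mul_pow] at h5
    exact (pow_le_pow_iff_left₀ (by positivity) (norm_nonneg _) two_ne_zero).1 h5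
  have horth : Orthonormal 𝕜 fun i : ℕ => (lp.single 2 i (1 : 𝕜) : lp (fun _ : ℕ => 𝕜) 2) := by
    rw [orthonormal_iff_ite]
    intro i j
    rw [lp.inner_single_left, lp.single_apply, Pi.single_apply]
    simp
  refine sq_of_span T _ horth.linearIndependent (fun x => ?_) c⁻¹ fun Ψ v _ => ?_
  · refine mem_closure_of_tendsto (lp.hasSum_single (by simp) (T x))
      (Filter.Eventually.of_forall fun s => Submodule.sum_mem _ fun i _ => ?_)
    have h3 : (lp.single 2 i (T x i) : lp (fun _ : ℕ => 𝕜) 2) = T x i • lp.single 2 i (1 : 𝕜) := by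
      rw [← lp.single_smul, smul_eq_mul, mul_one]
    rw [h3]
    exact Submodule.smul_mem _ _ (Submodule.subset_span ⟨i, rfl⟩)
  · obtain ⟨y, rfl⟩ := (InnerProductSpace.toDual 𝕜 (lp (fun _ : ℕ => 𝕜) 2)).surjective Ψ
    refine (ContinuousLinearMap.le_opNorm _ _).trans
      (mul_le_mul_of_nonneg_right ?_ (norm_nonneg _))
    rw [LinearIsometryEquiv.norm_map, inv_mul_eq_div, le_div_iff₀ hc, mul_comm]
    exact hkey y

end Crest.Agent.R114
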