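import Crest.Agent.R114.Normal
import Crest.Agent.R114.Rand
import Crest.Agent.R114.Free

/-! Row 114 (S0153): a strongly unconditional sequence of functionals. -/

set_option autoImplicit false

open Finset MeasureTheory

namespace Crest.Agent.R114

variable {𝕜 : Type} [RCLike 𝕜] {X : Type*} [NormedAddCommGroup X] [NormedSpace 𝕜 X]

theorem su_exists_annih (Y : Submodule 𝕜 X) (hY : ¬ Dense (Y : Set X)) :
    ∃ h : StrongDual 𝕜 X, ‖h‖ = 1 ∧ ∀ x ∈ Y, h x = 0 := by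
  obtain ⟨x, hx⟩ : ∃ x, x ∉ Y.topologicalClosure := by
    by_contra hc
    push Not at hc
    exact hY hc
  have : IsClosed (Y.topologicalClosure : Set X) := Y.isClosed_topologicalClosure
  obtain ⟨f, hf⟩ := SeparatingDual.exists_ne_zero (R := 𝕜) (x := Y.topologicalClosure.mkQ x)
    (by rwa [Ne, Submodule.mkQ_apply, Submodule.Quotient.mk_eq_zero])
  set g : StrongDual 𝕜 X := f.comp Y.topologicalClosure.mkQL with hg
  have hg0 : g ≠ 0 := fun e => hf (by simpa [hg] using DFunLike.congr_fun e x)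
  refine ⟨((‖g‖ : 𝕜))⁻¹ • g, norm_smul_inv_norm hg0, fun y hy => ?_⟩
  have : Y.topologicalClosure.mkQ y = 0 :=
    (Submodule.Quotient.mk_eq_zero _).2 (Y.le_topologicalClosure hy)
  have e : g y = 0 := by
    change f (Y.topologicalClosure.mkQ y) = 0
    rw [this, map_zero]
  simp [e]

theorem su_exists_nv (φ : StrongDual 𝕜 X) : ∃ x : X, ‖x‖ ≤ 1 ∧ ‖φ‖ ≤ 3 / 2 * ‖φ x‖ := by
  rcases (norm_nonneg φ).eq_or_lt with h | h
  · exact ⟨0, by simp, by simp [← h]⟩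
  · obtain ⟨x, hx, hx'⟩ := φ.exists_lt_apply_of_lt_opNorm (r := 2 / 3 * ‖φ‖) (by linarith)
    exact ⟨x, hx.le, by linarith⟩

/-- Plan.  `μ` from `exists_total`, `g` from `exists_random`,
`Y ω = {x | Summable fun k => 20^k * ‖g ω k x‖}`, a subspace which is not dense (`sq_of_normal`), so
there is `h ω` of norm one vanishing on it (Hahn–Banach).  Choose `nv : StrongDual 𝕜 X → X` with
`‖nv φ‖ ≤ 1`, `‖φ‖ ≤ 3 / 2 * ‖φ (nv φ)‖`.  Let `d : ℕ → 𝕜` have dense range,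
`A = Finset ℕ × (ℕ →₀ ℕ)`, `x (s, a) f = nv (∑_{i ∈ s} d (a i) • h (f i))`; `exists_free` gives `ω`.
For arbitrary coefficients: if the combination vanishes take `x = 0`, otherwise approximate the
coefficients within `ε` in `ℓ₁`: `‖φ x‖ ≥ 2 / 3 (‖φ‖ - ε) - ε ≥ ‖φ‖ / 2` for `ε = ‖φ‖ / 10`. -/
theorem exists_su [CompleteSpace X] (hc : Crest.AnalysisR.ContinuumRVM)
    (hX : ¬ FiniteDimensional 𝕜 X) (hn : ¬ SQ 𝕜 X) :
    ∃ h : ℕ → StrongDual 𝕜 X, (∀ i, ‖h i‖ = 1) ∧ SU h := by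
  obtain ⟨Ω, _, _, μ, _, hμ⟩ := exists_total hc
  obtain ⟨g, hg, hswap⟩ := exists_random (𝕜 := 𝕜) hX μ hμ
  let Y : Ω → Submodule 𝕜 X := fun ω =>
    { carrier := {x | Summable fun k => (20 : ℝ) ^ k * ‖g ω k x‖}
      zero_mem' := by simp
      add_mem' := fun {a b} ha hb => Summable.of_nonneg_of_le (fun k => by positivity)
        (fun k => by
          rw [map_add, ← mul_add]
          exact mul_le_mul_of_nonneg_left (norm_add_le _ _) (by positivity)) (Summable.add ha hb)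
      smul_mem' := fun c x hx => by
        refine (Summable.mul_left ‖c‖ hx).congr fun k => ?_
        rw [map_smul, norm_smul]; ring }
  have hY : ∀ ω, ¬ Dense (Y ω : Set X) := fun ω hd =>
    hn (sq_of_normal (g ω) (fun k => (hg ω k).1) (fun k => (hg ω k).2) hd)
  choose h hh1 hh0 using fun ω => su_exists_annih (Y ω) (hY ω)
  choose nv hnv1 hnv2 using su_exists_nv (𝕜 := 𝕜) (X := X)
  obtain ⟨d, hd⟩ := TopologicalSpace.exists_dense_seq 𝕜
  obtain ⟨ω, hω⟩ := exists_free μ (fun ω => (Y ω : Set X)) hswap (A := Finset ℕ × (ℕ →₀ ℕ))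
    Prod.fst (fun a f => nv (∑ i ∈ a.1, d (a.2 i) • h (f i)))
    (fun a f f' e => congrArg nv (sum_congr rfl fun i hi => by rw [e i hi]))
  refine ⟨fun i => h (ω i), fun i => hh1 _, fun s a => ?_⟩
  set φ := ∑ i ∈ s, a i • h (ω i) with hφ
  rcases (norm_nonneg φ).eq_or_lt with h0 | h0
  · exact ⟨0, by simp, by simp [← h0], fun i _ => map_zero _⟩
  have hε : 0 < ‖φ‖ / 10 / (#s + 1) := by positivity
  choose n hn using fun i => hd.exists_dist_lt (a i) hε
  let b : ℕ →₀ ℕ := Finsupp.onFinset s (fun i => if i ∈ s then n i else 0) fun i hi => by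
    by_contra h'; exact hi (if_neg h')
  have hb : ∀ i ∈ s, b i = n i := fun i hi => if_pos hi
  set ψ := ∑ i ∈ s, d (b i) • h (ω i) with hψ
  have h1 : ‖φ - ψ‖ ≤ ‖φ‖ / 10 := by
    rw [hφ, hψ, ← sum_sub_distrib, ← hφ]
    refine (norm_sum_le_of_le _ (n := fun _ => ‖φ‖ / 10 / (#s + 1)) fun i hi => ?_).trans ?_
    · have e : a i • h (ω i) - d (b i) • h (ω i) = (a i - d (b i)) • h (ω i) :=
        (sub_smul _ _ _).symm
      rw [e, norm_smul, hh1, mul_one, hb i hi, ← dist_eq_norm]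
      exact (hn i).le
    · rw [sum_const, nsmul_eq_mul, mul_div_assoc', div_le_iff₀ (by positivity)]
      nlinarith
  refine ⟨nv ψ, hnv1 _, ?_, fun i hi => hh0 _ _ (hω (s, b) i hi)⟩
  have h2 := hnv2 ψ
  have h3 : ‖φ‖ ≤ ‖φ - ψ‖ + ‖ψ‖ := norm_le_norm_sub_add _ _
  have h4 : ‖(φ - ψ) (nv ψ)‖ ≤ ‖φ - ψ‖ :=
    ((φ - ψ).le_opNorm _).trans (mul_le_of_le_one_right (norm_nonneg _) (hnv1 _))
  have h5 : ‖ψ (nv ψ)‖ ≤ ‖φ (nv ψ)‖ + ‖(φ - ψ) (nv ψ)‖ := by
    rw [sub_apply]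
    exact norm_le_insert _ _
  linarith

end Crest.Agent.R114
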