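import Mathlib

/-! Row 114: a choice of signs with small discrepancy. -/

set_option autoImplicit false

open Finset

namespace Crest.Agent.R114

theorem sign_pot {κ : Type*} [Fintype κ] (a : κ → ℕ → ℝ) (lam : ℝ) (T : ℕ) :
    ∃ ε : ℕ → ℝ, (∀ s, ε s = 1 ∨ ε s = -1) ∧
      ∑ π, Real.cosh (lam * ∑ s ∈ range T, ε s * a π s) *
        Real.exp (-(lam ^ 2 / 2 * ∑ s ∈ range T, a π s ^ 2)) ≤ Fintype.card κ := by
  induction T with
  | zero => exact ⟨fun _ => 1, fun _ => Or.inl rfl, by simp⟩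
  | succ T ih =>
    obtain ⟨ε, hε, hle⟩ := ih
    set Φ : ℝ → ℝ := fun σ => ∑ π, Real.cosh (lam * (∑ s ∈ range T, ε s * a π s + σ * a π T)) *
        Real.exp (-(lam ^ 2 / 2 * ∑ s ∈ range (T + 1), a π s ^ 2)) with hΦ
    have hsum : Φ 1 + Φ (-1) ≤ 2 * Fintype.card κ := by
      refine le_trans ?_ (mul_le_mul_of_nonneg_left hle two_pos.le)
      rw [hΦ]
      simp only
      rw [← sum_add_distrib, mul_sum]
      refine sum_le_sum fun π _ => ?_
      set S := ∑ s ∈ range T, ε s * a π s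
      set Q := ∑ s ∈ range T, a π s ^ 2 with hQ
      rw [sum_range_succ, ← hQ]
      have h1 : lam * (S + 1 * a π T) = lam * S + lam * a π T := by ring
      have h2 : lam * (S + -1 * a π T) = lam * S - lam * a π T := by ring
      have h3 : -(lam ^ 2 / 2 * (Q + a π T ^ 2))
          = -(lam ^ 2 / 2 * Q) + -((lam * a π T) ^ 2 / 2) := by ring
      rw [h1, h2, h3, Real.cosh_add, Real.cosh_sub, Real.exp_add]
      have h4 : Real.cosh (lam * a π T) * Real.exp (-((lam * a π T) ^ 2 / 2)) ≤ 1 := by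
        rw [Real.exp_neg, ← div_eq_mul_inv, div_le_one (Real.exp_pos _)]
        exact Real.cosh_le_exp_half_sq _
      have h5 : 0 ≤ Real.cosh (lam * S) * Real.exp (-(lam ^ 2 / 2 * Q)) :=
        mul_nonneg (Real.cosh_pos _).le (Real.exp_pos _).le
      have h6 := mul_le_mul_of_nonneg_left h4 h5
      nlinarith
    obtain ⟨σ, hσ, hσle⟩ : ∃ σ : ℝ, (σ = 1 ∨ σ = -1) ∧ Φ σ ≤ Fintype.card κ := by
      by_cases h : Φ 1 ≤ Fintype.card κ
      · exact ⟨1, Or.inl rfl, h⟩
      · exact ⟨-1, Or.inr rfl, by linarith⟩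
    refine ⟨Function.update ε T σ, fun s => ?_, ?_⟩
    · by_cases hs : s = T
      · subst hs; simpa using hσ
      · rw [Function.update_of_ne hs]; exact hε s
    · refine le_trans (le_of_eq ?_) hσle
      rw [hΦ]
      refine sum_congr rfl fun π _ => ?_
      congr 3
      rw [sum_range_succ, Function.update_self]
      congr 1
      refine sum_congr rfl fun s hs => ?_
      rw [Function.update_of_ne (mem_range.mp hs).ne]

/-- Plan.  By induction on `T` find signs with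
`∑_π cosh (lam * S_π) * exp (-(lam^2/2) * ∑_{s<T} a π s ^ 2) ≤ card κ`, where
`S_π = ∑_{s<T} ε s * a π s`: the average over the two choices of the new sign of
`cosh (lam (S ± a))` is `cosh (lam S) cosh (lam a)` and `cosh t ≤ exp (t^2/2)`
(`Real.cosh_le_exp_half_sq`).  Then `exp (lam |S|) / 2 ≤ cosh (lam S)`; take logarithms. -/
theorem exists_signs {κ : Type*} [Fintype κ] (T : ℕ) (a : κ → ℕ → ℝ) {lam : ℝ} (h : 0 < lam) :
    ∃ ε : ℕ → ℝ, (∀ s, ε s = 1 ∨ ε s = -1) ∧ ∀ π, |∑ s ∈ range T, ε s * a π s| ≤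
      Real.log (2 * Fintype.card κ) / lam + lam / 2 * ∑ s ∈ range T, a π s ^ 2 := by
  obtain ⟨ε, hε, hle⟩ := sign_pot a lam T
  refine ⟨ε, hε, fun π => ?_⟩
  set S := ∑ s ∈ range T, ε s * a π s with hS
  set Q := ∑ s ∈ range T, a π s ^ 2 with hQ
  have h1 : Real.cosh (lam * S) * Real.exp (-(lam ^ 2 / 2 * Q)) ≤ Fintype.card κ :=
    le_trans (single_le_sum (f := fun π => Real.cosh (lam * ∑ s ∈ range T, ε s * a π s) *
        Real.exp (-(lam ^ 2 / 2 * ∑ s ∈ range T, a π s ^ 2)))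
      (fun π _ => mul_nonneg (Real.cosh_pos _).le (Real.exp_pos _).le) (mem_univ π)) hle
  have h2 : Real.exp (lam * |S|) ≤ 2 * Real.cosh (lam * S) := by
    rw [← Real.cosh_abs, abs_mul, abs_of_pos h, Real.cosh_eq]
    have := Real.exp_pos (-(lam * |S|))
    linarith
  have h3 : Real.exp (lam * |S| + -(lam ^ 2 / 2 * Q)) ≤ 2 * Fintype.card κ := by
    rw [Real.exp_add]
    have := mul_le_mul_of_nonneg_right h2 (Real.exp_pos (-(lam ^ 2 / 2 * Q))).le
    linarith
  have h4 : lam * |S| + -(lam ^ 2 / 2 * Q) ≤ Real.log (2 * Fintype.card κ) :=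
    (Real.le_log_iff_exp_le ((Real.exp_pos _).trans_le h3)).mpr h3
  have h5 : |S| - lam / 2 * Q ≤ Real.log (2 * Fintype.card κ) / lam := by
    rw [le_div_iff₀ h]
    nlinarith
  linarith

/-- The form that is used: finitely many complex sequences (indexed by `D`), all intervals.
Plan: apply `exists_signs` to `κ = D × Fin (T+1) × Fin (T+1) × Bool`, with `a (q, a, b, re/im) s`
equal to `re (c q s)` or `im (c q s)` if `a ≤ s < b` and `‖c q s‖ ≤ 2`, and `0` otherwise, and
`lam = θ / 4`.  Then each of the real and imaginary parts is at most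
`4 / θ * log (2 card κ) + θ / 8 * 4 * (b - a) ≤ θ N / 2 + θ L / 2`. -/
theorem exists_signs' {𝕜 : Type} [RCLike 𝕜] {κ : Type*} (D : Finset κ) (T : ℕ) (c : κ → ℕ → 𝕜)
    {θ N : ℝ} (hθ : 0 < θ) (hN : 0 ≤ N)
    (h : 4 * (D.card : ℝ) * ((T : ℝ) + 1) ^ 2 ≤ Real.exp (N * θ ^ 2 / 8)) :
    ∃ ε : ℕ → ℝ, (∀ s, ε s = 1 ∨ ε s = -1) ∧ ∀ q ∈ D, ∀ (a b : ℕ) (L : ℝ), b ≤ T → N ≤ L →
      (b : ℝ) - a ≤ L → (∀ s ∈ Ico a b, ‖c q s‖ ≤ 2) →
      ‖∑ s ∈ Ico a b, (ε s : 𝕜) * c q s‖ ≤ 2 * θ * L := by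
  classical
  let a : D × Fin (T + 1) × Fin (T + 1) × Bool → ℕ → ℝ := fun π s =>
    if s ∈ Ico (π.2.1 : ℕ) π.2.2.1 ∧ ‖c π.1 s‖ ≤ 2 then
      (if π.2.2.2 then RCLike.re (c π.1 s) else RCLike.im (c π.1 s)) else 0
  obtain ⟨ε, hε, hle⟩ := exists_signs T a (lam := θ / 4) (by positivity)
  refine ⟨ε, hε, fun q hq i b L hb hL hbL hc => ?_⟩
  have hL0 : 0 ≤ L := hN.trans hL
  rcases le_or_gt b i with hib | hib
  · rw [Ico_eq_empty_of_le hib, sum_empty, norm_zero]
    positivity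
  have hcard : (2 * Fintype.card (D × Fin (T + 1) × Fin (T + 1) × Bool) : ℝ)
      = 4 * (D.card : ℝ) * ((T : ℝ) + 1) ^ 2 := by
    simp only [Fintype.card_prod, Fintype.card_coe, Fintype.card_fin, Fintype.card_bool]
    push_cast
    ring
  have hpos : (0 : ℝ) < 4 * (D.card : ℝ) * ((T : ℝ) + 1) ^ 2 := by
    have : (0 : ℝ) < D.card := by exact_mod_cast card_pos.mpr ⟨q, hq⟩
    positivity
  have hlog : Real.log (4 * (D.card : ℝ) * ((T : ℝ) + 1) ^ 2) / (θ / 4) ≤ θ * L / 2 := by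
    have h1 := (Real.log_le_iff_le_exp hpos).mpr h
    rw [div_le_iff₀ (by positivity)]
    have h2 : N * θ ^ 2 ≤ L * θ ^ 2 := mul_le_mul_of_nonneg_right hL (sq_nonneg _)
    nlinarith
  have hsub : Ico i b ⊆ range T := fun s hs => mem_range.mpr (lt_of_lt_of_le (mem_Ico.mp hs).2 hb)
  have key : ∀ (u : Bool) (f : ℕ → ℝ),
      (∀ s, f s = if u then RCLike.re (c q s) else RCLike.im (c q s)) →
      |∑ s ∈ Ico i b, ε s * f s| ≤ θ * L := by
    intro u f hf
    have h1 := hle (⟨q, hq⟩, ⟨i, by omega⟩, ⟨b, by omega⟩, u)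
    rw [hcard] at h1
    have ha : ∀ s, a (⟨q, hq⟩, ⟨i, by omega⟩, ⟨b, by omega⟩, u) s
        = if s ∈ Ico i b then f s else 0 := by
      intro s
      by_cases hs : s ∈ Ico i b
      · rw [if_pos hs, hf]
        exact if_pos ⟨hs, hc s hs⟩
      · rw [if_neg hs]
        exact if_neg fun h => hs h.1
    simp only [ha] at h1
    have h2 : ∑ s ∈ range T, ε s * (if s ∈ Ico i b then f s else 0)
        = ∑ s ∈ Ico i b, ε s * f s := by
      rw [← sum_subset hsub]
      · exact sum_congr rfl fun s hs => by rw [if_pos hs]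
      · intro s _ hs
        rw [if_neg hs, mul_zero]
    have h3 : ∑ s ∈ range T, (if s ∈ Ico i b then f s else 0) ^ 2 ≤ 4 * L := by
      rw [← sum_subset hsub]
      · calc ∑ s ∈ Ico i b, (if s ∈ Ico i b then f s else 0) ^ 2 ≤ ∑ s ∈ Ico i b, (4 : ℝ) := by
              refine sum_le_sum fun s hs => ?_
              rw [if_pos hs]
              have h4 : |f s| ≤ 2 := by
                rw [hf]
                cases u
                · exact (RCLike.abs_im_le_norm _).trans (hc s hs)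
                · exact (RCLike.abs_re_le_norm _).trans (hc s hs)
              have h5 := abs_le.mp h4
              nlinarith
          _ = 4 * ((b : ℝ) - i) := by
              rw [sum_const, Nat.card_Ico, nsmul_eq_mul, Nat.cast_sub hib.le, mul_comm]
          _ ≤ 4 * L := by linarith
      · intro s _ hs
        rw [if_neg hs]; norm_num
    rw [h2] at h1
    have h4 := mul_le_mul_of_nonneg_left h3 (show 0 ≤ θ / 4 / 2 by positivity)
    linarith
  have hre := key true (fun s => RCLike.re (c q s)) fun s => rfl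
  have him := key false (fun s => RCLike.im (c q s)) fun s => rfl
  set z := ∑ s ∈ Ico i b, (ε s : 𝕜) * c q s with hz
  have h1 : RCLike.re z = ∑ s ∈ Ico i b, ε s * RCLike.re (c q s) := by
    rw [hz, map_sum]
    exact sum_congr rfl fun s _ => RCLike.re_ofReal_mul _ _
  have h2 : RCLike.im z = ∑ s ∈ Ico i b, ε s * RCLike.im (c q s) := by
    rw [hz, map_sum]
    exact sum_congr rfl fun s _ => RCLike.im_ofReal_mul _ _
  have h3 : ‖z‖ ≤ |RCLike.re z| + |RCLike.im z| := by
    have h4 := RCLike.norm_sq_eq_def (z := z)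
    have h5 := abs_nonneg (RCLike.re z)
    have h6 := abs_nonneg (RCLike.im z)
    refine le_of_sq_le_sq ?_ (add_nonneg h5 h6)
    rw [h4, ← abs_mul_abs_self (RCLike.re z), ← abs_mul_abs_self (RCLike.im z)]
    nlinarith [mul_nonneg h5 h6]
  rw [h1, h2] at h3
  linarith

end Crest.Agent.R114
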