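import Crest.Agent.R114.K

/-! Row 114: the completion `Z` and its basic properties. -/

set_option autoImplicit false

open Finset

namespace Crest.Agent.R114

variable {I : Type} [LinearOrder I] {𝕜 : Type} [RCLike 𝕜] {P : Par} {C : Cod I 𝕜}

/-- type synonym carrying the norm `nrm` -/
def spaceV (_P : Par) (_C : Cod I 𝕜) : Type := I →₀ 𝕜

noncomputable instance (P : Par) (C : Cod I 𝕜) : AddCommGroup (spaceV P C) :=
  inferInstanceAs (AddCommGroup (I →₀ 𝕜))

noncomputable instance (P : Par) (C : Cod I 𝕜) : Module 𝕜 (spaceV P C) :=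
  inferInstanceAs (Module 𝕜 (I →₀ 𝕜))

theorem space_nrm_neg (z : I →₀ 𝕜) : nrm P C (-z) = nrm P C z := by
  have := nrm_smul (P := P) (C := C) (-1 : 𝕜) z
  rwa [norm_neg, norm_one, one_mul, neg_one_smul] at this

/-- the norm as an `AddGroupNorm` -/
noncomputable def spaceN (P : Par) (C : Cod I 𝕜) : AddGroupNorm (spaceV P C) where
  toFun := fun z => nrm P C z
  map_zero' := nrm_zero
  add_le' := fun z z' => nrm_add_le z z'
  neg' := fun z => space_nrm_neg z
  eq_zero_of_map_eq_zero' := fun z hz => by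
    by_contra h
    exact (nrm_pos (P := P) (C := C) (z := z) h).ne' hz

noncomputable instance (P : Par) (C : Cod I 𝕜) : NormedAddCommGroup (spaceV P C) :=
  (spaceN P C).toNormedAddCommGroup

noncomputable instance (P : Par) (C : Cod I 𝕜) : NormedSpace 𝕜 (spaceV P C) :=
  ⟨fun c z => (nrm_smul (P := P) (C := C) c z).le⟩

/-- the identity map to the type synonym -/
def spaceTo (P : Par) (C : Cod I 𝕜) : (I →₀ 𝕜) →ₗ[𝕜] spaceV P C where
  toFun := fun z => z
  map_add' := fun _ _ => rfl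
  map_smul' := fun _ _ => rfl

theorem space_pair_le (w z : I →₀ 𝕜) : ‖pair w z‖ ≤ l1 w * nrm P C z := by
  rw [pair_comm, mul_comm]
  exact norm_pair_le_l1 (fun α => apply_le_nrm z α) w

theorem space_of_iota {Z : Type} [NormedAddCommGroup Z] [NormedSpace 𝕜 Z] [CompleteSpace Z]
    (ι : (I →₀ 𝕜) →ₗ[𝕜] Z) (hd : DenseRange ι) (hn : ∀ z, ‖ι z‖ = nrm P C z) :
    Nonempty (Cpl P C Z) := by
  have h1 : ∀ w z, (pairL w).extendOfNorm ι (ι z) = pair w z := fun w z =>
    LinearMap.extendOfNorm_eq hd ⟨l1 w, fun x => by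
      rw [hn, pairL_apply]
      exact space_pair_le w x⟩ z
  refine ⟨{ ι := ι
            fnl := { toFun := fun w => (pairL w).extendOfNorm ι
                     map_add' := fun w w' => ?_
                     map_smul' := fun c w => ?_ }
            prj := fun E => (ι ∘ₗ resL E).extendOfNorm ι
            dense := hd
            norm_ι := hn
            fnl_ι := h1
            prj_ι := fun E hE z => ?_ }⟩
  · apply DFunLike.coe_injective
    refine hd.equalizer (by fun_prop) (by fun_prop) ?_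
    funext z
    simp only [Function.comp, add_apply, h1, pair_add_left]
  · apply DFunLike.coe_injective
    refine hd.equalizer (by fun_prop) (by fun_prop) ?_
    funext z
    simp only [Function.comp, smul_apply, h1, pair_smul_left, RingHom.id_apply,
      smul_eq_mul]
  · exact LinearMap.extendOfNorm_eq (f := ι ∘ₗ resL E) hd ⟨1, fun x => by
      rw [LinearMap.comp_apply, hn, hn, one_mul]
      exact nrm_res_le hE x⟩ z

/-- Plan.  A type synonym `V` of `I →₀ 𝕜` with the norm `nrm` (`AddGroupNorm.toNormedAddCommGroup`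
or `NormedAddCommGroup.ofCore`/`NormedSpace.ofCore`), `Z = UniformSpace.Completion V`, `ι` the
coercion as a linear map.  `fnl w = (pairL w).extendOfNorm ι` (`‖pair w z‖ ≤ l1 w * nrm z` by
`apply_le_nrm`), linear in `w` by density.  `prj E = (ι ∘ resL E).extendOfNorm ι`
(`nrm_res_le`; `LinearMap.extendOfNorm_eq`). -/
theorem exists_cpl (P : Par) (C : Cod I 𝕜) :
    ∃ (Z : Type) (_ : NormedAddCommGroup Z) (_ : NormedSpace 𝕜 Z),
      CompleteSpace Z ∧ Nonempty (Cpl P C Z) := by
  refine ⟨UniformSpace.Completion (spaceV P C), inferInstance, inferInstance, inferInstance, ?_⟩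
  refine space_of_iota
    ((UniformSpace.Completion.toComplₗᵢ (𝕜 := 𝕜) (E := spaceV P C)).toLinearMap ∘ₗ spaceTo P C)
    ?_ ?_
  · exact UniformSpace.Completion.denseRange_coe (α := spaceV P C)
  · intro z
    exact UniformSpace.Completion.norm_coe (spaceTo P C z)

namespace Cpl
variable {Z : Type} [NormedAddCommGroup Z] [NormedSpace 𝕜 Z] (M : Cpl P C Z)

/-- Continuous linear maps agreeing on the unit vectors are equal. -/
theorem ext {W : Type*} [NormedAddCommGroup W] [NormedSpace 𝕜 W] {f g : Z →L[𝕜] W}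
    (h : ∀ α, f (M.ι (Finsupp.single α 1)) = g (M.ι (Finsupp.single α 1))) : f = g := by
  have h1 : (f : Z →ₗ[𝕜] W) ∘ₗ M.ι = (g : Z →ₗ[𝕜] W) ∘ₗ M.ι := by
    apply Finsupp.lhom_ext'
    intro α
    apply LinearMap.ext_ring
    exact h α
  apply DFunLike.coe_injective
  refine M.dense.equalizer f.continuous g.continuous ?_
  funext z
  exact LinearMap.congr_fun h1 z

theorem space_ext {W : Type*} [NormedAddCommGroup W] [NormedSpace 𝕜 W] {f g : Z → W}
    (hf : Continuous f) (hg : Continuous g) (h : ∀ z, f (M.ι z) = g (M.ι z)) (v : Z) :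
    f v = g v :=
  congrFun (M.dense.equalizer hf hg (funext h)) v

theorem space_le {f g : Z → ℝ} (hf : Continuous f) (hg : Continuous g)
    (h : ∀ z, f (M.ι z) ≤ g (M.ι z)) (v : Z) : f v ≤ g v :=
  M.dense.induction_on v (isClosed_le hf hg) h

theorem opNorm_le {W : Type*} [NormedAddCommGroup W] [NormedSpace 𝕜 W] {f : Z →L[𝕜] W} {B : ℝ}
    (hB : 0 ≤ B) (h : ∀ z, ‖f (M.ι z)‖ ≤ B * nrm P C z) : ‖f‖ ≤ B := by
  refine f.opNorm_le_bound hB fun v => ?_
  refine M.space_le (f := fun v => ‖f v‖) (g := fun v => B * ‖v‖) (by fun_prop) (by fun_prop)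
    (fun z => ?_) v
  rw [M.norm_ι]
  exact h z

theorem exists_near (v : Z) {ε : ℝ} (hε : 0 < ε) : ∃ z, ‖v - M.ι z‖ < ε := by
  obtain ⟨z, hz⟩ := M.dense.exists_dist_lt v hε
  exact ⟨z, by rwa [dist_eq_norm] at hz⟩

theorem norm_fnl_le {o : Option ℕ} {w : I →₀ 𝕜} (h : Fn P C o w) : ‖M.fnl w‖ ≤ 1 := by
  refine M.opNorm_le zero_le_one fun z => ?_
  rw [M.fnl_ι, one_mul]
  exact h.pair_le_nrm z

theorem norm_prj_le {E : Set I} (hE : E.OrdConnected) (v : Z) : ‖M.prj E v‖ ≤ ‖v‖ := by
  refine M.space_le (f := fun v => ‖M.prj E v‖) (g := fun v => ‖v‖) (by fun_prop) (by fun_prop)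
    (fun z => ?_) v
  rw [M.prj_ι E hE, M.norm_ι, M.norm_ι]
  exact nrm_res_le hE z

theorem prj_prj {E E' : Set I} (hE : E.OrdConnected) (hE' : E'.OrdConnected) (v : Z) :
    M.prj E (M.prj E' v) = M.prj (E ∩ E') v := by
  refine M.space_ext (f := fun v => M.prj E (M.prj E' v)) (g := fun v => M.prj (E ∩ E') v)
    (by fun_prop) (by fun_prop) (fun z => ?_) v
  rw [M.prj_ι E' hE', M.prj_ι E hE, M.prj_ι _ (hE.inter hE'), res_res]

theorem prj_univ (v : Z) : M.prj Set.univ v = v := by
  refine M.space_ext (f := fun v => M.prj Set.univ v) (g := fun v => v)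
    (by fun_prop) (by fun_prop) (fun z => ?_) v
  rw [M.prj_ι _ Set.ordConnected_univ, res_eq_self fun _ _ => Set.mem_univ _]

theorem prj_empty (v : Z) : M.prj ∅ v = 0 := by
  refine M.space_ext (f := fun v => M.prj ∅ v) (g := fun _ => 0)
    (by fun_prop) (by fun_prop) (fun z => ?_) v
  rw [M.prj_ι _ Set.ordConnected_empty, res_eq_zero fun _ _ => Set.notMem_empty _, map_zero]

theorem prj_union {E E' : Set I} (hE : E.OrdConnected) (hE' : E'.OrdConnected)
    (h : (E ∪ E').OrdConnected) (hd : Disjoint E E') (v : Z) :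
    M.prj (E ∪ E') v = M.prj E v + M.prj E' v := by
  refine M.space_ext (f := fun v => M.prj (E ∪ E') v) (g := fun v => M.prj E v + M.prj E' v)
    (by fun_prop) (by fun_prop) (fun z => ?_) v
  rw [M.prj_ι _ h, M.prj_ι _ hE, M.prj_ι _ hE', ← map_add]
  congr 1
  ext α
  by_cases h1 : α ∈ E
  · have h2 : α ∉ E' := Set.disjoint_left.1 hd h1
    simp [res_apply, h1, h2]
  · by_cases h2 : α ∈ E' <;> simp [res_apply, h1, h2]

theorem prj_singleton (α : I) (v : Z) :
    M.prj {α} v = M.fnl (Finsupp.single α 1) v • M.ι (Finsupp.single α 1) := by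
  refine M.space_ext (f := fun v => M.prj {α} v)
    (g := fun v => M.fnl (Finsupp.single α 1) v • M.ι (Finsupp.single α 1))
    (by fun_prop) (by fun_prop) (fun z => ?_) v
  rw [M.prj_ι _ Set.ordConnected_singleton, M.fnl_ι, ← map_smul]
  congr 1
  ext β
  by_cases h1 : β = α
  · subst h1
    simp [res_apply]
  · simp [res_apply, h1]

/-- A functional vanishing on the unit vectors outside `E` factors through `prj E`. -/
theorem apply_prj {E : Set I} (hE : E.OrdConnected) {t : StrongDual 𝕜 Z}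
    (h : ∀ α, α ∉ E → t (M.ι (Finsupp.single α 1)) = 0) (v : Z) : t (M.prj E v) = t v := by
  have h1 : t.comp (M.prj E) = t := by
    refine M.ext fun α => ?_
    rw [ContinuousLinearMap.comp_apply, M.prj_ι _ hE]
    by_cases hα : α ∈ E
    · rw [res_eq_self]
      intro β hβ
      rw [mem_singleton.1 (Finsupp.support_single_subset hβ)]
      exact hα
    · rw [h α hα, res_eq_zero, map_zero, map_zero]
      intro β hβ
      rw [mem_singleton.1 (Finsupp.support_single_subset hβ)]
      exact hα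
  exact congrArg (fun s : StrongDual 𝕜 Z => s v) h1

/-- Approximation by finitely supported vectors inside `E`. -/
theorem exists_near_prj {E : Set I} (hE : E.OrdConnected) (v : Z) {ε : ℝ} (hε : 0 < ε) :
    ∃ z : I →₀ 𝕜, (∀ α ∈ z.support, α ∈ E) ∧ ‖M.prj E v - M.ι z‖ < ε := by
  obtain ⟨z, hz⟩ := M.exists_near v hε
  refine ⟨res E z, fun α hα => (mem_support_res.1 hα).2, ?_⟩
  rw [← M.prj_ι _ hE, ← map_sub]
  exact (M.norm_prj_le hE _).trans_lt hz

theorem countable_support (v : Z) : {α | M.fnl (Finsupp.single α 1) v ≠ 0}.Countable := by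
  have h1 : ∀ n : ℕ, ∃ z, ‖v - M.ι z‖ < 1 / ((n : ℝ) + 1) := fun n =>
    M.exists_near v (by positivity)
  choose z hz using h1
  refine (Set.countable_iUnion fun n => (z n).support.countable_toSet).mono ?_
  intro α hα
  by_contra hn
  apply hα
  have h2 : ∀ n : ℕ, ‖M.fnl (Finsupp.single α 1) v‖ ≤ 1 / ((n : ℝ) + 1) := by
    intro n
    have h3 : z n α = 0 := by
      by_contra h4
      exact hn (Set.mem_iUnion.2 ⟨n, Finsupp.mem_support_iff.2 h4⟩)
    have h4 : M.fnl (Finsupp.single α 1) v = M.fnl (Finsupp.single α 1) (v - M.ι (z n)) := by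
      rw [map_sub, M.fnl_ι, pair_single_left, h3, mul_zero, sub_zero]
    rw [h4]
    refine ((M.fnl (Finsupp.single α 1)).le_opNorm _).trans ?_
    have h5 := M.norm_fnl_le (Fn.basic (P := P) (C := C) α 1 (by simp))
    calc _ ≤ 1 * ‖v - M.ι (z n)‖ := mul_le_mul_of_nonneg_right h5 (norm_nonneg _)
      _ ≤ _ := by rw [one_mul]; exact (hz n).le
  have h6 := ge_of_tendsto' tendsto_one_div_add_atTop_nhds_zero_nat h2
  exact norm_le_zero_iff.1 h6

/-- Extension of bounded functionals (`LinearMap.extendOfNorm`). -/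
theorem exists_ext (f : (I →₀ 𝕜) →ₗ[𝕜] 𝕜) {B : ℝ} (hB : 0 ≤ B) (h : ∀ z, ‖f z‖ ≤ B * nrm P C z) :
    ∃ t : StrongDual 𝕜 Z, ‖t‖ ≤ B ∧ ∀ z, t (M.ι z) = f z := by
  have h1 : ∀ z, ‖f z‖ ≤ B * ‖M.ι z‖ := fun z => by
    rw [M.norm_ι]
    exact h z
  exact ⟨f.extendOfNorm M.ι, LinearMap.opNorm_extendOfNorm_le M.dense hB h1,
    fun z => LinearMap.extendOfNorm_eq M.dense ⟨B, h1⟩ z⟩

/-- The lower estimate in `Z`: by density from `lower_est` for `res (E i) z` and
`∑ res (E i) z = res (⋃ E i) z`.  Here `E i = Ioc (a i) (a (i+1))`. -/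
theorem lower_est (j d : ℕ) (hd : d ≤ P.n j) (a : ℕ → I) (ha : Monotone a) (v : Z) :
    ∑ i ∈ range d, ‖M.prj (Set.Ioc (a i) (a (i + 1))) v‖ ≤ P.m j * ‖v‖ := by
  refine M.space_le (f := fun v => ∑ i ∈ range d, ‖M.prj (Set.Ioc (a i) (a (i + 1))) v‖)
    (g := fun v => P.m j * ‖v‖) (by fun_prop) (by fun_prop) (fun z => ?_) v
  simp only [M.prj_ι _ Set.ordConnected_Ioc, M.norm_ι]
  have h1 := R114.lower_est (P := P) (C := C) j (range d)
    (fun i => res (Set.Ioc (a i) (a (i + 1))) z) (by rwa [card_range]) (by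
      intro i _ i' _ hii α hα β hβ
      have h2 := (mem_support_res.1 hα).2
      have h3 := (mem_support_res.1 hβ).2
      exact h2.2.trans_lt ((ha (Nat.succ_le_of_lt hii)).trans_lt h3.1))
  have h2 : ∀ d, ∑ i ∈ range d, res (Set.Ioc (a i) (a (i + 1))) z = res (Set.Ioc (a 0) (a d)) z := by
    intro d
    induction d with
    | zero =>
      rw [sum_range_zero, res_eq_zero]
      intro α _ hα
      exact lt_irrefl _ (hα.1.trans_le hα.2)
    | succ d ih =>
      rw [sum_range_succ, ih]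
      ext α
      have e1 : a 0 ≤ a d := ha (Nat.zero_le d)
      have e2 : a d ≤ a (d + 1) := ha (Nat.le_succ d)
      rw [Finsupp.add_apply]
      by_cases h3 : α ≤ a d
      · rw [res_apply_of_notMem (E := Set.Ioc (a d) (a (d + 1))) z
          (fun h => lt_irrefl _ (h.1.trans_le h3)), add_zero]
        by_cases h4 : a 0 < α
        · rw [res_apply_of_mem z (Set.mem_Ioc.2 ⟨h4, h3⟩),
            res_apply_of_mem z (Set.mem_Ioc.2 ⟨h4, h3.trans e2⟩)]
        · rw [res_apply_of_notMem z (fun h => h4 (Set.mem_Ioc.1 h).1),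
            res_apply_of_notMem z (fun h => h4 (Set.mem_Ioc.1 h).1)]
      · rw [res_apply_of_notMem (E := Set.Ioc (a 0) (a d)) z (fun h => h3 h.2), zero_add]
        have h5 := not_le.1 h3
        by_cases h4 : α ≤ a (d + 1)
        · rw [res_apply_of_mem z (Set.mem_Ioc.2 ⟨h5, h4⟩),
            res_apply_of_mem z (Set.mem_Ioc.2 ⟨e1.trans_lt h5, h4⟩)]
        · rw [res_apply_of_notMem z (fun h => h4 (Set.mem_Ioc.1 h).2),
            res_apply_of_notMem z (fun h => h4 (Set.mem_Ioc.1 h).2)]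
  rw [h2] at h1
  exact h1.trans (mul_le_mul_of_nonneg_left (nrm_res_le Set.ordConnected_Ioc z) (P.m_pos j).le)

end Cpl

end Crest.Agent.R114
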