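import Crest.Agent.R114.K

/-! Row 114, first stage: the early part of a segment acts through coded values. -/

set_option autoImplicit false

open Finset

namespace Crest.Agent.R114

variable {I : Type} [LinearOrder I] {𝕜 : Type} [RCLike 𝕜] {P : Par} {C : Cod I 𝕜}

/-- For successive nonzero vectors and an interval `G` of coordinates: the vectors with support
inside `G` form an interval, and at most two other vectors meet `G` (if `s₁ < s₂ < s₃` and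
`x s₁`, `x s₃` meet `G` then the support of `x s₂` is inside `G`). -/
theorem blocks_interval {x : ℕ → I →₀ 𝕜} (hx : ∀ s s', s < s' → Lt (x s) (x s'))
    (h0 : ∀ s, x s ≠ 0) {G : Set I} (hG : G.OrdConnected) (s : ℕ) :
    ∃ (a b : ℕ) (B : Finset ℕ), b ≤ s ∧ B.card ≤ 2 ∧ (∀ s' ∈ Ico a b, ∀ α ∈ (x s').support, α ∈ G) ∧
      ∀ s', s' < s → s' ∉ Ico a b → s' ∉ B → ∀ α ∈ (x s').support, α ∉ G := by
  classical
  set T := (range s).filter fun s' => ∃ α ∈ (x s').support, α ∈ G with hT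
  have hnot : ∀ s', s' < s → s' ∉ T → ∀ α ∈ (x s').support, α ∉ G := fun s' hs hn α hα hG' =>
    hn (mem_filter.mpr ⟨mem_range.mpr hs, α, hα, hG'⟩)
  rcases T.eq_empty_or_nonempty with h | h
  · refine ⟨0, 0, ∅, Nat.zero_le _, by simp, by simp, fun s' hs _ _ => hnot s' hs ?_⟩
    rw [h]; exact notMem_empty _
  · obtain ⟨hlo, α₁, hα₁, hG₁⟩ := mem_filter.mp (T.min'_mem h)
    obtain ⟨hhi, α₂, hα₂, hG₂⟩ := mem_filter.mp (T.max'_mem h)
    refine ⟨T.min' h + 1, T.max' h, {T.min' h, T.max' h}, (mem_range.mp hhi).le, card_le_two,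
      fun s' hs α hα => ?_, fun s' hs h1 h2 => hnot s' hs fun hs' => ?_⟩
    · rw [mem_Ico] at hs
      exact hG.out hG₁ hG₂ ⟨(hx _ _ (by omega) α₁ hα₁ α hα).le, (hx _ _ hs.2 α hα α₂ hα₂).le⟩
    · have h3 := T.min'_le s' hs'
      have h4 := T.le_max' s' hs'
      rw [mem_Ico] at h1
      rw [mem_insert, mem_singleton] at h2
      omega

/-- The part of a segment before the position `k` is an interval restriction of
`g = ∑_{i < k} φ i`.  Plan: the positions of the window are `A' = A ∩ range k`.  If `A'` is empty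
take `E' = ∅`.  Otherwise `A' = Icc k₁ k₂` and `E' = S.E ∩ {α | (∀ i < k₁, supp φ i < α) ∧
(∀ i, k₂ < i → i < k → α < supp φ i)}`. -/
theorem Seg.OK.head_eq {S : Seg I 𝕜} (h : S.OK C) {k a : ℕ} (hk : k < S.len) (ha : a ≤ S.j k)
    (hi : ∀ i, i < k → S.j i < a) :
    ∃ E' : Set I, E'.OrdConnected ∧ (S.win (Set.Iio a)).val = res E' (∑ i ∈ range k, S.φ i) := by
  classical
  obtain ⟨hlt, -, hlen, hconv, hE⟩ := h
  set A' := (S.win (Set.Iio a)).A with hA'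
  have hmem : ∀ i, i ∈ A' ↔ i ∈ S.A ∧ S.j i < a := fun i => Seg.mem_win
  have hsub : ∀ i ∈ A', i < k := by
    intro i hi'
    obtain ⟨h1, h2⟩ := (hmem i).mp hi'
    by_contra hc
    rcases (not_lt.mp hc).eq_or_lt with h3 | h3
    · subst h3; omega
    · have := (hlt k i h3 (hlen i h1)).1
      omega
  refine ⟨S.E ∩ ({α | ∃ i ∈ A', ∃ β ∈ (S.φ i).support, β ≤ α} ∩
    {α | ∃ i ∈ A', ∃ β ∈ (S.φ i).support, α ≤ β}), hE.inter (Set.OrdConnected.inter ?_ ?_), ?_⟩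
  · exact ⟨fun _ ⟨i, hi', β, hβ, h1⟩ _ _ _ hz => ⟨i, hi', β, hβ, h1.trans hz.1⟩⟩
  · exact ⟨fun _ _ _ ⟨i, hi', β, hβ, h1⟩ _ hz => ⟨i, hi', β, hβ, hz.2.trans h1⟩⟩
  · show res S.E (∑ i ∈ A', S.φ i) = _
    rw [← res_res]
    congr 1
    rw [res_sum, ← sum_subset (s₁ := A') (fun i hi' => mem_range.mpr (hsub i hi'))]
    · refine sum_congr rfl fun i hi' => (res_eq_self fun α hα => ?_).symm
      exact ⟨⟨i, hi', α, hα, le_rfl⟩, ⟨i, hi', α, hα, le_rfl⟩⟩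
    · intro i hik hi'
      rw [mem_range] at hik
      refine res_eq_zero fun α hα ⟨⟨i₁, hi₁, β₁, hβ₁, h1⟩, ⟨i₂, hi₂, β₂, hβ₂, h2⟩⟩ => hi' ?_
      have e1 : i₁ ≤ i := by
        by_contra hc
        exact absurd ((hlt i i₁ (not_le.mp hc) ((hsub i₁ hi₁).trans hk)).2 α hα β₁ hβ₁) (not_lt.mpr h1)
      have e2 : i ≤ i₂ := by
        by_contra hc
        exact absurd ((hlt i₂ i (not_le.mp hc) (hik.trans hk)).2 β₂ hβ₂ α hα) (not_lt.mpr h2)
      exact (hmem i).mpr ⟨hconv i₁ ((hmem i₁).mp hi₁).1 i₂ ((hmem i₂).mp hi₂).1 i e1 e2, hi i hik⟩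

/-- Plan.  `H = res E' g` (`Seg.OK.head_eq`), `g` is coded by `j = S.j k`: with `p = C.p j` there is
`β` with `supp g ⊆ F p β` and `g α` close to `val j (F p α).card` on `F p β`; `β₀` from `h.supp s`.
Let `G = E' ∩ {α | ∃ γ ∈ F p β, γ ∈ F p β₀ ∧ α ≤ γ}`, an interval.  For `α ∈ F p β₀`: if `α ∈ G` then
`α ∈ F p γ ⊆ F p β` (`F_coh` at `β₀` and at `β`) and `H α = g α`; if `α ∉ G` then `H α = 0` (either
`α ∉ E'` or `α ∉ F p β`).  Apply `blocks_interval`; the error is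
`≤ l1 (x s') / (p + 1) ≤ θ` by `h.err s'`, as `J (s'+1) ≤ J s ≤ j`. -/
theorem RIS.head {θ : ℝ} {r : ℕ} {x : ℕ → I →₀ 𝕜} {J : ℕ → ℕ} (h : RIS P C θ r x J) {S : Seg I 𝕜}
    (hS : S.OK C) {s k : ℕ} (hk : k < S.len) (hJ : J s ≤ S.j k) (hi : ∀ i, i < k → S.j i < J s) :
    ∃ (a b : ℕ) (B : Finset ℕ), b ≤ s ∧ B.card ≤ 2 ∧
      (∀ s' ∈ Ico a b, ‖pair (S.win (Set.Iio (J s))).val (x s') - C.cv (S.j k) (x s')‖ ≤ θ) ∧
      ∀ s', s' < s → s' ∉ Ico a b → s' ∉ B → pair (S.win (Set.Iio (J s))).val (x s') = 0 := by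
  classical
  obtain ⟨E', hE', hH⟩ := hS.head_eq hk hJ hi
  obtain ⟨-, -, β, hβ, hval⟩ := hS.2.1 k hk
  obtain ⟨β₀, hβ₀⟩ := h.supp s
  set g := ∑ i ∈ range k, S.φ i with hg
  set p := C.p (S.j k) with hp
  have hx0 : ∀ s, x s ≠ 0 := fun s hs => by
    have := h.nrm_eq s
    rw [hs, nrm_zero] at this
    exact zero_ne_one this
  have hG : (E' ∩ {α | ∃ γ ∈ C.F p β, γ ∈ C.F p β₀ ∧ α ≤ γ}).OrdConnected :=
    hE'.inter ⟨fun _ _ _ ⟨γ, h1, h2, h3⟩ _ hz => ⟨γ, h1, h2, hz.2.trans h3⟩⟩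
  obtain ⟨a, b, B, hb, hB, hin, hout⟩ := blocks_interval h.lt hx0 hG s
  refine ⟨a, b, B, hb, hB, fun s' hs' => ?_, fun s' hs' h1 h2 => ?_⟩
  · have hs : s' < s := lt_of_lt_of_le (mem_Ico.mp hs').2 hb
    have herr := h.err s' (S.j k) ((h.mono (Nat.succ_le_of_lt hs)).trans hJ)
    refine le_trans ?_ herr
    rw [hH, pair_comm, pair, Cod.cv, ← sum_sub_distrib, l1, sum_div]
    refine norm_sum_le_of_le _ fun α hα => ?_
    obtain ⟨hαE, γ, hγ, hγ₀, hαγ⟩ := hin s' hs' α hα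
    have hα₀ : α ∈ C.F p β₀ := hβ₀ _ hJ s' hs hα
    have hα₁ : α ∈ C.F p γ := by
      rw [C.F_coh p γ β₀ hγ₀]; exact mem_filter.mpr ⟨hα₀, hαγ⟩
    have hα₂ : α ∈ C.F p β := by
      rw [C.F_coh p γ β hγ] at hα₁; exact (mem_filter.mp hα₁).1
    rw [res_apply_of_mem _ hαE, mul_comm (x s' α), ← sub_mul, norm_mul, div_eq_mul_one_div,
      mul_comm]
    exact mul_le_mul_of_nonneg_left (hval α hα₂) (norm_nonneg _)
  · rw [hH]
    refine pair_eq_zero fun α hα hα' => hout s' hs' h1 h2 α hα' ?_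
    obtain ⟨h3, h4⟩ := mem_support_res.mp hα
    exact ⟨h4, α, hβ h3, hβ₀ _ hJ s' hs' hα', le_rfl⟩

end Crest.Agent.R114
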