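import Crest.Agent.R114.Stage1a
import Crest.Agent.R114.Stage1b
import Crest.Agent.R114.Sign

/-! Row 114, first stage: normalised averages on which special segments are small. -/

set_option autoImplicit false

open Finset

namespace Crest.Agent.R114

variable {I : Type} [LinearOrder I] {𝕜 : Type} [RCLike 𝕜] {P : Par} {C : Cod I 𝕜}

/-- A segment with indices `≥ a` whose window part at `s` is small: split it (`Seg.val_split`,
`Seg.win_win`) in indices `< J s` (`Avg.seg`: `≤ 8 / m a`), the window (`≤ θ`), and indices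
`≥ J (s+1)` (`SegIn.tail`, `h.tail`: `≤ θ`). -/
theorem RIS.light {θ : ℝ} {r : ℕ} {x : ℕ → I →₀ 𝕜} {J : ℕ → ℕ} (h : RIS P C θ r x J) {S : Seg I 𝕜}
    (hS : SegIn P C S) {a : ℕ} (ha : ∀ k ∈ S.A, a ≤ S.j k) (s : ℕ)
    (hw : ‖pair (S.win (Set.Ico (J s) (J (s + 1)))).val (x s)‖ ≤ θ) :
    ‖pair S.val (x s)‖ ≤ 8 / P.m a + 2 * θ := by
  have h1 := S.val_split (J s)
  have h2 := (S.win (Set.Ici (J s))).val_split (J (s + 1))
  rw [Seg.win_win, Seg.win_win, Set.Ici_inter_Iio] at h2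
  have b1 : ‖pair (S.win (Set.Iio (J s))).val (x s)‖ ≤ 8 / P.m a :=
    (h.avg s).seg (hS.win Set.ordConnected_Iio) a fun k hk =>
      ⟨ha k (Seg.mem_win.1 hk).1, P.n_mono (le_of_lt (Seg.mem_win.1 hk).2)⟩
  have b3 : ‖pair (S.win (Set.Ici (J s) ∩ Set.Ici (J (s + 1)))).val (x s)‖ ≤ θ :=
    ((hS.win (Set.ordConnected_Ici.inter Set.ordConnected_Ici)).tail (x s) (J (s + 1))
      fun k hk => (Seg.mem_win.1 hk).2.2).trans (h.tail s)
  rw [h1, h2, pair_add_left, pair_add_left]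
  refine (norm_add_le _ _).trans ((add_le_add_right (norm_add_le _ _) _).trans ?_)
  linarith

/-- Plan.  `D s` from `RIS.few`, `D = (range T).biUnion D` (card `≤ T r`), signs `ε` from
`exists_signs'` for `c q s = C.cv q (x s)`.  Fix `a₀ ≤ b₀ ≤ T`, `L = b₀ - a₀ ≥ N`, and `S`.  If no
`s ∈ Ico a₀ b₀` is heavy (window action `> θ`), use `RIS.light` for each term.  Otherwise let `s⋆`
be the last heavy one.  Terms `s > s⋆`: `RIS.light`.  Term `s⋆`: `≤ nrm = 1` (`SegIn.fn`).  Terms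
`s < s⋆`: `S.val = H + (S.win (Ici (J s⋆))).val`; the second part is `≤ θ` on each `x s`
(`SegIn.tail` with `J (s+1) ≤ J s⋆`).  For `H` use `RIS.head` (`k` from `RIS.few`) and the interval
`Ico (max a a₀) b ⊆ Ico a₀ s⋆`: at most two boundary terms (each `≤ 1`, `H ∈ K`), an error `θ` for each
interior term, `‖cv‖ ≤ 1 + θ ≤ 2` there, and the signed sum of the `cv` is `≤ 2 θ L`.  Total
`≤ L (8 / m a + 2 θ) + 3 + 2 θ L` and `3 ≤ θ N ≤ θ L`. -/
theorem RIS.signed {θ : ℝ} {r : ℕ} {x : ℕ → I →₀ 𝕜} {J : ℕ → ℕ} (h : RIS P C θ r x J)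
    (hθ : 0 < θ) (hθ1 : θ ≤ 1) (hr : 1 ≤ r * θ) (T N : ℕ) (hN : 3 ≤ θ * N)
    (hT : 4 * (T : ℝ) * r * ((T : ℝ) + 1) ^ 2 ≤ Real.exp (N * θ ^ 2 / 8)) :
    ∃ ε : ℕ → ℝ, (∀ s, ε s = 1 ∨ ε s = -1) ∧ ∀ a₀ b₀ : ℕ, a₀ + N ≤ b₀ → b₀ ≤ T →
      ∀ S, SegIn P C S → ∀ a, (∀ k ∈ S.A, a ≤ S.j k) →
      ‖pair S.val (∑ s ∈ Ico a₀ b₀, ε s • x s)‖ ≤ ((b₀ : ℝ) - a₀) * (8 / P.m a + 5 * θ) := by
  classical
  choose Ds hDs hfew using h.few hθ hr
  have hcard : (((range T).biUnion Ds).card : ℝ) ≤ T * r := by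
    have := card_biUnion_le_card_mul (range T) Ds r fun s _ => hDs s
    rw [card_range] at this
    exact_mod_cast this
  obtain ⟨ε, hε, hsign⟩ := exists_signs' (𝕜 := 𝕜) ((range T).biUnion Ds) T
    (fun q s => C.cv q (x s)) hθ (Nat.cast_nonneg N) (le_trans (by
      rw [mul_assoc 4 (T : ℝ)]
      exact mul_le_mul_of_nonneg_right (mul_le_mul_of_nonneg_left hcard (by norm_num))
        (by positivity)) hT)
  refine ⟨ε, hε, fun a₀ b₀ hab hbT S hS a ha => ?_⟩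
  have hεn : ∀ s, ‖(ε s : 𝕜)‖ = 1 := fun s => by
    rcases hε s with e | e <;> simp [e]
  have hL : (N : ℝ) ≤ (b₀ : ℝ) - a₀ := by
    have : (a₀ : ℝ) + N ≤ b₀ := by exact_mod_cast hab
    linarith
  have hL0 : (0 : ℝ) ≤ (b₀ : ℝ) - a₀ := (Nat.cast_nonneg N).trans hL
  have hcardI : ((Ico a₀ b₀).card : ℝ) = (b₀ : ℝ) - a₀ := by
    rw [Nat.card_Ico, Nat.cast_sub (by omega)]
  have hm : 0 ≤ 8 / P.m a := (div_pos (by norm_num) (P.m_pos a)).le
  have hone : ∀ {S' : Seg I 𝕜}, SegIn P C S' → ∀ s, ‖pair S'.val (x s)‖ ≤ 1 := fun hS' s =>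
    (hS'.fn.pair_le_nrm _).trans_eq (h.nrm_eq s)
  rw [pair_sum_right]
  simp only [pair_real_smul_right]
  by_cases hv : ((Ico a₀ b₀).filter fun s =>
      θ < ‖pair (S.win (Set.Ico (J s) (J (s + 1)))).val (x s)‖).Nonempty
  swap
  · refine (norm_sum_le_of_le _ (n := fun _ => 8 / P.m a + 2 * θ) fun s hs => ?_).trans ?_
    · rw [norm_mul, hεn, one_mul]
      exact h.light hS ha s (not_lt.1 fun hc => hv ⟨s, mem_filter.2 ⟨hs, hc⟩⟩)
    · rw [sum_const, nsmul_eq_mul, hcardI]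
      exact mul_le_mul_of_nonneg_left (by linarith) hL0
  obtain ⟨t, ht, htmax⟩ := exists_max_image _ id hv
  obtain ⟨htI, htv⟩ := mem_filter.1 ht
  obtain ⟨ht1, ht2⟩ := mem_Ico.1 htI
  obtain ⟨k, hk, hkD, hkJ, hki⟩ := hfew t S hS htv
  obtain ⟨a', b', B, hb', hB, hin, hout⟩ := h.head hS.1 hk hkJ hki
  have hH := hS.win (D := Set.Iio (J t)) Set.ordConnected_Iio
  have hsub : Ico (max a' a₀) b' ⊆ Ico a₀ b₀ := Ico_subset_Ico (le_max_right _ _) (by omega)
  have hs1 := hsign (S.j k) (mem_biUnion.2 ⟨t, mem_range.2 (by omega), hkD⟩) (max a' a₀) b'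
    ((b₀ : ℝ) - a₀) (by omega) hL (by
      have h1 : (b' : ℝ) ≤ b₀ := by exact_mod_cast (show b' ≤ b₀ by omega)
      have h2 : (a₀ : ℝ) ≤ (max a' a₀ : ℕ) := by exact_mod_cast le_max_right _ _
      linarith) (fun s hs => by
      have h1 := hin s (Ico_subset_Ico_left (le_max_left _ _) hs)
      have h2 := norm_sub_norm_le (C.cv (S.j k) (x s)) (pair (S.win (Set.Iio (J t))).val (x s))
      rw [norm_sub_rev] at h2
      linarith [hone hH s])
  have herr : ∀ s ∈ Ico a₀ b₀, ‖(ε s : 𝕜) * (pair S.val (x s) -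
      if s ∈ Ico (max a' a₀) b' then C.cv (S.j k) (x s) else 0)‖ ≤
      (8 / P.m a + 2 * θ) + if s ∈ insert t B then 1 else 0 := by
    intro s hs
    rw [norm_mul, hεn, one_mul]
    have hi0 : (0 : ℝ) ≤ if s ∈ insert t B then 1 else 0 := by split_ifs <;> norm_num
    rcases lt_trichotomy s t with hst | rfl | hst
    · have hT' : ‖pair (S.win (Set.Ici (J t))).val (x s)‖ ≤ θ :=
        ((hS.win Set.ordConnected_Ici).tail (x s) (J (s + 1))
          fun k hk => (h.mono hst).trans (Seg.mem_win.1 hk).2).trans (h.tail s)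
      rw [S.val_split (J t), pair_add_left]
      by_cases h1 : s ∈ Ico (max a' a₀) b'
      · rw [if_pos h1, add_sub_right_comm]
        have h2 := hin s (Ico_subset_Ico_left (le_max_left _ _) h1)
        refine (norm_add_le _ _).trans ?_
        linarith
      · rw [if_neg h1, sub_zero]
        refine (norm_add_le _ _).trans ?_
        by_cases h2 : s ∈ B
        · rw [if_pos (mem_insert_of_mem h2)]
          linarith [hone hH s]
        · rw [hout s hst (fun h3 => h1 (mem_Ico.2 ⟨max_le (mem_Ico.1 h3).1 (mem_Ico.1 hs).1,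
            (mem_Ico.1 h3).2⟩)) h2, norm_zero]
          linarith
    · rw [if_neg fun h1 => absurd (mem_Ico.1 h1).2 (by omega), sub_zero,
        if_pos (mem_insert_self _ _)]
      linarith [hone hS s]
    · rw [if_neg fun h1 => absurd (mem_Ico.1 h1).2 (by omega), sub_zero]
      have := h.light hS ha s (not_lt.1 fun hc =>
        absurd (htmax s (mem_filter.2 ⟨hs, hc⟩)) (not_le.2 hst))
      linarith
  have hsum := norm_sum_le_of_le _ herr
  have e1 : ∑ s ∈ Ico a₀ b₀, (ε s : 𝕜) * (pair S.val (x s) -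
      if s ∈ Ico (max a' a₀) b' then C.cv (S.j k) (x s) else 0) =
      ∑ s ∈ Ico a₀ b₀, (ε s : 𝕜) * pair S.val (x s) -
        ∑ s ∈ Ico (max a' a₀) b', (ε s : 𝕜) * C.cv (S.j k) (x s) := by
    simp only [mul_sub, sum_sub_distrib, mul_ite, mul_zero]
    rw [sum_ite_mem, inter_eq_right.2 hsub]
  have e2 : ∑ s ∈ Ico a₀ b₀, (if s ∈ insert t B then (1 : ℝ) else 0) ≤ 3 := by
    rw [sum_ite_mem, sum_const, nsmul_eq_mul, mul_one]
    have := (card_le_card (inter_subset_right (s₁ := Ico a₀ b₀) (s₂ := insert t B))).trans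
      (card_insert_le t B)
    exact_mod_cast (show _ ≤ 3 by omega)
  rw [e1, sum_add_distrib, sum_const, nsmul_eq_mul, hcardI] at hsum
  have e3 := norm_sub_norm_le (∑ s ∈ Ico a₀ b₀, (ε s : 𝕜) * pair S.val (x s))
    (∑ s ∈ Ico (max a' a₀) b', (ε s : 𝕜) * C.cv (S.j k) (x s))
  have e4 := mul_le_mul_of_nonneg_left hL hθ.le
  linarith

/-- Plan.  `θ = 1 / ((j+2) * m (j+1))`, `r = ⌈(j+2) * m (j+1)⌉₊`, `N = n j`, `T = N ^ s (j+1)`;
`exists_RIS`, `RIS.signed` (`n_three`, `n_sign`), `avg_of_blocks` for `v s = ε s • x s` with the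
index `j + 1` (`n_pow`, `m_lt`); `v` = the normalised block.  With `L = b - a ≤ m (j+1) * nrm`,
the bound is `m (j+1) * (8 / m (j+2) + 5 θ) ≤ 8 / (j+3) + 5 / (j+2)` (`m_succ (j+1)`). -/
theorem stage1 {Y : Submodule 𝕜 (I →₀ 𝕜)} (hY : Rich Y) {y₀ : I →₀ 𝕜} (hy : y₀ ∈ Y) (j : ℕ) :
    ∃ v ∈ Y, Lt y₀ v ∧ nrm P C v = 1 ∧ Avg P C v (P.n j) ∧
      ∀ S, SegIn P C S → (∀ k ∈ S.A, j + 1 < S.j k) → ‖pair S.val v‖ ≤ 15 / ((j : ℝ) + 2) := by
  have hj : (0 : ℝ) ≤ j := Nat.cast_nonneg j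
  have hm1 := P.four_le (j + 1)
  have hM : 1 ≤ ((j : ℝ) + 2) * P.m (j + 1) := by nlinarith
  have hM0 : 0 < ((j : ℝ) + 2) * P.m (j + 1) := by linarith
  have h3 := P.n_three j
  have hN : 0 < P.n j := by
    have : (0 : ℝ) < P.n j := by linarith
    exact_mod_cast this
  have hθ : 0 < 1 / (((j : ℝ) + 2) * P.m (j + 1)) := one_div_pos.2 hM0
  obtain ⟨x, J, hR, hx⟩ := exists_RIS (P := P) (C := C) hY hy hθ ⌈((j : ℝ) + 2) * P.m (j + 1)⌉₊
  obtain ⟨ε, hε, hsg⟩ := hR.signed hθ ((div_le_one hM0).2 hM)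
    (by rw [mul_one_div, one_le_div hM0]; exact Nat.le_ceil _) (P.n j ^ P.s (j + 1)) (P.n j)
    (by rw [one_div_mul_eq_div, le_div_iff₀ hM0]; exact h3) (by
      push_cast
      refine (P.n_sign j).trans_eq ?_
      congr 1
      field_simp)
  obtain ⟨a, b, hab, hb, havg, hL⟩ := avg_of_blocks (P := P) (C := C) (fun s => ε s • x s)
    (fun i k hik => (hR.lt i k hik).mono Finsupp.support_smul Finsupp.support_smul)
    (fun i => by
      rw [nrm_real_smul, hR.nrm_eq]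
      rcases hε i with e | e <;> simp [e])
    (j + 1) (P.n j) (P.s (j + 1)) hN (P.n_pow j) (P.m_lt (j + 1))
  have hab' : (0 : ℝ) < (b : ℝ) - a := by
    have : (a : ℝ) < b := by exact_mod_cast (show a < b by omega)
    linarith
  have hρ : 0 < nrm P C (∑ i ∈ Ico a b, ε i • x i) :=
    (mul_pos_iff_of_pos_left (P.m_pos (j+1))).1 (hab'.trans_le hL)
  refine ⟨_, ?_, ?_, ?_, havg, fun S hS hk => ?_⟩
  · rw [real_smul_eq]
    refine Y.smul_mem _ (Y.sum_mem fun i _ => ?_)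
    rw [real_smul_eq]
    exact Y.smul_mem _ (hx i).1
  · exact (Lt.sum_right fun i _ => (hx i).2.mono subset_rfl Finsupp.support_smul).mono subset_rfl
      Finsupp.support_smul
  · rw [nrm_real_smul, abs_of_pos (inv_pos.2 hρ), inv_mul_cancel₀ hρ.ne']
  · have h1 := hsg a b hab hb S hS (j + 2) hk
    rw [pair_real_smul_right, norm_mul, RCLike.norm_ofReal, abs_of_pos (inv_pos.2 hρ),
      inv_mul_le_iff₀ hρ]
    have h2 := P.m_succ (j + 1)
    have h4 : P.m (j + 1) * (8 / P.m (j + 2)) ≤ 8 / ((j : ℝ) + 2) := by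
      rw [← mul_div_assoc, div_le_div_iff₀ (P.m_pos _) (by linarith)]
      push_cast at h2
      nlinarith
    have h5 : P.m (j + 1) * (5 * (1 / (((j : ℝ) + 2) * P.m (j + 1)))) = 5 / ((j : ℝ) + 2) := by
      have := (P.m_pos (j + 1)).ne'
      field_simp
    have h6 : 0 ≤ 8 / P.m (j + 2) + 5 * (1 / (((j : ℝ) + 2) * P.m (j + 1))) := by
      have := P.m_pos (j + 2)
      positivity
    refine h1.trans ((mul_le_mul_of_nonneg_right hL h6).trans ?_)
    rw [mul_comm (P.m (j + 1)), mul_assoc, mul_add, h5]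
    refine mul_le_mul_of_nonneg_left ?_ hρ.le
    have h7 : 8 / ((j : ℝ) + 2) + 5 / ((j : ℝ) + 2) ≤ 15 / ((j : ℝ) + 2) := by
      rw [← add_div]
      exact div_le_div_of_nonneg_right (by norm_num) (by linarith)
    linarith

end Crest.Agent.R114
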