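import Crest.Agent.R114.Avg

/-! Row 114, first stage: rapidly increasing sequences; few codes. -/

set_option autoImplicit false

open Finset

namespace Crest.Agent.R114

variable {I : Type} [LinearOrder I] {𝕜 : Type} [RCLike 𝕜] {P : Par} {C : Cod I 𝕜}

theorem stage1a_step (T : Finset I) (hT : T.Nonempty) (J₀ : ℕ) (l : ℝ) {θ : ℝ} (hθ : 0 < θ) :
    ∃ J, J₀ ≤ J ∧ 2 / P.m J * l ≤ θ ∧ (∀ j, J ≤ j → l / ((C.p j : ℝ) + 1) ≤ θ) ∧
      ∃ β, ∀ j, J ≤ j → T ⊆ C.F (C.p j) β := by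
  have h1 : ∀ α ∈ T, ∃ q, α ∈ C.F q (T.max' hT) := fun α hα => C.F_ex _ _ (T.le_max' α hα)
  choose! q hq using h1
  obtain ⟨J₁, hJ₁⟩ := C.p_tend (T.sup q)
  obtain ⟨J₂, hJ₂⟩ := C.p_tend ⌈l / θ⌉₊
  refine ⟨max (max J₀ ⌈2 * l / θ⌉₊) (max J₁ J₂), by omega, ?_, ?_, T.max' hT, ?_⟩
  · set J := max (max J₀ ⌈2 * l / θ⌉₊) (max J₁ J₂) with hJ
    have a1 : ⌈2 * l / θ⌉₊ ≤ J := by omega
    have a2 : 2 * l / θ ≤ J := Nat.ceil_le.1 a1
    have a3 := P.le_m J
    have a4 := P.m_pos J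
    rw [div_le_iff₀ hθ] at a2
    rw [div_mul_eq_mul_div, div_le_iff₀ a4]
    nlinarith
  · intro j hj
    have a1 : l / θ ≤ C.p j := Nat.ceil_le.1 (hJ₂ j (by omega))
    rw [div_le_iff₀ hθ] at a1
    rw [div_le_iff₀ (by positivity)]
    nlinarith
  · intro j hj α hα
    exact C.F_mono _ _ _ ((le_sup (f := q) hα).trans (hJ₁ j (by omega))) (hq α hα)

theorem stage1a_ne_zero {x : I →₀ 𝕜} (h : nrm P C x = 1) : x ≠ 0 := by
  rintro rfl
  rw [nrm_zero] at h
  exact zero_ne_one h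

/-- Plan.  Recursion on pairs `(J s, x s)`.  `J 0 = r + 1`; `x s` from `exists_avg` (to the right of
`x (s-1)`, resp. `y₀`, with `N = n (J s)`; transitivity `Lt.trans` as `x s ≠ 0`).  Given `x s`
choose `J (s+1) ≥ J s` so large that `tail` (`Par.le_m`), `err` (`C.p_tend`) hold and that for
`β` = the maximum of the support of `x s` and all `j ≥ J (s+1)` the supports of `x 0, …, x s` are in
`F (p j) β` (`F_ex`, `F_mono`, `p_tend`; it is enough to treat the sum `x 0 + … + x s` or to keep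
the finite union of the supports in the recursion). For `s = 0` any `β` will do. -/
theorem exists_RIS {Y : Submodule 𝕜 (I →₀ 𝕜)} (hY : Rich Y) {y₀ : I →₀ 𝕜} (hy : y₀ ∈ Y) {θ : ℝ}
    (hθ : 0 < θ) (r : ℕ) :
    ∃ x J, RIS P C θ r x J ∧ ∀ s, x s ∈ Y ∧ Lt y₀ (x s) := by
  classical
  let Inv : (I →₀ 𝕜) × ℕ × Finset I → Prop := fun a =>
    a.1 ∈ Y ∧ Lt y₀ a.1 ∧ nrm P C a.1 = 1 ∧ Avg P C a.1 (P.n a.2.1) ∧ a.1.support ⊆ a.2.2
  let R : (I →₀ 𝕜) × ℕ × Finset I → (I →₀ 𝕜) × ℕ × Finset I → Prop := fun a b =>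
    Lt a.1 b.1 ∧ a.2.1 ≤ b.2.1 ∧ a.2.2 ⊆ b.2.2 ∧ 2 / P.m b.2.1 * l1 a.1 ≤ θ ∧
      (∀ j, b.2.1 ≤ j → l1 a.1 / ((C.p j : ℝ) + 1) ≤ θ) ∧
      ∃ β, ∀ j, b.2.1 ≤ j → a.2.2 ⊆ C.F (C.p j) β
  have hstep : ∀ a : {a // Inv a}, ∃ b : {a // Inv a}, R a.1 b.1 := by
    rintro ⟨⟨x, J, T⟩, hY1, hl, hn, hA, hT⟩
    have hx0 : x ≠ 0 := stage1a_ne_zero hn
    have hTne : T.Nonempty := (Finsupp.support_nonempty_iff.2 hx0).mono hT
    obtain ⟨J', h1, h2, h3, h4⟩ := stage1a_step (P := P) (C := C) T hTne J (l1 x) hθ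
    obtain ⟨x', hx', hl', hn', hA'⟩ := exists_avg (P := P) (C := C) hY hY1 (P.n J')
    exact ⟨⟨(x', J', T ∪ x'.support), hx', hl.trans hl' hx0, hn', hA', subset_union_right⟩,
      hl', h1, subset_union_left, h2, h3, h4⟩
  choose f hf using hstep
  obtain ⟨x₀, hx₀, hl₀, hn₀, hA₀⟩ := exists_avg (P := P) (C := C) hY hy (P.n (r + 1))
  let a₀ : {a // Inv a} := ⟨(x₀, r + 1, x₀.support), hx₀, hl₀, hn₀, hA₀, subset_rfl⟩
  let a : ℕ → {a // Inv a} := fun s => f^[s] a₀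
  have ha : ∀ s, R (a s).1 (a (s + 1)).1 := fun s => by
    have : a (s + 1) = f (a s) := Function.iterate_succ_apply' f s a₀
    rw [this]
    exact hf _
  have hTm : Monotone fun s => (a s).1.2.2 := monotone_nat_of_le_succ fun s => (ha s).2.2.1
  refine ⟨fun s => (a s).1.1, fun s => (a s).1.2.1, ⟨?_, fun s => (a s).2.2.2.1,
    fun s => (a s).2.2.2.2.1, monotone_nat_of_le_succ fun s => (ha s).2.1, le_rfl,
    fun s => (ha s).2.2.2.1, fun s => (ha s).2.2.2.2.1, ?_⟩, fun s => ⟨(a s).2.1, (a s).2.2.1⟩⟩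
  · intro s s' hss
    induction s', hss using Nat.le_induction with
    | base => exact (ha s).1
    | succ k _ ih => exact ih.trans (ha k).1 (stage1a_ne_zero (a k).2.2.2.1)
  · intro s
    cases s with
    | zero =>
      obtain ⟨β, _⟩ := Finsupp.support_nonempty_iff.2 (stage1a_ne_zero hn₀)
      exact ⟨β, fun j _ s' hs' => absurd hs' (Nat.not_lt_zero _)⟩
    | succ s =>
      obtain ⟨β, hβ⟩ := (ha s).2.2.2.2.2
      refine ⟨β, fun j hj s' hs' => ?_⟩
      exact ((a s').2.2.2.2.2.trans (hTm (Nat.lt_succ_iff.1 hs'))).trans (hβ j hj)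

/-- Two special sequences with a common index have the same earlier indices. -/
theorem Seg.OK.image_eq {S S' : Seg I 𝕜} (h : S.OK C) (h' : S'.OK C) {k k' : ℕ} (hk : k < S.len)
    (hk' : k' < S'.len) (e : S.j k = S'.j k') : (range k).image S.j = (range k').image S'.j := by
  rw [← (h.2.1 k hk).2.1, ← (h'.2.1 k' hk').2.1, e]

theorem stage1a_mono {S : Seg I 𝕜} (h : S.OK C) {k l : ℕ} (hkl : k ≤ l) (hl : l < S.len) :
    S.j k ≤ S.j l := by
  rcases hkl.eq_or_lt with rfl | hlt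
  · exact le_rfl
  · exact (h.1 k l hlt hl).1.le

theorem stage1a_first_le {S S' : Seg I 𝕜} (h : S.OK C) (h' : S'.OK C) {a k k' l l' : ℕ}
    (hl : l < S.len) (hl' : l' < S'.len) (e : S.j l = S'.j l') (hk : ∀ i, i < k → S.j i < a)
    (hk' : ∀ i, i < k' → S'.j i < a) (ha : a ≤ S.j l) (ha' : a ≤ S'.j k') :
    S.j k ≤ S'.j k' := by
  have h1 : k' ≤ l' := by
    by_contra hc
    have := hk' l' (not_le.1 hc)
    omega
  have h2 : ∃ i, i ≤ l ∧ S.j i = S'.j k' := by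
    rcases h1.eq_or_lt with rfl | hlt
    · exact ⟨l, le_rfl, e⟩
    · have : S'.j k' ∈ (range l).image S.j := by
        rw [h.image_eq h' hl hl' e]
        exact mem_image_of_mem _ (mem_range.2 hlt)
      obtain ⟨i, hi, hi'⟩ := mem_image.1 this
      exact ⟨i, (mem_range.1 hi).le, hi'⟩
  obtain ⟨i, hi, hi'⟩ := h2
  have h3 : k ≤ i := by
    by_contra hc
    have := hk i (not_le.1 hc)
    omega
  rw [← hi']
  exact stage1a_mono h h3 (by omega)

/-- Plan.  Call `S` heavy if `SegIn P C S` and the window part acts by more than `θ` on `x s`.  Then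
the window part has a position, so there is a least `k = k(S) < len` with `J s ≤ S.j k`, and
`S.j k < J (s+1)`.  Let `D ⊆ range (J (s+1))` be the set of the values `S.j k(S)`, `S` heavy.  If
two heavy `S, S'` have a common index in their window parts, at positions `l, l'`, then by
`Seg.OK.image_eq` the sets `{S.j i : i ≤ l}` and `{S'.j i : i ≤ l'}` agree, and `S.j k(S)` is the
least element `≥ J s` of this set, so `S.j k(S) = S'.j k(S')`.  If `D` had a subset `D'` with `r+1`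
elements, choose heavy `S_q`, `q ∈ D'`; their window parts have pairwise disjoint index sets, all
indices `≥ J s ≥ r + 1`, so `Fn.comb'` with unimodular `c q` gives
`(r+1) θ < ∑ ‖…‖ ≤ nrm (x s) = 1`, contradiction. -/
theorem RIS.few {θ : ℝ} {r : ℕ} {x : ℕ → I →₀ 𝕜} {J : ℕ → ℕ} (h : RIS P C θ r x J)
    (hθ : 0 < θ) (hr : 1 ≤ r * θ) (s : ℕ) :
    ∃ D : Finset ℕ, D.card ≤ r ∧ ∀ S, SegIn P C S →
      θ < ‖pair (S.win (Set.Ico (J s) (J (s + 1)))).val (x s)‖ →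
      ∃ k, k < S.len ∧ S.j k ∈ D ∧ J s ≤ S.j k ∧ ∀ i, i < k → S.j i < J s := by
  classical
  set W : Set ℕ := Set.Ico (J s) (J (s + 1)) with hW
  have hWo : W.OrdConnected := Set.ordConnected_Ico
  let H : ℕ → Seg I 𝕜 → Prop := fun q S => SegIn P C S ∧ θ < ‖pair (S.win W).val (x s)‖ ∧
    ∃ k, S.j k = q ∧ J s ≤ q ∧ ∀ i, i < k → S.j i < J s
  refine ⟨(range (J (s + 1))).filter fun q => ∃ S, H q S, ?_, ?_⟩
  · by_contra hc
    obtain ⟨D', hD', hcard⟩ := exists_subset_card_eq (not_le.1 hc : r + 1 ≤ _)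
    have h1 : ∀ q, ∃ S : Seg I 𝕜, q ∈ D' → H q S := by
      intro q
      by_cases hq : q ∈ D'
      · obtain ⟨S, hS⟩ := (mem_filter.1 (hD' hq)).2
        exact ⟨S, fun _ => hS⟩
      · exact ⟨⟨fun _ => 0, fun _ => 0, 0, ∅, ∅⟩, fun hq' => absurd hq' hq⟩
    choose S hS using h1
    have h2 : ∀ q, ∃ c : 𝕜, ‖c‖ = 1 ∧ c * pair ((S q).win W).val (x s) =
        (‖pair ((S q).win W).val (x s)‖ : 𝕜) := fun q => by
      obtain ⟨c, hc1, hc2⟩ := RCLike.exists_norm_eq_mul_self (pair ((S q).win W).val (x s))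
      exact ⟨c, hc1, hc2.symm⟩
    choose c hc using h2
    have hJ : r + 1 ≤ J s := h.big.trans (h.mono (Nat.zero_le s))
    have hFn : Fn P C none (∑ q ∈ D', c q • ((S q).win W).val) := by
      refine Fn.comb' D' (fun q => (S q).win W) c (fun q _ => (hc q).1.le)
        (fun q hq => (hS q hq).1.win hWo) ?_ ?_
      · intro q hq k hk
        have : J s ≤ (S q).j k := (Seg.mem_win.1 hk).2.1
        change D'.card ≤ (S q).j k
        omega
      · intro q hq q' hq' hne l hl l' hl' e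
        change (S q).j l = (S q').j l' at e
        obtain ⟨hs1, _, k, hk1, hk2, hk3⟩ := hS q hq
        obtain ⟨hs1', _, k', hk1', hk2', hk3'⟩ := hS q' hq'
        have b1 := Seg.mem_win.1 hl
        have b1' := Seg.mem_win.1 hl'
        have c1 := hs1.1.2.2.1 l b1.1
        have c1' := hs1'.1.2.2.1 l' b1'.1
        have d1 := stage1a_first_le hs1.1 hs1'.1 c1 c1' e hk3 hk3' b1.2.1 (hk2'.trans hk1'.ge)
        have d2 := stage1a_first_le hs1'.1 hs1.1 c1' c1 e.symm hk3' hk3 b1'.2.1 (hk2.trans hk1.ge)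
        omega
    have h3 := hFn.pair_le_nrm (x s)
    rw [h.nrm_eq, pair_sum_left] at h3
    simp only [pair_smul_left, fun q => (hc q).2] at h3
    rw [← RCLike.ofReal_sum, RCLike.norm_ofReal] at h3
    have h4 : ∑ q ∈ D', θ ≤ ∑ q ∈ D', ‖pair ((S q).win W).val (x s)‖ :=
      sum_le_sum fun q hq => (hS q hq).2.1.le
    rw [sum_const, hcard, nsmul_eq_mul] at h4
    have h5 := le_abs_self (∑ q ∈ D', ‖pair ((S q).win W).val (x s)‖)
    push_cast at h4
    linarith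
  · intro S hS hθS
    have hne : (S.win W).A.Nonempty := by
      rw [nonempty_iff_ne_empty]
      intro he
      rw [Seg.val_eq_zero he, pair_zero_left, norm_zero] at hθS
      exact lt_asymm hθ hθS
    obtain ⟨k₀, hk₀⟩ := hne
    obtain ⟨hk₀A, hk₀W⟩ := Seg.mem_win.1 hk₀
    have hex : ∃ k, J s ≤ S.j k := ⟨k₀, hk₀W.1⟩
    have hle : Nat.find hex ≤ k₀ := Nat.find_min' hex hk₀W.1
    have hlen : k₀ < S.len := hS.1.2.2.1 k₀ hk₀A
    have hmin : ∀ i, i < Nat.find hex → S.j i < J s := fun i hi => not_le.1 (Nat.find_min hex hi)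
    refine ⟨Nat.find hex, by omega, mem_filter.2 ⟨mem_range.2 ?_, S, hS, hθS, Nat.find hex, rfl,
      Nat.find_spec hex, hmin⟩, Nat.find_spec hex, hmin⟩
    exact (stage1a_mono hS.1 hle hlen).trans_lt hk₀W.2

end Crest.Agent.R114
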