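import Crest.Agent.R114.Stage2a

/-! Row 114, second stage: the bootstrapping step. -/

set_option autoImplicit false

open Finset

namespace Crest.Agent.R114

variable {I : Type} [LinearOrder I] {𝕜 : Type} [RCLike 𝕜] {P : Par} {C : Cod I 𝕜}

omit [LinearOrder I] in
theorem stage2b_win_j (S : Seg I 𝕜) (D : Set ℕ) : (S.win D).j = S.j := rfl

theorem stage2b_split {ι : Type} [Fintype ι] (S : ι → Seg I 𝕜) (c : ι → 𝕜) (hc : ∀ q, ‖c q‖ ≤ 1)
    (a : ℕ) (x : I →₀ 𝕜) :
    ‖pair (∑ q, c q • (S q).val) x‖ ≤ ∑ q, ‖pair ((S q).win (Set.Iio a)).val x‖ +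
      ‖pair (∑ q, c q • ((S q).win (Set.Ici a)).val) x‖ := by
  have e : ∑ q, c q • (S q).val = ∑ q, c q • ((S q).win (Set.Iio a)).val +
      ∑ q, c q • ((S q).win (Set.Ici a)).val := by
    rw [← sum_add_distrib]
    exact sum_congr rfl fun q _ => by rw [← smul_add, ← Seg.val_split]
  rw [e, pair_add_left]
  refine (norm_add_le _ _).trans (add_le_add ?_ le_rfl)
  rw [pair_sum_left]
  refine norm_sum_le_of_le _ fun q _ => ?_
  rw [pair_smul_left, norm_mul]
  exact mul_le_of_le_one_left (norm_nonneg _) (hc q)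

theorem stage2b_comb_le {ι : Type} [Fintype ι] (S : ι → Seg I 𝕜) (c : ι → 𝕜)
    (hc : ∀ q, ‖c q‖ ≤ 1) (x : I →₀ 𝕜) :
    ‖pair (∑ q, c q • (S q).val) x‖ ≤ ∑ q, ‖pair (S q).val x‖ := by
  rw [pair_sum_left]
  refine norm_sum_le_of_le _ fun q _ => ?_
  rw [pair_smul_left, norm_mul]
  exact mul_le_of_le_one_left (norm_nonneg _) (hc q)

theorem stage2b_win_dis {ι : Type} {S : ι → Seg I 𝕜}
    (hdis : ∀ q q', q ≠ q' → ∀ k ∈ (S q).A, ∀ k' ∈ (S q').A, (S q).j k ≠ (S q').j k')
    (D : Set ℕ) (q q' : ι) (h : q ≠ q') : ∀ k ∈ ((S q).win D).A, ∀ k' ∈ ((S q').win D).A,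
      ((S q).win D).j k ≠ ((S q').win D).j k' :=
  fun k hk k' hk' => hdis q q' h k (Seg.mem_win.1 hk).1 k' (Seg.mem_win.1 hk').1

/-- Plan.  `w = ∑ c t • (S t).val ∈ K` (`Fn.comb`).  Let `D = card ι`.  For each `i` split each
segment at `jj i + 1` (`Seg.val_split`).  The parts with indices `≤ jj i` give at most `8 / m j`
(`Avg.sum_seg`).  The parts with indices `≥ jj i + 1` have indices `> jj i + 1` (indices are odd,
`jj i + 1` is even).  If `D ≤ t i` they give `≤ D * 15 / (jj i + 2) ≤ 1 / m j` (`hu.seg`, `hu.few`).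
If `t (i+1) ≤ D` they give `≤ 1 / m j` (`sum_seg_tail`, `hu.tail`).  At most one `i` has
`t i < D < t (i+1)`; there `‖pair w (u i)‖ ≤ 1`. -/
theorem Ris2.high_comb {j : ℕ} {u : ℕ → I →₀ 𝕜} {jj t : ℕ → ℕ} (hu : Ris2 P C j u jj t)
    (s : Finset ℕ) (ι : Type) [Fintype ι] (S : ι → Seg I 𝕜) (c : ι → 𝕜) (hc : ∀ q, ‖c q‖ ≤ 1)
    (hS : ∀ q, SegIn P C (S q)) (hd : ∀ q, ∀ k ∈ (S q).A, Fintype.card ι ≤ (S q).j k)
    (hdis : ∀ q q', q ≠ q' → ∀ k ∈ (S q).A, ∀ k' ∈ (S q').A, (S q).j k ≠ (S q').j k')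
    (hj : ∀ q, ∀ k ∈ (S q).A, j ≤ (S q).j k) :
    ‖pair (∑ q, c q • (S q).val) (∑ i ∈ s, u i)‖ ≤ 9 / P.m j * s.card + 1 := by
  classical
  set w := ∑ q, c q • (S q).val with hw
  have hwK : Fn P C none w :=
    Fn.comb ι S c hc (fun q => (hS q).1) hd hdis (fun q k hk => (hS q).2 k hk)
  have hm := P.m_pos j
  set D := Fintype.card ι with hD
  have key : ∀ i, ‖pair w (u i)‖ ≤ 9 / P.m j + if t i < D ∧ D < t (i + 1) then 1 else 0 := by
    intro i
    split_ifs with hb
    · have := hwK.pair_le_nrm (u i)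
      rw [hu.nrm_eq] at this
      have h9 : 0 ≤ 9 / P.m j := by positivity
      linarith
    · have h1 := stage2b_split S c hc (jj i + 1) (u i)
      have h2 : ∑ q, ‖pair ((S q).win (Set.Iio (jj i + 1))).val (u i)‖ ≤ 8 / P.m j :=
        (hu.avg i).sum_seg univ _ (fun q _ => (hS q).win Set.ordConnected_Iio)
          (fun q _ q' _ h => stage2b_win_dis hdis _ q q' h) j (fun q _ k hk => by
            obtain ⟨h1, h2⟩ := Seg.mem_win.1 hk
            exact ⟨hj q k h1, P.n_mono (Nat.lt_succ_iff.1 h2)⟩)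
      have h3 : ∑ q, ‖pair ((S q).win (Set.Ici (jj i + 1))).val (u i)‖ ≤ 1 / P.m j := by
        rcases not_and_or.1 hb with hb | hb
        · have h4 : ∀ q, ‖pair ((S q).win (Set.Ici (jj i + 1))).val (u i)‖ ≤
              15 / ((jj i : ℝ) + 2) := fun q =>
            hu.seg i _ ((hS q).win Set.ordConnected_Ici) (fun k hk => by
              obtain ⟨h1, h2⟩ := Seg.mem_win.1 hk
              have h3 : jj i + 1 ≤ (S q).j k := h2
              obtain ⟨a, ha⟩ := (hS q).odd h1
              obtain ⟨b, hb⟩ := hu.odd i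
              rw [stage2b_win_j]
              omega)
          refine (sum_le_card_nsmul _ _ _ fun q _ => h4 q).trans (le_trans ?_ (hu.few i))
          rw [nsmul_eq_mul, card_univ]
          refine mul_le_mul_of_nonneg_right ?_ (by positivity)
          exact_mod_cast not_lt.1 hb
        · refine (sum_seg_tail univ _ (fun q _ => (hS q).win Set.ordConnected_Ici)
            (fun q _ q' _ h => stage2b_win_dis hdis _ q q' h) (u i) (t (i + 1))
            (fun q _ k hk => (not_lt.1 hb).trans (hd q k (Seg.mem_win.1 hk).1))).trans (hu.tail i)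
      have h4 := stage2b_comb_le (fun q => (S q).win (Set.Ici (jj i + 1))) c hc (u i)
      have : 9 / P.m j = 8 / P.m j + 1 / P.m j := by ring
      linarith
  rw [pair_sum_right]
  refine (norm_sum_le_of_le _ fun i _ => key i).trans ?_
  rw [sum_add_distrib, sum_const, nsmul_eq_mul, mul_comm, sum_boole]
  refine add_le_add le_rfl ?_
  have : (s.filter fun i => t i < D ∧ D < t (i + 1)).card ≤ 1 := by
    refine card_le_one.2 fun a ha b hb => ?_
    obtain ⟨-, a1, a2⟩ := mem_filter.1 ha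
    obtain ⟨-, b1, b2⟩ := mem_filter.1 hb
    by_contra hab
    rcases lt_or_gt_of_ne hab with h | h
    · have := hu.t_mono (show a + 1 ≤ b from h)
      omega
    · have := hu.t_mono (show b + 1 ≤ a from h)
      omega
  exact_mod_cast this

/-- Plan.  `Fn.none_inv`.  Unit vectors: `‖(∑ u i) α‖ ≤ 1` (one term only; `apply_le_nrm`).
Weighted of index `l`: `Ris2.low` if `l < j` (`m l ≥ 4`, `n l ≤ Q`), `Ris2.high` otherwise.
Combinations: split each segment at `j`; the parts with index `< j` give by `sum_seg_le`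
(`D = range j`) and `Ris2.low` at most `∑_{l<j} (A |s| + n l (B+4)) / m l ≤ A |s| / 2 + Q (B+4)`
(`Par.sum_inv_le` with `m 0 ≥ 4`); the other parts: `Ris2.high_comb` (`SegIn.win`). -/
theorem Ris2.step {j : ℕ} {u : ℕ → I →₀ 𝕜} {jj t : ℕ → ℕ} (hu : Ris2 P C j u jj t) {A B : ℝ}
    (hA : 0 ≤ A) (h : Est P C u A B) :
    Est P C u (A / 2 + 10 / P.m j) ((∑ l ∈ range j, (P.n l : ℝ)) * (B + 4) + 1) := by
  classical
  have hB : 0 ≤ B := by simpa using h ∅ 0 (Fn.zero none)
  have hm := P.m_pos j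
  intro s w hw
  set Q := ∑ l ∈ range j, (P.n l : ℝ) with hQ
  have hQ0 : 0 ≤ Q := sum_nonneg fun l _ => Nat.cast_nonneg _
  have hs0 : (0 : ℝ) ≤ s.card := Nat.cast_nonneg _
  have p1 : 0 ≤ A * s.card := mul_nonneg hA hs0
  have p2 : 0 ≤ 1 / P.m j * s.card := by positivity
  have p3 : 0 ≤ Q * (B + 4) := by positivity
  have e : (A / 2 + 10 / P.m j) * s.card = A * s.card / 2 + 10 * (1 / P.m j * s.card) := by ring
  rw [e]
  rcases hw.none_inv with ⟨α, c, hc, rfl⟩ | ⟨l, hl⟩ | ⟨ι, _, S, c, hc, hS, hd, hdis, rfl⟩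
  · have h1 : ‖(∑ i ∈ s, u i) α‖ ≤ 1 := by
      rw [Finsupp.finsetSum_apply]
      by_cases hα : ∃ i ∈ s, u i α ≠ 0
      · obtain ⟨i, hi, hα⟩ := hα
        rw [sum_eq_single_of_mem i hi (fun i' _ hne => ?_)]
        · exact (apply_le_nrm (P := P) (C := C) (u i) α).trans (hu.nrm_eq i).le
        · by_contra h0
          rcases lt_or_gt_of_ne hne with h1 | h1
          · exact lt_irrefl α (hu.lt _ _ h1 α (Finsupp.mem_support_iff.2 h0) α
              (Finsupp.mem_support_iff.2 hα))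
          · exact lt_irrefl α (hu.lt _ _ h1 α (Finsupp.mem_support_iff.2 hα) α
              (Finsupp.mem_support_iff.2 h0))
      · push Not at hα
        rw [sum_eq_zero hα]; simp
    rw [pair_single_left, norm_mul]
    have := mul_le_one₀ hc (norm_nonneg _) h1
    linarith
  · rcases lt_or_ge l j with hlj | hlj
    · have h1 := hu.low hA h s hlj.le hl
      have h2 : (P.n l : ℝ) ≤ Q :=
        single_le_sum (f := fun l => (P.n l : ℝ)) (fun l _ => Nat.cast_nonneg _) (mem_range.2 hlj)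
      have h3 : (P.n l : ℝ) * (B + 4) ≤ Q * (B + 4) := mul_le_mul_of_nonneg_right h2 (by linarith)
      have h4 : (A * s.card + P.n l * (B + 4)) / P.m l ≤ (A * s.card + P.n l * (B + 4)) / 4 :=
        div_le_div_of_nonneg_left (by positivity) (by norm_num) (P.four_le l)
      linarith
    · have h1 := hu.high s hlj hl
      have e2 : 4 / P.m j * s.card = 4 * (1 / P.m j * s.card) := by ring
      linarith
  · have h1 := stage2b_split S c hc j (∑ i ∈ s, u i)
    have h2 := hu.high_comb s ι (fun q => (S q).win (Set.Ici j)) c hc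
      (fun q => (hS q).win Set.ordConnected_Ici) (fun q k hk => hd q k (Seg.mem_win.1 hk).1)
      (stage2b_win_dis hdis _) (fun q k hk => (Seg.mem_win.1 hk).2)
    have h3 := sum_seg_le univ (fun q => (S q).win (Set.Iio j))
      (fun q _ => (hS q).win Set.ordConnected_Iio)
      (fun q _ q' _ h => stage2b_win_dis hdis _ q q' h) (∑ i ∈ s, u i)
      (fun l => A * s.card * (P.m l)⁻¹ + P.n l * (B + 4)) (range j)
      (fun q _ k hk => mem_range.2 (Seg.mem_win.1 hk).2) (fun l hl φ hφ => by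
        refine (hu.low hA h s (mem_range.1 hl).le hφ).trans ?_
        rw [add_div, div_eq_mul_inv]
        refine add_le_add le_rfl (div_le_self (by positivity) ?_)
        linarith [P.four_le l])
    rw [sum_add_distrib, ← mul_sum, ← sum_mul, ← hQ] at h3
    have h4 : ∑ l ∈ range j, (P.m l)⁻¹ ≤ 1 / 2 := by
      refine (P.sum_inv_le 0 _ fun l _ => Nat.zero_le l).trans ?_
      rw [div_le_div_iff₀ (P.m_pos 0) two_pos]
      linarith [P.m_zero]
    have h5 := mul_le_mul_of_nonneg_left h4 p1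
    have e2 : 9 / P.m j * s.card = 9 * (1 / P.m j * s.card) := by ring
    linarith

end Crest.Agent.R114
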