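import Crest.Agent.R114.Stage1
import Crest.Agent.R114.Stage2b

/-! Row 114, second stage: exact pairs. -/

set_option autoImplicit false

open Finset

namespace Crest.Agent.R114

variable {I : Type} [LinearOrder I] {𝕜 : Type} [RCLike 𝕜] {P : Par} {C : Cod I 𝕜}

theorem stage2_step {Y : Submodule 𝕜 (I →₀ 𝕜)} (hY : Rich Y) (j : ℕ) (q : ℕ × Y) :
    ∃ (J : ℕ) (q' : ℕ × Y), Odd J ∧ j ≤ J ∧ q.1 ≤ J ∧
      (q.1 : ℝ) * (15 / ((J : ℝ) + 2)) ≤ 1 / P.m j ∧ Lt q.2.1 q'.2.1 ∧ nrm P C q'.2.1 = 1 ∧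
      Avg P C q'.2.1 (P.n J) ∧
      (∀ S, SegIn P C S → (∀ k ∈ S.A, J + 1 < S.j k) →
        ‖pair S.val q'.2.1‖ ≤ 15 / ((J : ℝ) + 2)) ∧
      q.1 ≤ q'.1 ∧ 2 / P.m q'.1 * l1 q'.2.1 ≤ 1 / P.m j := by
  have hm := P.m_pos j
  obtain ⟨a, ha⟩ := exists_nat_ge ((q.1 : ℝ) * 15 * P.m j)
  obtain ⟨v, hv, h1, h2, h3, h4⟩ := stage1 (P := P) (C := C) hY q.2.2 (2 * (a + j + q.1) + 1)
  obtain ⟨b, hb⟩ := exists_nat_ge (2 * l1 v * P.m j)
  refine ⟨2 * (a + j + q.1) + 1, (b + q.1, ⟨v, hv⟩), odd_two_mul_add_one _, by omega, by omega, ?_,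
    h1, h2, h3, h4, Nat.le_add_left _ _, ?_⟩
  · rw [← mul_div_assoc, div_le_div_iff₀ (by positivity) hm, one_mul]
    push_cast
    linarith [Nat.cast_nonneg (α := ℝ) a, Nat.cast_nonneg (α := ℝ) j,
      Nat.cast_nonneg (α := ℝ) q.1]
  · have h5 := P.le_m (b + q.1)
    rw [div_mul_eq_mul_div, div_le_div_iff₀ (P.m_pos _) hm, one_mul]
    push_cast at h5
    linarith [Nat.cast_nonneg (α := ℝ) q.1]

/-- Plan.  Recursion on triples `(t i, jj i, u i)`: `t 0 = 0`; given `t i` choose `jj i` odd,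
`≥ j`, `≥ t i`, with `few`; `u i` from `stage1` (to the right of `u (i-1)`, resp. `y₀`); then
`t (i+1) ≥ t i` with `tail` (`Par.le_m`). -/
theorem exists_ris2 {Y : Submodule 𝕜 (I →₀ 𝕜)} (hY : Rich Y) {y₀ : I →₀ 𝕜} (hy : y₀ ∈ Y) (j : ℕ) :
    ∃ u jj t, Ris2 P C j u jj t ∧ ∀ i, u i ∈ Y ∧ Lt y₀ (u i) := by
  choose J f h1 h2 h3 h4 h5 h6 h7 h8 h9 h10 using stage2_step (P := P) (C := C) hY j
  let st : ℕ → ℕ × Y := fun i => f^[i] (0, ⟨y₀, hy⟩)
  have hst : ∀ i, st (i + 1) = f (st i) := fun i => Function.iterate_succ_apply' _ _ _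
  have hlt : ∀ i k, i < k → Lt (st i).2.1 (st k).2.1 := by
    intro i k hik
    induction k, hik using Nat.le_induction with
    | base => exact hst i ▸ h5 _
    | succ k hk ih =>
      obtain ⟨k, rfl⟩ := Nat.exists_eq_succ_of_ne_zero (by omega : k ≠ 0)
      refine ih.trans (hst (k + 1) ▸ h5 _) fun h0 => ?_
      have := h6 (st k)
      rw [← hst, h0, nrm_zero] at this
      exact zero_ne_one this
  refine ⟨fun i => (f (st i)).2.1, fun i => J (st i), fun i => (st i).1,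
    ⟨fun i i' h => ?_, fun i => h6 _, fun i => h7 _, fun i => h1 _, fun i => h2 _, fun i => h8 _,
      monotone_nat_of_le_succ fun i => hst i ▸ h9 _, fun i => h3 _, fun i => h4 _,
      fun i => ?_⟩, fun i => ⟨(f (st i)).2.2, ?_⟩⟩
  · rw [← hst, ← hst]
    exact hlt _ _ (by omega)
  · rw [hst]
    exact h10 _
  · have := hlt 0 (i + 1) i.succ_pos
    rwa [hst] at this

/-- Plan.  With `Q = ∑_{l<j} n l`, by induction on `k`:
`Est u (2⁻¹^k + 20 / m j) (5 (Q+1)^k - 4)` (start: triangle inequality, `Est u 1 0`; step: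
`Ris2.step`; `Est` is monotone in `A`, `B`).  For `k = s j`: `2⁻¹^k ≤ 1 / m j` (`m_lt`) and
`5 (Q+1)^k ≤ n j / m j` (`n_boot`). -/
theorem Ris2.bound {j : ℕ} {u : ℕ → I →₀ 𝕜} {jj t : ℕ → ℕ} (hu : Ris2 P C j u jj t) :
    nrm P C (∑ i ∈ range (P.n j), u i) ≤ 22 * P.n j / P.m j := by
  have hm := P.m_pos j
  set Q : ℝ := ∑ l ∈ range j, (P.n l : ℝ) with hQ
  have hQ0 : 0 ≤ Q := sum_nonneg fun _ _ => Nat.cast_nonneg _
  have key : ∀ k : ℕ, Est P C u (2⁻¹ ^ k + 20 / P.m j) (5 * (Q + 1) ^ k - 4) := by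
    intro k
    induction k with
    | zero =>
      intro s w hw
      refine ((hw.pair_le_nrm _).trans (nrm_sum_le _ _)).trans ?_
      simp only [hu.nrm_eq, sum_const, nsmul_eq_mul, mul_one, pow_zero]
      have : 0 ≤ 20 / P.m j * s.card := by positivity
      linarith
    | succ k ih =>
      intro s w hw
      refine (hu.step (by positivity) ih s w hw).trans (add_le_add (le_of_eq ?_) ?_)
      · ring
      · have : 1 ≤ (Q + 1) ^ k := one_le_pow₀ (by linarith)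
        rw [← hQ, pow_succ]
        linarith
  refine nrm_le fun w hw => (key (P.s j) _ w hw).trans ?_
  have h1 : (2⁻¹ : ℝ) ^ P.s j ≤ 1 / P.m j := by
    rw [inv_pow, one_div]
    exact inv_anti₀ hm (P.m_lt j).le
  have h2 : 5 * (Q + 1) ^ P.s j ≤ P.n j / P.m j := by
    rw [le_div_iff₀' hm]
    exact P.n_boot j
  have h3 := mul_le_mul_of_nonneg_right h1 (Nat.cast_nonneg (α := ℝ) (P.n j))
  rw [card_range]
  have e : 22 * P.n j / P.m j =
    1 / P.m j * P.n j + 20 / P.m j * P.n j + P.n j / P.m j := by ring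
  rw [e, add_mul]
  linarith

/-- Plan.  `x = ∑_{i < n j} u i` (`n j > 0` by `n_three`), `exists_W` with `ε = n j / 2` gives `φ`
and `t ≥ n j / (2 m j) > 0` with `pair φ x = t`; take `t⁻¹ • x`. -/
theorem exact_pair {Y : Submodule 𝕜 (I →₀ 𝕜)} (hY : Rich Y) {y₀ : I →₀ 𝕜} (hy : y₀ ∈ Y) (j : ℕ) :
    ∃ u ∈ Y, ∃ φ, Lt y₀ u ∧ u ≠ 0 ∧ Fn P C (some j) φ ∧ Hull φ u ∧ pair φ u = 1 ∧
      nrm P C u ≤ 44 := by
  obtain ⟨u, jj, t, hu, hY'⟩ := exists_ris2 (P := P) (C := C) hY hy j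
  have hm := P.m_pos j
  have hn : (0 : ℝ) < P.n j :=
    lt_of_lt_of_le (by have := P.m_pos (j + 1); positivity) (P.n_three j)
  obtain ⟨φ, hφ, hH, τ, hτ, hp⟩ := exists_W (P := P) (C := C) j (range (P.n j)) u
    (card_range _).le (fun i _ i' _ h => hu.lt i i' h) (half_pos hn)
  simp only [hu.nrm_eq, sum_const, card_range, nsmul_eq_mul, mul_one, sub_half] at hτ
  have hτ0 : 0 < τ := lt_of_lt_of_le (by positivity) hτ
  have hτ1 : (τ : 𝕜) ≠ 0 := RCLike.ofReal_ne_zero.2 hτ0.ne'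
  have hp' : pair φ ((τ : 𝕜)⁻¹ • ∑ i ∈ range (P.n j), u i) = 1 := by
    rw [pair_smul_right, hp, inv_mul_cancel₀ hτ1]
  refine ⟨(τ : 𝕜)⁻¹ • ∑ i ∈ range (P.n j), u i,
    Y.smul_mem _ (Y.sum_mem fun i _ => (hY' i).1), φ,
    (Lt.sum_right fun i _ => (hY' i).2).mono Subset.rfl Finsupp.support_smul, fun h => ?_, hφ, ?_,
    hp', ?_⟩
  · rw [h, pair_zero_right] at hp'
    exact zero_ne_one hp'
  · rw [Hull, Finsupp.support_smul_eq (inv_ne_zero hτ1)]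
    exact hH
  · rw [nrm_smul, norm_inv, RCLike.norm_ofReal, abs_of_pos hτ0, inv_mul_le_iff₀ hτ0]
    refine hu.bound.trans ?_
    have e : 22 * P.n j / P.m j = P.n j / 2 / P.m j * 44 := by ring
    rw [e]
    exact mul_le_mul_of_nonneg_right hτ (by norm_num)

end Crest.Agent.R114
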