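import Crest.Agent.R114.Avg

/-! Row 114, second stage: functionals of small index. -/

set_option autoImplicit false

open Finset

namespace Crest.Agent.R114

variable {I : Type} [LinearOrder I] {𝕜 : Type} [RCLike 𝕜] {P : Par} {C : Cod I 𝕜}

omit [LinearOrder I] in
theorem stage2a_common {w z : I →₀ 𝕜} (h : pair w z ≠ 0) :
    ∃ α, α ∈ w.support ∧ α ∈ z.support := by
  by_contra hc
  exact h (pair_eq_zero fun α hα hα' => hc ⟨α, hα, hα'⟩)

/-- Plan.  For `i ∈ s` let `R i = {r | pair (w r) (u i) ≠ 0}`; `i` is split if `R i` has at least two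
elements.  At most `d` indices `i` are split: `i ↦ max (R i)` is injective on them (if `i < i'`
have the same maximum `r`, and `r' < r` is in `R i'`, a common point of the supports of `w r'`,
`u i'` is both below and above a common point of those of `w r`, `u i`).  A split `i` contributes
`∑_r ‖pair (w r) (u i)‖ ≤ 4`.  Let `s r` be the set of unsplit `i` with `r ∈ R i`; these sets are
disjoint, and `pair (w r) (∑_{i unsplit} u i) = pair (w r) (∑_{i ∈ s r} u i)` is bounded by
`A |s r| + B`. -/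
theorem est_sum {u : ℕ → I →₀ 𝕜} (hu : ∀ i i', i < i' → Lt (u i) (u i')) {A B : ℝ} (hA : 0 ≤ A)
    (h : Est P C u A B) (s : Finset ℕ) (d : ℕ) (hav : ∀ i ∈ s, Avg P C (u i) d)
    (w : Fin d → I →₀ 𝕜) (hw : ∀ r r', r < r' → Lt (w r) (w r')) (hK : ∀ r, Fn P C none (w r)) :
    ∑ r, ‖pair (w r) (∑ i ∈ s, u i)‖ ≤ A * s.card + d * (B + 4) := by
  classical
  set sp : ℕ → Prop := fun i => ∃ r r' : Fin d, r' < r ∧ pair (w r') (u i) ≠ 0 ∧
    pair (w r) (u i) ≠ 0 with hsp
  set S := s.filter sp with hS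
  set U := s.filter fun i => ¬ sp i with hU
  have hSd : S.card ≤ d := by
    choose f g hfg using fun i : S => (mem_filter.1 i.2).2
    have key : ∀ i i' : S, (i : ℕ) < i' → f i ≠ f i' := fun i i' hii' e => by
      obtain ⟨a, ha, ha'⟩ := stage2a_common (hfg i').2.1
      obtain ⟨b, hb, hb'⟩ := stage2a_common (hfg i).2.2
      rw [e] at hb
      exact lt_asymm (hw _ _ (hfg i').1 a ha b hb) (hu _ _ hii' b hb' a ha')
    have hinj : Function.Injective f := fun i i' e => by
      rcases lt_trichotomy (i : ℕ) i' with h1 | h1 | h1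
      · exact absurd e (key i i' h1)
      · exact Subtype.ext h1
      · exact absurd e.symm (key i' i h1)
    simpa using Fintype.card_le_of_injective f hinj
  have h1 : ∑ r, ‖pair (w r) (∑ i ∈ S, u i)‖ ≤ d * 4 := by
    calc ∑ r, ‖pair (w r) (∑ i ∈ S, u i)‖ ≤ ∑ r, ∑ i ∈ S, ‖pair (w r) (u i)‖ :=
          sum_le_sum fun r _ => by rw [pair_sum_right]; exact norm_sum_le _ _
      _ = ∑ i ∈ S, ∑ r, ‖pair (w r) (u i)‖ := sum_comm
      _ ≤ ∑ i ∈ S, (4 : ℝ) :=
          sum_le_sum fun i hi => hav i (mem_filter.1 hi).1 d le_rfl w hw hK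
      _ ≤ d * 4 := by
          rw [sum_const, nsmul_eq_mul]
          exact mul_le_mul_of_nonneg_right (by exact_mod_cast hSd) (by norm_num)
  set V : Fin d → Finset ℕ := fun r => U.filter fun i => pair (w r) (u i) ≠ 0 with hV
  have hVc : ∑ r, (V r).card ≤ s.card := by
    rw [← card_biUnion]
    · exact card_le_card (biUnion_subset.2 fun r _ => (filter_subset _ _).trans (filter_subset _ _))
    · intro r _ r' _ hne
      refine disjoint_left.2 fun i hi hi' => ?_
      have h3 := (mem_filter.1 (mem_filter.1 hi).1).2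
      rcases lt_or_gt_of_ne hne with h2 | h2
      · exact h3 ⟨r', r, h2, (mem_filter.1 hi).2, (mem_filter.1 hi').2⟩
      · exact h3 ⟨r, r', h2, (mem_filter.1 hi').2, (mem_filter.1 hi).2⟩
  have h2 : ∑ r, ‖pair (w r) (∑ i ∈ U, u i)‖ ≤ A * s.card + d * B := by
    calc ∑ r, ‖pair (w r) (∑ i ∈ U, u i)‖ ≤ ∑ r, (A * (V r).card + B) :=
          sum_le_sum fun r _ => by
            have e : pair (w r) (∑ i ∈ U, u i) = pair (w r) (∑ i ∈ V r, u i) := by
              rw [pair_sum_right, pair_sum_right, hV]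
              exact (sum_filter_ne_zero _).symm
            rw [e]; exact h _ _ (hK r)
      _ = A * ((∑ r, (V r).card : ℕ) : ℝ) + d * B := by
          rw [sum_add_distrib, ← mul_sum, sum_const, card_univ, Fintype.card_fin, nsmul_eq_mul]
          push_cast; rfl
      _ ≤ A * s.card + d * B := by
          gcongr
  have h3 : ∑ r, ‖pair (w r) (∑ i ∈ s, u i)‖ ≤
      ∑ r, ‖pair (w r) (∑ i ∈ S, u i)‖ + ∑ r, ‖pair (w r) (∑ i ∈ U, u i)‖ := by
    rw [← sum_add_distrib]
    refine sum_le_sum fun r _ => ?_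
    rw [← sum_filter_add_sum_filter_not s sp, pair_add_right]
    exact norm_add_le _ _
  linarith

/-- `Fn.some_inv`, `est_sum`, `Avg.mono` (`d ≤ n l ≤ n (jj i)`); `0 ≤ B` from `h ∅ 0`. -/
theorem Ris2.low {j : ℕ} {u : ℕ → I →₀ 𝕜} {jj t : ℕ → ℕ} (hu : Ris2 P C j u jj t) {A B : ℝ}
    (hA : 0 ≤ A) (h : Est P C u A B) (s : Finset ℕ) {l : ℕ} (hl : l ≤ j) {φ : I →₀ 𝕜}
    (hφ : Fn P C (some l) φ) :
    ‖pair φ (∑ i ∈ s, u i)‖ ≤ (A * s.card + P.n l * (B + 4)) / P.m l := by
  obtain ⟨d, w, hd, hw, hK, rfl⟩ := hφ.some_inv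
  have hB : 0 ≤ B := by simpa using h ∅ 0 (Fn.zero none)
  have h1 := est_sum hu.lt hA h s d
    (fun i _ => (hu.avg i).mono (hd.trans (P.n_mono (hl.trans (hu.le i))))) w hw hK
  have hm := P.m_pos l
  rw [pair_real_smul_left, norm_mul, RCLike.norm_ofReal, abs_of_pos (inv_pos.2 hm),
    div_eq_inv_mul, pair_sum_left]
  refine mul_le_mul_of_nonneg_left ((norm_sum_le _ _).trans (h1.trans ?_)) (inv_pos.2 hm).le
  have : (d : ℝ) ≤ P.n l := by exact_mod_cast hd
  gcongr

/-- For each `i`: if `l ≤ jj i` use `Avg.pair_le` (`≤ 4 / m l ≤ 4 / m j`); if `t (i+1) ≤ l` use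
`Fn.pair_le_l1` and `hu.tail` (`≤ 1 / m j`); at most one `i` has `jj i < l < t (i+1)` (if `i < i'`
then `t (i+1) ≤ t i' ≤ jj i'`), and there the term is `≤ nrm (u i) = 1`. -/
theorem Ris2.high {j : ℕ} {u : ℕ → I →₀ 𝕜} {jj t : ℕ → ℕ} (hu : Ris2 P C j u jj t) (s : Finset ℕ)
    {l : ℕ} (hl : j ≤ l) {φ : I →₀ 𝕜} (hφ : Fn P C (some l) φ) :
    ‖pair φ (∑ i ∈ s, u i)‖ ≤ 4 / P.m j * s.card + 1 := by
  classical
  set bad : ℕ → Prop := fun i => jj i < l ∧ l < t (i + 1) with hbad
  have hmj := P.m_pos j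
  have hml : P.m j ≤ P.m l := P.m_mono hl
  have hc : (s.filter bad).card ≤ 1 := by
    have key : ∀ i i', i < i' → bad i → bad i' → False := fun i i' hii' h1 h2 => by
      have h3 := hu.t_mono (show i + 1 ≤ i' from hii')
      have h4 := hu.t_le i'
      have := h1.2
      have := h2.1
      omega
    refine card_le_one.2 fun i hi i' hi' => ?_
    rcases lt_trichotomy i i' with h1 | h1 | h1
    · exact (key i i' h1 (mem_filter.1 hi).2 (mem_filter.1 hi').2).elim
    · exact h1
    · exact (key i' i h1 (mem_filter.1 hi').2 (mem_filter.1 hi).2).elim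
  have hgood : ∀ i, ¬ bad i → ‖pair φ (u i)‖ ≤ 4 / P.m j := fun i hi => by
    by_cases h1 : l ≤ jj i
    · exact ((hu.avg i).pair_le hφ (P.n_mono h1)).trans
        (div_le_div_of_nonneg_left (by norm_num) hmj hml)
    · have h2 : t (i + 1) ≤ l := by
        by_contra h3
        exact hi ⟨not_le.1 h1, not_le.1 h3⟩
      have h3 := hu.tail i
      have h4 := l1_nonneg (u i)
      have h5 := P.m_pos (t (i + 1))
      have h6 : l1 (u i) / P.m l ≤ l1 (u i) / P.m (t (i + 1)) :=
        div_le_div_of_nonneg_left h4 h5 (P.m_mono h2)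
      have h7 : l1 (u i) / P.m (t (i + 1)) ≤ 2 / P.m (t (i + 1)) * l1 (u i) := by
        rw [div_mul_eq_mul_div]
        exact div_le_div_of_nonneg_right (by linarith) h5.le
      have h8 : 1 / P.m j ≤ 4 / P.m j := div_le_div_of_nonneg_right (by norm_num) hmj.le
      linarith [hφ.pair_le_l1 (u i)]
  rw [pair_sum_right]
  refine (norm_sum_le _ _).trans ?_
  rw [← sum_filter_add_sum_filter_not s bad, add_comm]
  refine add_le_add ?_ ?_
  · refine (sum_le_sum fun i hi => hgood i (mem_filter.1 hi).2).trans ?_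
    rw [sum_const, nsmul_eq_mul, mul_comm]
    exact mul_le_mul_of_nonneg_left (by exact_mod_cast card_filter_le _ _) (by positivity)
  · refine (sum_le_sum fun i _ => (hφ.pair_le_nrm (u i)).trans (hu.nrm_eq i).le).trans ?_
    rw [sum_const, nsmul_eq_mul, mul_one]
    exact_mod_cast hc

end Crest.Agent.R114
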