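import Crest.Agent.R114.Branch
import Crest.Agent.R114.Space

/-! Row 114: the recursion step in the construction of the atoms. -/

set_option autoImplicit false

open Finset

namespace Crest.Agent.R114

variable {I : Type} [LinearOrder I] {𝕜 : Type} [RCLike 𝕜] {P : Par} {C : Cod I 𝕜}
variable {Z : Type} [NormedAddCommGroup Z] [NormedSpace 𝕜 Z] {M : Cpl P C Z}

/-- The weak* sum of a tail of a branch. Plan: the linear functional
`z ↦ ∑ᶠ_{k ≥ N} pair (φ k) z` (or `Finsupp.linearCombination` of the numbers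
`∑ᶠ_{k ≥ N} φ k α`) is an eventually constant limit (`Br.OK.eventually_zero`) of functionals in `K`
(`Br.OK.fn`); use `Cpl.exists_ext`. -/
theorem Br.OK.exists_tail (M : Cpl P C Z) {b : Br I 𝕜} (h : b.OK P C) :
    ∃ Φ : ℕ → StrongDual 𝕜 Z, ∀ N z, ∃ N₁, ∀ N', N₁ ≤ N' →
      Φ N (M.ι z) = ∑ k ∈ Ico N N', pair (b.φ k) z := by
  choose N₁ hN₁ using h.eventually_zero
  have stab : ∀ N z N', N₁ z ≤ N' →
      ∑ k ∈ Ico N (N₁ z), pair (b.φ k) z = ∑ k ∈ Ico N N', pair (b.φ k) z := by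
    intro N z N' hN'
    refine sum_subset (Ico_subset_Ico_right hN') fun k hk hk' => hN₁ z k ?_
    rw [mem_Ico] at hk hk'
    omega
  have key : ∀ N, ∃ t : StrongDual 𝕜 Z, ∀ z,
      t (M.ι z) = ∑ k ∈ Ico N (N₁ z), pair (b.φ k) z := by
    intro N
    let g : (I →₀ 𝕜) →ₗ[𝕜] 𝕜 :=
      { toFun := fun z => ∑ k ∈ Ico N (N₁ z), pair (b.φ k) z
        map_add' := fun z z' => by
          rw [stab N (z + z') (max (N₁ (z + z')) (max (N₁ z) (N₁ z'))) (le_max_left _ _),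
            stab N z (max (N₁ (z + z')) (max (N₁ z) (N₁ z')))
              ((le_max_left _ _).trans (le_max_right _ _)),
            stab N z' (max (N₁ (z + z')) (max (N₁ z) (N₁ z')))
              ((le_max_right _ _).trans (le_max_right _ _)), ← sum_add_distrib]
          simp only [pair_add_right]
        map_smul' := fun c z => by
          rw [stab N (c • z) (max (N₁ (c • z)) (N₁ z)) (le_max_left _ _),
            stab N z (max (N₁ (c • z)) (N₁ z)) (le_max_right _ _)]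
          simp only [pair_smul_right, RingHom.id_apply, smul_eq_mul, mul_sum] }
    obtain ⟨t, -, ht⟩ := M.exists_ext g zero_le_one fun z => by
      change ‖∑ k ∈ Ico N (N₁ z), pair (b.φ k) z‖ ≤ 1 * nrm P C z
      rw [← pair_sum_left, one_mul]
      exact (h.fn _ _).pair_le_nrm z
    exact ⟨t, ht⟩
  choose Φ hΦ using key
  exact ⟨Φ, fun N z => ⟨N₁ z, fun N' hN' => (hΦ N z).trans (stab N z N' hN')⟩⟩

/-- Combinations of far tails are small.  Plan: the branches `(f γ).1`, `γ ∈ s`, are pairwise almost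
disjoint (`Good.ad`, `Br.AD.symm`).  Take `N₀` from `tails_fn`, and so large that
`s.card * (4 / m N₀) ≤ 1` (`Par.le_m`, `(f γ).1.j N ≥ N`).  For `z` take `N'` above the finitely many
`N₁` of `Good.approx`; `Cpl.opNorm_le`. -/
theorem far_tails {task : I → ℕ → I →₀ 𝕜} {f : I → Br I 𝕜 × (ℕ → StrongDual 𝕜 Z)} (s : Finset I)
    (hf : ∀ γ ∈ s, Good M task γ f (f γ)) :
    ∃ N₀, ∀ N, N₀ ≤ N → ∀ c : I → 𝕜, (∀ γ ∈ s, ‖c γ‖ ≤ 1) → ‖∑ γ ∈ s, c γ • (f γ).2 N‖ ≤ 2 := by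
  classical
  obtain ⟨N₀, hN₀⟩ := tails_fn (P := P) (C := C) s (fun γ => (f γ).1) (fun γ hγ => (hf γ hγ).ok)
    fun t ht t' ht' hne => by
      rcases lt_or_gt_of_ne hne with hlt | hlt
      · exact Br.AD.symm (hf t' ht').ok (hf t ht).ok ((hf t' ht').ad t hlt)
      · exact (hf t ht).ad t' hlt
  refine ⟨max N₀ (4 * s.card), fun N hN c hc => M.opNorm_le (by norm_num) fun z => ?_⟩
  have hex : ∀ γ, ∃ N₁, γ ∈ s → ∀ N', N₁ ≤ N' →
      ‖(f γ).2 N (M.ι z) - ∑ k ∈ Ico N N', pair ((f γ).1.φ k) z‖ ≤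
        4 / P.m ((f γ).1.j N) * nrm P C z := by
    intro γ
    by_cases hγ : γ ∈ s
    · obtain ⟨N₁, h₁⟩ := (hf γ hγ).approx N z
      exact ⟨N₁, fun _ => h₁⟩
    · exact ⟨0, fun h => absurd h hγ⟩
  choose N₁ hN₁ using hex
  set N' := s.sup N₁ with hN'
  have hz := nrm_nonneg (P := P) (C := C) z
  have h1 := (hN₀ N ((le_max_left _ _).trans hN) N' c hc).pair_le_nrm z
  have hcard : (4 * (s.card : ℝ)) ≤ N := by
    have := (le_max_right _ _).trans hN
    exact_mod_cast this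
  have h2 : ∀ γ ∈ s, ‖c γ * ((f γ).2 N (M.ι z) - ∑ k ∈ Ico N N', pair ((f γ).1.φ k) z)‖ ≤
      4 / ((N : ℝ) + 1) * nrm P C z := by
    intro γ hγ
    rw [norm_mul]
    have h3 := hN₁ γ hγ N' (le_sup hγ)
    have h4 : (N : ℝ) + 1 ≤ P.m ((f γ).1.j N) :=
      (P.le_m N).trans (P.m_mono ((hf γ hγ).ok.strictMono.id_le N))
    have h5 : 4 / P.m ((f γ).1.j N) ≤ 4 / ((N : ℝ) + 1) :=
      div_le_div_of_nonneg_left (by norm_num) (by positivity) h4
    calc _ ≤ 1 * (4 / P.m ((f γ).1.j N) * nrm P C z) :=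
          mul_le_mul (hc γ hγ) h3 (norm_nonneg _) zero_le_one
      _ ≤ _ := by rw [one_mul]; exact mul_le_mul_of_nonneg_right h5 hz
  have h3 : (∑ γ ∈ s, c γ • (f γ).2 N) (M.ι z) =
      ∑ γ ∈ s, c γ * ((f γ).2 N (M.ι z) - ∑ k ∈ Ico N N', pair ((f γ).1.φ k) z) +
        pair (∑ t ∈ s, c t • ∑ k ∈ Ico N N', (f t).1.φ k) z := by
    rw [ContinuousLinearMap.sum_apply, pair_sum_left, ← sum_add_distrib]
    refine sum_congr rfl fun γ _ => ?_
    rw [pair_smul_left, pair_sum_left, ContinuousLinearMap.smul_apply, smul_eq_mul]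
    ring
  rw [h3]
  have h4 := norm_sum_le_of_le s h2
  rw [sum_const, nsmul_eq_mul] at h4
  have h5 : (s.card : ℝ) * (4 / ((N : ℝ) + 1)) ≤ 1 := by
    rw [← mul_div_assoc, div_le_one (by positivity)]
    linarith
  have h6 : (s.card : ℝ) * (4 / ((N : ℝ) + 1) * nrm P C z) ≤ nrm P C z := by
    rw [← mul_assoc]
    nlinarith
  refine (norm_add_le _ _).trans ?_
  linarith

/-- `e_γ* + T^γ_N` is in the span of the atoms of index `≤ γ` (`Good.span`). -/
theorem Good.mem_span {task : I → ℕ → I →₀ 𝕜} {f : I → Br I 𝕜 × (ℕ → StrongDual 𝕜 Z)} {γ : I}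
    (hf : Good M task γ f (f γ)) (N : ℕ) {L : Set I} (hL : Set.Iic γ ⊆ L) :
    M.fnl (Finsupp.single γ 1) + (f γ).2 N ∈
      Submodule.span 𝕜 ((fun γ => M.fnl (Finsupp.single γ 1) + (f γ).2 0) '' L) := by
  have h1 : M.fnl (Finsupp.single γ 1) + (f γ).2 N =
      (M.fnl (Finsupp.single γ 1) + (f γ).2 0) - ((f γ).2 0 - (f γ).2 N) := by abel
  rw [h1]
  refine Submodule.sub_mem _ (Submodule.subset_span ⟨γ, hL Set.self_mem_Iic, rfl⟩) ?_
  exact Submodule.span_mono (Set.image_mono (Set.Iio_subset_Iic_self.trans hL)) (hf.span N)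

theorem Good.loc {task : I → ℕ → I →₀ 𝕜} {β : I} {f f' : I → Br I 𝕜 × (ℕ → StrongDual 𝕜 Z)}
    {d : Br I 𝕜 × (ℕ → StrongDual 𝕜 Z)} (h : ∀ γ, γ < β → f γ = f' γ) (hd : Good M task β f d) :
    Good M task β f' d := by
  refine ⟨hd.ok, hd.big, fun γ hγ => h γ hγ ▸ hd.ad γ hγ, hd.supp, hd.van, hd.approx,
    fun N => ?_, hd.task⟩
  have h1 : (fun γ => M.fnl (Finsupp.single γ 1) + (f' γ).2 0) '' Set.Iio β =
      (fun γ => M.fnl (Finsupp.single γ 1) + (f γ).2 0) '' Set.Iio β :=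
    Set.image_congr fun γ hγ => by rw [h γ hγ]
  rw [h1]
  exact hd.span N

/-- Plan.  `b` from `exists_branch` with `B = (fun γ => (f γ).1) '' Iio β`, `j₀ = 351`, and
`z = task β` if the task is valid (block sequence below `β`), `z = 0` otherwise.  In both cases the
supports of the `φ k` are below `β`.  For each `k` let `N k` be given by `far_tails` for
`s = (φ k).support` and `τ k = ∑_{γ ∈ s} φ k γ • (f γ).2 (N k)`; as `‖φ k γ‖ ≤ 1 / m (j k)`
(`Fn.bound_some`), `‖τ k‖ ≤ 2 / m (j k)`, so `τ` is summable (the dual is complete) and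
`‖∑'_{k ≥ N} τ k‖ ≤ 4 / m (j N)` (`Par.sum_inv_le'`).  Put `T N = Φ N + ∑' k, τ (N + k)` with `Φ`
from `Br.OK.exists_tail`.  `van`: `(f γ).2 _` vanishes on `e_α` for `α > γ` (`supp`, `van` of `γ`).
`span`: `T 0 - T N = ∑_{k<N} (fnl (φ k) + τ k)` (`Cpl.ext` or density for the `Φ` part) and
`fnl (φ k) + τ k = ∑_γ φ k γ • (e_γ* + (f γ).2 (N k))`, `Good.mem_span`. -/
theorem good_step [CompleteSpace Z] (hc : ∀ a : I, (Set.Iio a).Countable) (M : Cpl P C Z)
    (task : I → ℕ → I →₀ 𝕜) (β : I) (f : I → Br I 𝕜 × (ℕ → StrongDual 𝕜 Z))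
    (hf : ∀ γ, γ < β → Good M task γ f (f γ)) : ∃ d, Good M task β f d := by
  classical
  set valid : Prop := Blk (task β) ∧ ∀ i, ∀ γ ∈ (task β i).support, γ < β with hvalid
  set z : ℕ → I →₀ 𝕜 := if valid then task β else 0 with hz
  obtain ⟨b, hb, hbig, had, hsupp, htask⟩ := exists_branch (P := P) (C := C)
    ((fun γ => (f γ).1) '' Set.Iio β) ((hc β).image _)
    (by rintro _ ⟨γ, hγ, rfl⟩; exact (hf γ hγ).ok) 351 z
  have hlt : ∀ k, ∀ α ∈ (b.φ k).support, α < β := by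
    intro k α hα
    obtain ⟨i, γ, hγ, hle⟩ := hsupp k α hα
    by_cases hv : valid
    · rw [hz, if_pos hv] at hγ
      exact hle.trans_lt (hv.2 i γ hγ)
    · rw [hz, if_neg hv] at hγ
      simp at hγ
  have hfar : ∀ k, ∃ N₀, ∀ N, N₀ ≤ N → ∀ c : I → 𝕜, (∀ γ ∈ (b.φ k).support, ‖c γ‖ ≤ 1) →
      ‖∑ γ ∈ (b.φ k).support, c γ • (f γ).2 N‖ ≤ 2 := fun k =>
    far_tails (M := M) (task := task) (b.φ k).support fun γ hγ => hf γ (hlt k γ hγ)
  choose Nk hNk using hfar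
  set τ : ℕ → StrongDual 𝕜 Z := fun k => ∑ γ ∈ (b.φ k).support, b.φ k γ • (f γ).2 (Nk k) with hτ
  have hτn : ∀ k, ‖τ k‖ ≤ 2 * (P.m (b.j k))⁻¹ := by
    intro k
    have hm := P.m_pos (b.j k)
    have h1 := hNk k (Nk k) le_rfl (fun γ => ((P.m (b.j k) : ℝ) : 𝕜) * b.φ k γ) fun γ _ => by
      rw [norm_mul, RCLike.norm_ofReal, abs_of_pos hm]
      have := (hb.2.2 k).bound_some γ
      calc _ ≤ P.m (b.j k) * (P.m (b.j k))⁻¹ := mul_le_mul_of_nonneg_left this hm.le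
        _ = 1 := mul_inv_cancel₀ hm.ne'
    have h2 : ∑ γ ∈ (b.φ k).support, (((P.m (b.j k) : ℝ) : 𝕜) * b.φ k γ) • (f γ).2 (Nk k) =
        ((P.m (b.j k) : ℝ) : 𝕜) • τ k := by
      rw [hτ, smul_sum]
      exact sum_congr rfl fun γ _ => by rw [mul_smul]
    rw [h2, norm_smul, RCLike.norm_ofReal, abs_of_pos hm] at h1
    rw [← div_eq_mul_inv, le_div_iff₀ hm]
    linarith
  have hsum : ∀ N (s : Finset ℕ), ∑ k ∈ s, 2 * (P.m (b.j (k + N)))⁻¹ ≤ 4 / P.m (b.j N) := by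
    intro N s
    have h1 := P.sum_inv_le' (b.j N) s (fun k => b.j (k + N))
      (fun k _ k' _ e => by
        have := hb.strictMono.injective e
        omega)
      fun k _ => hb.strictMono.monotone (by omega)
    rw [← mul_sum]
    have h2 : 4 / P.m (b.j N) = 2 * (2 / P.m (b.j N)) := by ring
    rw [h2]
    exact mul_le_mul_of_nonneg_left h1 (by norm_num)
  have hnn : ∀ N k, 0 ≤ 2 * (P.m (b.j (k + N)))⁻¹ := fun N k =>
    mul_nonneg (by norm_num) (inv_pos.mpr (P.m_pos _)).le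
  have hsg : ∀ N, Summable fun k => 2 * (P.m (b.j (k + N)))⁻¹ := fun N =>
    summable_of_sum_le (hnn N) (hsum N)
  have hsτ : ∀ N, Summable fun k => τ (k + N) := fun N =>
    Summable.of_norm_bounded (hsg N) fun k => hτn (k + N)
  have htail : ∀ N, ‖∑' k, τ (k + N)‖ ≤ 4 / P.m (b.j N) := fun N =>
    (tsum_of_norm_bounded (hsg N).hasSum fun k => hτn (k + N)).trans
      ((hsg N).tsum_le_of_sum_le (hsum N))
  obtain ⟨Φ, hΦ⟩ := hb.exists_tail M
  refine ⟨(b, fun N => Φ N + ∑' k, τ (k + N)), hb, hbig, fun γ hγ => had _ ⟨γ, hγ, rfl⟩, hlt,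
    fun N α hα => ?_, fun N w => ?_, fun N => ?_, fun h1 h2 => ?_⟩
  · have h1 : Φ N (M.ι (Finsupp.single α 1)) = 0 := by
      obtain ⟨N₁, h₁⟩ := hΦ N (Finsupp.single α 1)
      rw [h₁ N₁ le_rfl]
      refine sum_eq_zero fun k _ => ?_
      rw [pair_single_right, mul_one]
      exact Finsupp.notMem_support_iff.mp fun h => lt_irrefl _ (hα k α h)
    have h2 : ∀ k, τ k (M.ι (Finsupp.single α 1)) = 0 := by
      intro k
      rw [hτ]
      simp only [ContinuousLinearMap.sum_apply, ContinuousLinearMap.smul_apply]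
      refine sum_eq_zero fun γ hγ => ?_
      rw [(hf γ (hlt k γ hγ)).van _ α fun k' γ' hγ' =>
        ((hf γ (hlt k γ hγ)).supp k' γ' hγ').trans (hα k γ hγ), smul_zero]
    have h3 := ((hsτ N).hasSum.mapL
      (ContinuousLinearMap.apply 𝕜 𝕜 (M.ι (Finsupp.single α 1)))).tsum_eq
    simp only [ContinuousLinearMap.apply_apply, h2, tsum_zero] at h3
    change (Φ N + ∑' k, τ (k + N)) (M.ι (Finsupp.single α 1)) = 0
    rw [ContinuousLinearMap.add_apply, h1, ← h3, add_zero]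
  · obtain ⟨N₁, h₁⟩ := hΦ N w
    refine ⟨N₁, fun N' hN' => ?_⟩
    change ‖(Φ N + ∑' k, τ (k + N)) (M.ι w) - ∑ k ∈ Ico N N', pair (b.φ k) w‖ ≤
      4 / P.m (b.j N) * nrm P C w
    rw [ContinuousLinearMap.add_apply, h₁ N' hN', add_sub_cancel_left, ← M.norm_ι]
    exact ((∑' k, τ (k + N)).le_opNorm _).trans
      (mul_le_mul_of_nonneg_right (htail N) (norm_nonneg _))
  · have h1 : Φ 0 - Φ N = ∑ k ∈ range N, M.fnl (b.φ k) := by
      refine M.ext fun α => ?_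
      obtain ⟨N₁, h₁⟩ := hΦ 0 (Finsupp.single α 1)
      obtain ⟨N₂, h₂⟩ := hΦ N (Finsupp.single α 1)
      rw [ContinuousLinearMap.sub_apply, h₁ (max N (max N₁ N₂))
        ((le_max_left _ _).trans (le_max_right _ _)), h₂ (max N (max N₁ N₂))
        ((le_max_right _ _).trans (le_max_right _ _)), ContinuousLinearMap.sum_apply,
        ← sum_Ico_consecutive _ (Nat.zero_le N) (le_max_left _ _), add_sub_cancel_right,
        range_eq_Ico]
      exact sum_congr rfl fun k _ => (M.fnl_ι _ _).symm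
    have h2 : ∑' k, τ (k + 0) = ∑ k ∈ range N, τ k + ∑' k, τ (k + N) :=
      (Summable.sum_add_tsum_nat_add N (f := τ) (hsτ 0)).symm
    have h3 : (Φ 0 + ∑' k, τ (k + 0)) - (Φ N + ∑' k, τ (k + N)) =
        ∑ k ∈ range N, (M.fnl (b.φ k) + τ k) := by
      rw [sum_add_distrib, ← h1, h2]
      abel
    change (Φ 0 + ∑' k, τ (k + 0)) - (Φ N + ∑' k, τ (k + N)) ∈ _
    rw [h3]
    refine Submodule.sum_mem _ fun k _ => ?_
    have h4 : M.fnl (b.φ k) + τ k = ∑ γ ∈ (b.φ k).support,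
        b.φ k γ • (M.fnl (Finsupp.single γ 1) + (f γ).2 (Nk k)) := by
      have h5 : b.φ k = ∑ γ ∈ (b.φ k).support, b.φ k γ • Finsupp.single γ (1 : 𝕜) := by
        conv_lhs => rw [← Finsupp.sum_single (b.φ k)]
        exact sum_congr rfl fun γ _ => by simp
      have h6 : M.fnl (b.φ k) = ∑ γ ∈ (b.φ k).support, b.φ k γ • M.fnl (Finsupp.single γ 1) := by
        conv_lhs => rw [h5]
        simp only [map_sum, map_smul]
      rw [h6, hτ, ← sum_add_distrib]
      exact sum_congr rfl fun γ _ => (smul_add _ _ _).symm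
    rw [h4]
    refine Submodule.sum_mem _ fun γ hγ => Submodule.smul_mem _ _ ?_
    exact (hf γ (hlt k γ hγ)).mem_span _ fun x hx => lt_of_le_of_lt hx (hlt k γ hγ)
  · have hv : valid := ⟨h1, h2⟩
    have hz' : z = task β := by rw [hz, if_pos hv]
    rw [hz'] at hsupp htask
    exact ⟨hsupp, htask h1⟩

end Crest.Agent.R114
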